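import Vale.Agent.P366.H353.Basic

/-! Sphere integrals depending on a parameter. -/

open MeasureTheory Metric Filter Topology Set
open scoped ContDiff

noncomputable section
namespace Vale.Agent.P366.H296

open Vale.Agent.P366 (sphI sphM pd E)
open Vale.Agent.P366.H353

variable {g g' : ℝ → E 3 → ℝ} {a b : ℝ}

lemma slice_cont (hc : ContinuousOn (fun p : ℝ × E 3 => g p.1 p.2) (Icc a b ×ˢ sphere 0 1))
    {t : ℝ} (ht : t ∈ Icc a b) : ContinuousOn (g t) (sphere (0 : E 3) 1) :=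
  hc.comp (f := fun x : E 3 => (t, x)) (by fun_prop) fun _ hx => ⟨ht, hx⟩

lemma slice_cont' (hc : ContinuousOn (fun p : ℝ × E 3 => g p.1 p.2) (Icc a b ×ˢ sphere 0 1))
    {x : E 3} (hx : x ∈ sphere (0 : E 3) 1) : ContinuousOn (fun t => g t x) (Icc a b) :=
  hc.comp (f := fun t : ℝ => (t, x)) (by fun_prop) fun _ ht => ⟨ht, hx⟩

lemma unif_bound (hc : ContinuousOn (fun p : ℝ × E 3 => g p.1 p.2) (Icc a b ×ˢ sphere 0 1)) :
    ∃ C : ℝ, ∀ t ∈ Icc a b, ∀ x ∈ sphere (0 : E 3) 1, ‖g t x‖ ≤ C := by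
  obtain ⟨C, hC⟩ := (isCompact_Icc.prod (isCompact_sphere (0 : E 3) 1)).exists_bound_of_continuousOn
    hc
  exact ⟨C, fun t ht x hx => hC (t, x) ⟨ht, hx⟩⟩

lemma int_const_sph (C : ℝ) : Integrable (fun _ : sphere (0 : E 3) 1 => C) (sphM 3) :=
  int_sph (f := fun _ => C) continuousOn_const

theorem S2_continuousOn
    (hc : ContinuousOn (fun p : ℝ × E 3 => g p.1 p.2) (Icc a b ×ˢ sphere 0 1)) :
    ContinuousOn (fun t => S2 (g t)) (Icc a b) := by
  obtain ⟨C, hC⟩ := unif_bound hc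
  intro t ht
  refine continuousWithinAt_of_dominated (bound := fun _ => C) ?_ ?_ (int_const_sph C) ?_
  · filter_upwards [self_mem_nhdsWithin] with s hs
    exact (int_sph (slice_cont hc hs)).aestronglyMeasurable
  · filter_upwards [self_mem_nhdsWithin] with s hs
    exact Eventually.of_forall fun θ => hC s hs θ θ.2
  · exact Eventually.of_forall fun θ => slice_cont' hc θ.2 t ht

theorem S2_hasDerivAt
    (hc : ContinuousOn (fun p : ℝ × E 3 => g p.1 p.2) (Icc a b ×ˢ sphere 0 1))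
    (hc' : ContinuousOn (fun p : ℝ × E 3 => g' p.1 p.2) (Icc a b ×ˢ sphere 0 1))
    (hd : ∀ t ∈ Ioo a b, ∀ x : E 3, ‖x‖ = 1 → HasDerivAt (fun t => g t x) (g' t x) t)
    {t : ℝ} (ht : t ∈ Ioo a b) : HasDerivAt (fun t => S2 (g t)) (S2 (g' t)) t := by
  obtain ⟨C, hC⟩ := unif_bound hc'
  refine (hasDerivAt_integral_of_dominated_loc_of_deriv_le
    (F := fun t (θ : sphere (0 : E 3) 1) => g t θ) (F' := fun t (θ : sphere (0 : E 3) 1) => g' t θ)
    (μ := sphM 3) (x₀ := t) (s := Ioo a b) (bound := fun _ => C) (isOpen_Ioo.mem_nhds ht)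
    ?_ ?_ ?_ ?_ (int_const_sph C) ?_).2
  · filter_upwards [isOpen_Ioo.mem_nhds ht] with s hs
    exact (int_sph (slice_cont hc (Ioo_subset_Icc_self hs))).aestronglyMeasurable
  · exact int_sph (slice_cont hc (Ioo_subset_Icc_self ht))
  · exact (int_sph (slice_cont hc' (Ioo_subset_Icc_self ht))).aestronglyMeasurable
  · exact Eventually.of_forall fun θ s hs => hC s (Ioo_subset_Icc_self hs) θ θ.2
  · exact Eventually.of_forall fun θ s hs => hd s hs θ (by simp)

theorem S2_mono_param (hab : a ≤ b)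
    (hc : ContinuousOn (fun p : ℝ × E 3 => g p.1 p.2) (Icc a b ×ˢ sphere 0 1))
    (hc' : ContinuousOn (fun p : ℝ × E 3 => g' p.1 p.2) (Icc a b ×ˢ sphere 0 1))
    (hd : ∀ t ∈ Ioo a b, ∀ x : E 3, ‖x‖ = 1 → HasDerivAt (fun t => g t x) (g' t x) t)
    (h : ∀ t ∈ Ioo a b, 0 ≤ S2 (g' t)) : S2 (g a) ≤ S2 (g b) := by
  have hm : MonotoneOn (fun t => S2 (g t)) (Icc a b) := by
    refine monotoneOn_of_deriv_nonneg (convex_Icc a b) (S2_continuousOn hc) ?_ ?_
    · intro t ht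
      rw [interior_Icc] at ht
      exact (S2_hasDerivAt hc hc' hd ht).differentiableAt.differentiableWithinAt
    · intro t ht
      rw [interior_Icc] at ht
      rw [(S2_hasDerivAt hc hc' hd ht).deriv]
      exact h t ht
  exact hm (left_mem_Icc.mpr hab) (right_mem_Icc.mpr hab) hab

end Vale.Agent.P366.H296
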