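import Vale.Agent.P366.H296.X4a
import Vale.Agent.P366.H296.Par

/-! Null shells: monotonicity of `∫ V tr W` in time on a level set. -/

open MeasureTheory Metric Filter Topology Set
open scoped ContDiff

noncomputable section
namespace Vale.Agent.P366.H296

open Vale.Agent.P366 (sphI sphM pd E)
open Vale.Agent.P366.H353

variable {H : E 3 → ℝ} {x : E 3} {s : ℝ}

/-- the parallel support function -/
def Hp (H : E 3 → ℝ) (s : ℝ) (x : E 3) : ℝ := H x + s * ‖x‖

lemma sm_Hp (hH : Sm H) (s : ℝ) : Sm (Hp H s) := hH.add ((Sm.const s).mul Sm.norm)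

lemma hom_Hp (h1 : Hom 1 H) (s : ℝ) : Hom 1 (Hp H s) := h1.add (Hom.norm.cmul s)

lemma pd_Hp (hH : Sm H) (hx : x ≠ 0) (i : Fin 3) :
    pd i (Hp H s) x = pd i H x + s * (x i / ‖x‖) := by
  unfold Hp
  rw [pd_add' hH ((Sm.const s).mul Sm.norm) hx, pd_cmul' Sm.norm s hx, pd_norm' hx]

lemma hs_Hp (hH : Sm H) (hx : ‖x‖ = 1) (i j : Fin 3) :
    hs (Hp H s) i j x = hs H i j x + s * pr x i j := by
  have h0 := ne_zero_of_one hx
  have hN : Sm fun y => y j / ‖y‖ :=
    (Sm.coord j).div Sm.norm fun y hy => norm_ne_zero_iff.mpr hy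
  unfold hs
  rw [pd_congr' (fun y hy => pd_Hp hH hy j) h0, pd_add' (hH.pd j) ((Sm.const s).mul hN) h0,
    pd_cmul' hN s h0]
  have h := Vale.Agent.P366.pd_Nc h0 i j
  unfold Vale.Agent.P366.Nc at h
  rw [h, hx]
  unfold pr kd
  simp

lemma lap_Hp (hH : Sm H) (hx : ‖x‖ = 1) : lap (Hp H s) x = lap H x + 2 * s := by
  have h := tr_pr hx
  have h1 : lap (Hp H s) x = lap H x + s * tr3 (pr x) := by
    unfold tr3 lap
    rw [Finset.mul_sum, ← Finset.sum_add_distrib]
    exact Finset.sum_congr rfl fun i _ => hs_Hp hH hx i i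
  rw [h1, h]; ring

lemma gr_Hp (hH : Sm H) (hx : ‖x‖ = 1) : gr (Hp H s) x = gr H x + s • x := by
  ext i
  rw [gr_apply, pd_Hp hH (ne_zero_of_one hx), hx]
  simp

/-- Cayley-Hamilton on the plane -/
lemma cayley {M : Fin 3 → Fin 3 → ℝ} (hx : ‖x‖ = 1) (hs : ∀ i j, M i j = M j i)
    (hM : ∀ i, ∑ j, M i j * x j = 0) (j k : Fin 3) :
    tr3 M * M j k - ∑ i, M i j * M i k = det2 M * pr x j k := by
  obtain ⟨e, f, he, hf, hef, hxe, hxf, hc⟩ := exists_onb x (sum_sq_one hx)
  have o : On e f := ⟨he, hf, hef⟩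
  have hF := expand hc hs hM
  set a := ∑ k, ∑ l, M k l * e k * e l
  set b := ∑ k, ∑ l, M k l * e k * f l
  set c := ∑ k, ∑ l, M k l * f k * f l
  have hMF : Fr e f a b c M := hF
  have hp : pr x j k = e j * e k + f j * f k := hc j k
  rw [hMF.tr o, hMF.dt o, hp]
  have h2 : ∑ i, M i j * M i k =
      (∑ i, e i ^ 2) * ((a * e j + b * f j) * (a * e k + b * f k)) +
      (∑ i, e i * f i) * ((a * e j + b * f j) * (b * e k + c * f k) +
        (b * e j + c * f j) * (a * e k + b * f k)) +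
      (∑ i, f i ^ 2) * ((b * e j + c * f j) * (b * e k + c * f k)) := by
    simp only [hMF _ j, hMF _ k, Fin.sum_univ_three]
    ring
  rw [h2, he, hf, hef, hMF j k]
  ring

lemma hs_x (hH : Sm H) (h1 : Hom 1 H) (hx : x ≠ 0) (i : Fin 3) : ∑ j, hs H i j x * x j = 0 := by
  have h := (h1.pd hH i).euler (hH.pd i) hx
  have h2 : ∀ j, hs H i j x * x j = x j * pd j (pd i H) x := fun j => by
    rw [hs_symm hH hx i j]; exact mul_comm _ _
  rw [Finset.sum_congr rfl fun j _ => h2 j, h]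
  push_cast; ring

/-- The Piola identity for a gradient. -/
theorem piola_V {V : E 3 → ℝ} (hH : Sm H) (h1 : Hom 1 H)
    (hV : ∀ x : E 3, ‖x‖ = 1 → ContDiffAt ℝ ∞ V (gr H x)) :
    S2 (fun x => det2 (fun i j => hs H i j x) * (lap V (gr H x) -
      ∑ j, ∑ k, x j * x k * hs V j k (gr H x))) =
    S2 (fun x => lap H x * ∑ j, x j * pd j V (gr H x)) := by
  have hV' : ∀ x : E 3, x ≠ 0 → ContDiffAt ℝ ∞ V (gr H x) := by
    intro x hx
    have hn : 0 < ‖x‖ := norm_pos_iff.mpr hx
    have hx1 : ‖‖x‖⁻¹ • x‖ = 1 := by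
      rw [norm_smul, norm_inv, norm_norm, inv_mul_cancel₀ hn.ne']
    have h := hV _ hx1
    rwa [gr_hom hH h1 hx (inv_pos.mpr hn)] at h
  have hG : ∀ (j : Fin 3) (x : E 3), x ≠ 0 → ContDiffAt ℝ ∞ (pd j V) (gr H x) := by
    intro j x hx
    have h1 : ContDiffAt ℝ ∞ (fderiv ℝ V) (gr H x) := (hV' x hx).fderiv_right (by simp)
    exact h1.clm_apply contDiffAt_const
  rw [← piola hH h1 hG]
  refine S2_congr fun x hx => ?_
  have h0 := ne_zero_of_one hx
  have hch := cayley (M := fun i j => hs H i j x) hx (hs_symm hH h0) (hs_x hH h1 h0)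
  set y := gr H x
  have e1 : lap H x * (∑ j, ∑ k, hs H j k x * pd k (pd j V) y) -
      ∑ i, ∑ j, hs H i j x * ∑ k, hs H i k x * pd k (pd j V) y =
      ∑ j, ∑ k, (tr3 (fun i j => hs H i j x) * hs H j k x - ∑ i, hs H i j x * hs H i k x) *
        hs V k j y := by
    have e2 : ∑ i, ∑ j, hs H i j x * ∑ k, hs H i k x * pd k (pd j V) y =
        ∑ j, ∑ k, (∑ i, hs H i j x * hs H i k x) * hs V k j y := by
      rw [Finset.sum_comm]
      refine Finset.sum_congr rfl fun j _ => ?_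
      simp only [Finset.mul_sum, Finset.sum_mul]
      rw [Finset.sum_comm]
      refine Finset.sum_congr rfl fun k _ => Finset.sum_congr rfl fun i _ => ?_
      unfold hs; ring
    rw [e2, Finset.mul_sum, ← Finset.sum_sub_distrib]
    refine Finset.sum_congr rfl fun j _ => ?_
    rw [Finset.mul_sum, ← Finset.sum_sub_distrib]
    refine Finset.sum_congr rfl fun k _ => ?_
    unfold tr3 lap
    unfold hs
    ring
  rw [e1]
  simp only [hch]
  unfold lap pr
  simp only [mul_assoc, ← Finset.mul_sum]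
  congr 1
  simp only [sub_mul, Finset.sum_sub_distrib]
  congr 1
  · refine Finset.sum_congr rfl fun j _ => ?_
    simp [kd]
  · rw [Finset.sum_comm]
    refine Finset.sum_congr rfl fun j _ => ?_
    rw [Finset.mul_sum]
    exact Finset.sum_congr rfl fun k _ => by ring

/-- The monotonicity in time. `y = gr H x` runs through the level set. -/
theorem mono_t {V : ℝ → E 3 → ℝ} {t1 t2 : ℝ} (h12 : t1 ≤ t2) (hH : Sm H) (h1 : Hom 1 H)
    (hV : ∀ t ∈ Icc t1 t2, ∀ x : E 3, ‖x‖ = 1 →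
      ContDiffAt ℝ ∞ (fun p : ℝ × E 3 => V p.1 p.2) (t, gr H x))
    (hb : ∀ t ∈ Ioo t1 t2, ∀ x : E 3, ‖x‖ = 1 →
      0 ≤ lap H x * deriv (fun τ => V τ (gr H x)) t -
        (det2 (fun i j => hs H i j x) * (lap (V t) (gr H x) -
          ∑ j, ∑ k, x j * x k * hs (V t) j k (gr H x)) -
        lap H x * ∑ j, x j * pd j (V t) (gr H x))) :
    S2 (fun x => V t1 (gr H x) * lap H x) ≤ S2 (fun x => V t2 (gr H x) * lap H x) := by
  set Vj : ℝ × E 3 → ℝ := fun p => V p.1 p.2 with hVj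
  have cgr : ContinuousOn (fun p : ℝ × E 3 => ((p.1, gr H p.2) : ℝ × E 3))
      (Icc t1 t2 ×ˢ sphere 0 1) := by
    refine continuousOn_fst.prodMk ?_
    have : ContinuousOn (gr H) (sphere (0 : E 3) 1) := fun x hx =>
      (gr_contDiffAt hH (ne_zero_of_one (by simpa using hx))).continuousAt.continuousWithinAt
    exact this.comp continuousOn_snd fun p hp => hp.2
  have clap : ContinuousOn (fun p : ℝ × E 3 => lap H p.2) (Icc t1 t2 ×ˢ sphere 0 1) :=
    hH.lap.contOn.comp continuousOn_snd fun p hp => hp.2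
  have hmem : ∀ p ∈ Icc t1 t2 ×ˢ sphere (0 : E 3) 1, ContDiffAt ℝ ∞ Vj (p.1, gr H p.2) :=
    fun p hp => hV p.1 hp.1 p.2 (by simpa using hp.2)
  have hderiv : ∀ t ∈ Icc t1 t2, ∀ x : E 3, ‖x‖ = 1 →
      HasDerivAt (fun τ => V τ (gr H x)) (fderiv ℝ Vj (t, gr H x) (1, 0)) t := by
    intro t ht x hx
    have h2 : HasFDerivAt Vj (fderiv ℝ Vj (t, gr H x)) (t, gr H x) :=
      ((hV t ht x hx).differentiableAt (by simp)).hasFDerivAt
    have h3 : HasDerivAt (fun τ : ℝ => ((τ, gr H x) : ℝ × E 3)) (1, 0) t :=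
      (hasDerivAt_id t).prodMk (hasDerivAt_const t (gr H x))
    exact h2.comp_hasDerivAt t h3
  refine S2_mono_param (g := fun t x => V t (gr H x) * lap H x)
    (g' := fun t x => fderiv ℝ Vj (t, gr H x) (1, 0) * lap H x) h12 ?_ ?_ ?_ ?_
  · refine ContinuousOn.mul ?_ clap
    intro p hp
    exact ContinuousAt.comp_continuousWithinAt (g := Vj)
      (f := fun p : ℝ × E 3 => ((p.1, gr H p.2) : ℝ × E 3)) (x := p)
      (hmem p hp).continuousAt (cgr p hp)
  · refine ContinuousOn.mul ?_ clap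
    intro p hp
    have h3 := ContinuousAt.comp_continuousWithinAt (g := fderiv ℝ Vj)
      (f := fun p : ℝ × E 3 => ((p.1, gr H p.2) : ℝ × E 3)) (x := p)
      ((hmem p hp).fderiv_right (m := ∞) (by simp)).continuousAt (cgr p hp)
    exact h3.clm_apply continuousWithinAt_const
  · intro t ht x hx
    exact (hderiv t (Ioo_subset_Icc_self ht) x hx).mul_const _
  · intro t ht
    have hVt : ∀ x : E 3, ‖x‖ = 1 → ContDiffAt ℝ ∞ (V t) (gr H x) := fun x hx => by
      have h2 := hV t (Ioo_subset_Icc_self ht) x hx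
      have h3 : ContDiffAt ℝ ∞ (fun y : E 3 => ((t, y) : ℝ × E 3)) (gr H x) :=
        contDiffAt_const.prodMk contDiffAt_id
      exact h2.comp (gr H x) h3
    have hVx : ∀ x : E 3, x ≠ 0 → ContDiffAt ℝ ∞ (V t) (gr H x) := by
      intro x hx
      have hn : 0 < ‖x‖ := norm_pos_iff.mpr hx
      have hx1 : ‖‖x‖⁻¹ • x‖ = 1 := by
        rw [norm_smul, norm_inv, norm_norm, inv_mul_cancel₀ hn.ne']
      have h := hVt _ hx1
      rwa [gr_hom hH h1 hx (inv_pos.mpr hn)] at h
    have hpi := piola_V hH h1 hVt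
    have sG : ∀ j, Sm fun x => pd j (V t) (gr H x) := fun j => sm_comp_gr hH fun x hx =>
      ((hVx x hx).fderiv_right (m := ∞) (by simp)).clm_apply contDiffAt_const
    have sH : ∀ j k, Sm fun x => hs (V t) j k (gr H x) := fun j k => sm_comp_gr hH fun x hx => by
      have a1 : ContDiffAt ℝ ∞ (pd k (V t)) (gr H x) :=
        ((hVx x hx).fderiv_right (m := ∞) (by simp)).clm_apply contDiffAt_const
      exact (a1.fderiv_right (m := ∞) (by simp)).clm_apply contDiffAt_const
    have sdet : Sm fun x => det2 (fun i j => hs H i j x) := by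
      unfold det2 tr3 ip3
      exact (((Sm.sum _ fun i => hH.hs i i).pow 2).sub (Sm.sum _ fun i => Sm.sum _ fun j =>
        (hH.hs i j).mul (hH.hs i j))).div (Sm.const 2) fun _ _ => two_ne_zero
    have sA : Sm fun x => det2 (fun i j => hs H i j x) * (lap (V t) (gr H x) -
          ∑ j, ∑ k, x j * x k * hs (V t) j k (gr H x)) :=
      sdet.mul ((Sm.sum _ fun i => sH i i).sub (Sm.sum _ fun j => Sm.sum _ fun k =>
        ((Sm.coord j).mul (Sm.coord k)).mul (sH j k)))
    have sB : Sm fun x => lap H x * ∑ j, x j * pd j (V t) (gr H x) :=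
      hH.lap.mul (Sm.sum _ fun j => (Sm.coord j).mul (sG j))
    have sT : Sm fun x => lap H x * deriv (fun τ => V τ (gr H x)) t := by
      refine hH.lap.mul ?_
      have e : ∀ x : E 3, x ≠ 0 → deriv (fun τ => V τ (gr H x)) t =
          fderiv ℝ Vj (t, gr H x) (1, 0) := by
        intro x hx
        have hn : 0 < ‖x‖ := norm_pos_iff.mpr hx
        have hx1 : ‖‖x‖⁻¹ • x‖ = 1 := by
          rw [norm_smul, norm_inv, norm_norm, inv_mul_cancel₀ hn.ne']
        have h := (hderiv t (Ioo_subset_Icc_self ht) _ hx1).deriv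
        rwa [gr_hom hH h1 hx (inv_pos.mpr hn)] at h
      refine Sm.congr ?_ e
      have h4 : Sm fun x => (fun y => fderiv ℝ Vj (t, y) (1, 0)) (gr H x) :=
        sm_comp_gr (F := fun y => fderiv ℝ Vj (t, y) (1, 0)) hH fun x hx => by
          have hn : 0 < ‖x‖ := norm_pos_iff.mpr hx
          have hx1 : ‖‖x‖⁻¹ • x‖ = 1 := by
            rw [norm_smul, norm_inv, norm_norm, inv_mul_cancel₀ hn.ne']
          have h := hV t (Ioo_subset_Icc_self ht) _ hx1
          rw [gr_hom hH h1 hx (inv_pos.mpr hn)] at h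
          have h5 := (h.fderiv_right (m := ∞) (by simp))
          have h3 : ContDiffAt ℝ ∞ (fun y : E 3 => ((t, y) : ℝ × E 3)) (gr H x) :=
            contDiffAt_const.prodMk contDiffAt_id
          exact (h5.comp (gr H x) h3).clm_apply contDiffAt_const
      exact h4
    have hnn : 0 ≤ S2 (fun x => lap H x * deriv (fun τ => V τ (gr H x)) t -
        (det2 (fun i j => hs H i j x) * (lap (V t) (gr H x) -
          ∑ j, ∑ k, x j * x k * hs (V t) j k (gr H x)) -
        lap H x * ∑ j, x j * pd j (V t) (gr H x))) := S2_nonneg fun x hx => hb t ht x hx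
    rw [S2_sub sT.contOn (sA.sub sB).contOn, S2_sub sA.contOn sB.contOn, hpi, sub_self,
      sub_zero] at hnn
    refine hnn.trans_eq (S2_congr fun x hx => ?_)
    rw [(hderiv t (Ioo_subset_Icc_self ht) x hx).deriv, mul_comm]

end Vale.Agent.P366.H296
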