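import Vale.Agent.P366.H296.F3b

/-! Null shells: smoothness of the integrands, the constants, and the pointwise estimates. -/

open MeasureTheory Metric Filter Topology Set
open scoped ContDiff

noncomputable section
namespace Vale.Agent.P366.H296

open Vale.Agent.P366 (sphI sphM pd E)
open Vale.Agent.P366.H353

variable {q : E 3 → ℝ} {x : E 3} {D : Dat}

/-! ### smoothness -/

lemma sm_pr (i j : Fin 3) : Sm fun x => pr x i j :=
  (Sm.const (kd i j)).sub ((Sm.coord i).mul (Sm.coord j))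

lemma sm_Zb (hq : Q q) (i j : Fin 3) : Sm fun x => Zb q x i j :=
  ((hq.sm.hs i j).add ((hq.sm.pd i).mul (Sm.coord j))).add ((Sm.coord i).mul (hq.sm.pd j))

lemma sm_W (D : Dat) (i j : Fin 3) : Sm fun x => D.W x i j :=
  (D.smH.hs i j).add (D.smU.mul (sm_pr i j))

lemma sm_tr {M : E 3 → Fin 3 → Fin 3 → ℝ} (hM : ∀ i j, Sm fun x => M x i j) :
    Sm fun x => tr3 (M x) := Sm.sum _ fun i => hM i i

lemma sm_ip {M N : E 3 → Fin 3 → Fin 3 → ℝ} (hM : ∀ i j, Sm fun x => M x i j)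
    (hN : ∀ i j, Sm fun x => N x i j) :
    Sm fun x => ip3 (M x) (N x) := Sm.sum _ fun i => Sm.sum _ fun j => (hM i j).mul (hN i j)

lemma sm_det {M : E 3 → Fin 3 → Fin 3 → ℝ} (hM : ∀ i j, Sm fun x => M x i j) :
    Sm fun x => det2 (M x) :=
  (((sm_tr hM).pow 2).sub (sm_ip hM hM)).div (Sm.const 2) fun _ _ => two_ne_zero

lemma sm_qf {M : E 3 → Fin 3 → Fin 3 → ℝ} {v w : E 3 → Fin 3 → ℝ}
    (hM : ∀ i j, Sm fun x => M x i j) (hv : ∀ i, Sm fun x => v x i) (hw : ∀ i, Sm fun x => w x i) :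
    Sm fun x => qf (M x) (v x) (w x) :=
  Sm.sum _ fun i => Sm.sum _ fun j => ((hM i j).mul (hv i)).mul (hw j)

lemma sm_A (D : Dat) (i j : Fin 3) : Sm fun x => D.A x i j :=
  ((sm_tr (sm_W D)).mul (sm_pr i j)).sub (sm_W D i j)

lemma sm_dt (D : Dat) : Sm D.dt := sm_det (sm_W D)

lemma sm_gU (D : Dat) (i : Fin 3) : Sm fun x => D.gU x i := D.smU.pd i

lemma sm_L (D : Dat) (hq : Sm q) : Sm (D.L q) :=
  (((D.smH.lap.mul hq.lap).sub (Sm.sum _ fun i => Sm.sum _ fun j =>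
    (D.smH.hs i j).mul (hq.hs i j))).add (D.smU.mul hq.lap)).add
      (Sm.sum _ fun i => (D.smU.pd i).mul (hq.pd i))

/-! ### constants -/

structure Bd (D : Dat) (l T G : ℝ) : Prop where
  l0 : 0 < l
  l1 : l ≤ 1
  T0 : 0 < T
  G0 : 0 ≤ G
  lo : ∀ x : E 3, ‖x‖ = 1 → l * tr3 (D.W x) ≤ D.dt x
  up : ∀ x : E 3, ‖x‖ = 1 → tr3 (D.W x) ≤ T
  gr : ∀ x : E 3, ‖x‖ = 1 → ∑ i, D.gU x i ^ 2 ≤ G

lemma bdd_above {f : E 3 → ℝ} (hf : ContinuousOn f (sphere (0 : E 3) 1)) :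
    ∃ C : ℝ, 0 < C ∧ ∀ x : E 3, ‖x‖ = 1 → f x ≤ C := by
  obtain ⟨C, hC⟩ := (isCompact_sphere (0 : E 3) 1).bddAbove_image hf
  refine ⟨max C 1, lt_max_of_lt_right one_pos, fun x hx => le_max_of_le_left ?_⟩
  exact hC ⟨x, by simpa using hx, rfl⟩

lemma exists_pos_lower {f : E 3 → ℝ} (hf : ContinuousOn f (sphere (0 : E 3) 1))
    (h0 : ∀ x : E 3, ‖x‖ = 1 → 0 < f x) : ∃ c : ℝ, 0 < c ∧ ∀ x : E 3, ‖x‖ = 1 → c ≤ f x := by
  have hne : (sphere (0 : E 3) 1).Nonempty := (NormedSpace.sphere_nonempty).mpr zero_le_one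
  obtain ⟨y, hy, hm⟩ := (isCompact_sphere (0 : E 3) 1).exists_isMinOn hne hf
  refine ⟨f y, h0 y (by simpa using hy), fun x hx => ?_⟩
  exact hm (by simpa using hx)

theorem exists_bd (D : Dat) : ∃ l T G : ℝ, Bd D l T G := by
  have hpos : ∀ x : E 3, ‖x‖ = 1 → 0 < D.dt x := fun x hx => by
    obtain ⟨e, f, p, r, s, F⟩ := exists_frame D hx
    rw [F.dtW]; exact F.d0
  have htpos : ∀ x : E 3, ‖x‖ = 1 → 0 < tr3 (D.W x) := fun x hx => by
    obtain ⟨e, f, p, r, s, F⟩ := exists_frame D hx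
    rw [F.trW]; exact add_pos F.p0 F.s0
  obtain ⟨c, hc0, hc⟩ := exists_pos_lower (sm_dt D).contOn hpos
  obtain ⟨T, hT0, hT⟩ := bdd_above (sm_tr (sm_W D)).contOn
  obtain ⟨G, hG0, hG⟩ := bdd_above (f := fun x => ∑ i, D.gU x i ^ 2)
    (Sm.sum _ fun i => (sm_gU D i).pow 2).contOn
  refine ⟨min 1 (c / T), T, G, lt_min one_pos (div_pos hc0 hT0), min_le_left _ _, hT0, hG0.le,
    fun x hx => ?_, hT, hG⟩
  calc min 1 (c / T) * tr3 (D.W x) ≤ c / T * T :=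
        mul_le_mul (min_le_right _ _) (hT x hx) (htpos x hx).le (div_pos hc0 hT0).le
    _ = c := div_mul_cancel₀ _ hT0.ne'
    _ ≤ D.dt x := hc x hx

/-! ### pointwise estimates -/

lemma cs3 (u v : Fin 3 → ℝ) : (∑ i, u i * v i) ^ 2 ≤ (∑ i, u i ^ 2) * ∑ i, v i ^ 2 :=
  Finset.sum_mul_sq_le_sq_mul_sq _ _ _

variable {l T G t : ℝ}

lemma gUg (B : Bd D l T G) (hx : ‖x‖ = 1) :
    (∑ i, D.gU x i * pd i q x) ^ 2 ≤ G * gsq q x := by
  refine (cs3 _ _).trans ?_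
  exact mul_le_mul_of_nonneg_right (B.gr x hx) (Finset.sum_nonneg fun i _ => sq_nonneg _)

theorem pt1 (B : Bd D l T G) (hq : Q q) (hx : ‖x‖ = 1) (ht : t ∈ Icc (0 : ℝ) 1) :
    l ^ 2 / (1 + T) ^ 2 * ip3 (Zb q x) (Zb q x) + 2 * det2 (Zb q x) ≤
      (2 / l ^ 2) * ((1 - t) * lap q x + t * D.L q x) ^ 2 + (2 * G / l ^ 2) * gsq q x := by
  obtain ⟨e, f, p, r, s, F⟩ := exists_frame D hx
  have h0 := ne_zero_of_one hx
  have hZ := expand F.c (Zb_symm hq h0) (Zb_x hq hx)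
  set a := ∑ k, ∑ l, Zb q x k l * e k * e l
  set b := ∑ k, ∑ l, Zb q x k l * e k * f l
  set c := ∑ k, ∑ l, Zb q x k l * f k * f l
  have hZF : Fr e f a b c (Zb q x) := hZ
  have hlap : lap q x = a + c := by rw [← tr_Zb hq h0, hZF.tr F.o]
  have hL : D.L q x = (p * a + 2 * (r * b) + s * c) + ∑ i, D.gU x i * pd i q x := by
    rw [L_eq D hq hx, F.A'.ip F.o hZF]
  have hlo := B.lo x hx
  have hup := B.up x hx
  rw [F.trW] at hlo hup
  rw [F.dtW] at hlo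
  obtain ⟨k1, k2, k3⟩ := scal_lower (a := a) (b := b) (c := c) B.l0 B.l1 F.p0 F.s0 hlo ht.1 ht.2
  rw [hZF.ip F.o hZF, hZF.dt F.o]
  set d := ((1 - t) + t * p) * ((1 - t) + t * s) - (t * r) ^ 2
  set X := (1 - t) * (a + c) + t * (p * a + 2 * (r * b) + s * c)
  set N := a * a + 2 * (b * b) + c * c
  have hN : 0 ≤ N := by
    linarith only [mul_self_nonneg a, mul_self_nonneg b, mul_self_nonneg c]
  have hl2 : 0 < l ^ 2 := pow_pos B.l0 2
  have hd0 : 0 < d := hl2.trans_le k2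
  have hdT : d ≤ (1 + T) ^ 2 := k3.trans (by
    have h1 : 0 ≤ 1 + (p + s) := by linarith only [F.p0, F.s0]
    exact pow_le_pow_left₀ h1 (by linarith only [hup]) 2)
  have k4 : l ^ 2 / (1 + T) ^ 2 * N ≤ l ^ 2 / d * N :=
    mul_le_mul_of_nonneg_right (div_le_div_of_nonneg_left hl2.le hd0 hdT) hN
  have k5 : l ^ 2 / d * N + 2 * (a * c - b ^ 2) ≤ X ^ 2 / d := by
    rw [le_div_iff₀ hd0]
    have : (l ^ 2 / d * N + 2 * (a * c - b ^ 2)) * d = l ^ 2 * N + 2 * d * (a * c - b ^ 2) := by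
      field_simp
    rw [this]; exact k1
  have k6 : X ^ 2 / d ≤ X ^ 2 / l ^ 2 := div_le_div_of_nonneg_left (sq_nonneg _) hl2 k2
  set g := ∑ i, D.gU x i * pd i q x with hg
  have hgg : g ^ 2 ≤ G * gsq q x := gUg B hx
  set Y := (1 - t) * lap q x + t * D.L q x with hY
  have hX : X = Y - t * g := by
    rw [hY, hlap, hL]; ring
  have k7 : X ^ 2 ≤ 2 * Y ^ 2 + 2 * (G * gsq q x) := by
    have h1 : (t * g) ^ 2 ≤ G * gsq q x := by
      have h2 : t ^ 2 ≤ 1 := pow_le_one₀ ht.1 ht.2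
      calc (t * g) ^ 2 = t ^ 2 * g ^ 2 := by ring
        _ ≤ 1 * g ^ 2 := mul_le_mul_of_nonneg_right h2 (sq_nonneg _)
        _ ≤ G * gsq q x := by rw [one_mul]; exact hgg
    rw [hX]
    nlinarith only [h1, sq_nonneg (Y + t * g)]
  calc l ^ 2 / (1 + T) ^ 2 * N + 2 * (a * c - b ^ 2) ≤ X ^ 2 / l ^ 2 := by linarith only [k4, k5, k6]
    _ ≤ (2 * Y ^ 2 + 2 * (G * gsq q x)) / l ^ 2 := div_le_div_of_nonneg_right k7 hl2.le
    _ = 2 / l ^ 2 * Y ^ 2 + 2 * G / l ^ 2 * gsq q x := by ring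

theorem pt2 (B : Bd D l T G) (hq : Q q) (hx : ‖x‖ = 1) :
    l * gsq q x ≤ qf (D.A x) (fun i => pd i q x) (fun i => pd i q x) := by
  obtain ⟨e, f, p, r, s, F⟩ := exists_frame D hx
  have h0 := ne_zero_of_one hx
  have hlo := B.lo x hx
  rw [F.trW, F.dtW] at hlo
  have hg : gsq q x = _ := F.gg (v := fun i => pd i q x) (Q_xg hq h0)
  rw [F.A'.qf, hg]
  set u := ∑ i, e i * pd i q x
  set w := ∑ i, f i * pd i q x
  have hp := F.p0
  have hs := F.s0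
  have h1 : l ≤ p := by
    have : l * (p + s) ≤ p * (p + s) := by nlinarith only [hlo, sq_nonneg r, sq_nonneg p]
    exact le_of_mul_le_mul_right this (by linarith only [hp, hs])
  have h2 : l ≤ s := by
    have : l * (p + s) ≤ s * (p + s) := by nlinarith only [hlo, sq_nonneg r, sq_nonneg s]
    exact le_of_mul_le_mul_right this (by linarith only [hp, hs])
  have h3 : r ^ 2 ≤ (p - l) * (s - l) := by nlinarith only [hlo, sq_nonneg l]
  rcases h1.eq_or_lt with h1' | h1'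
  · have hr : r = 0 := by
      have : r ^ 2 ≤ 0 := by rw [← h1'] at h3; linarith only [h3]
      nlinarith only [this, sq_nonneg r]
    rw [hr, ← h1']
    nlinarith only [mul_nonneg (sub_nonneg.mpr h2) (sq_nonneg w)]
  · have h4 : 0 < p - l := sub_pos.mpr h1'
    have h5 : (p - l) * (p * u ^ 2 + 2 * r * (u * w) + s * w ^ 2 - l * (u ^ 2 + w ^ 2)) =
        ((p - l) * u + r * w) ^ 2 + ((p - l) * (s - l) - r ^ 2) * w ^ 2 := by ring
    have h6 : 0 ≤ (p - l) * (p * u ^ 2 + 2 * r * (u * w) + s * w ^ 2 - l * (u ^ 2 + w ^ 2)) := by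
      rw [h5]
      exact add_nonneg (sq_nonneg _) (mul_nonneg (sub_nonneg.mpr h3) (sq_nonneg _))
    have h7 := nonneg_of_mul_nonneg_right h6 h4
    linarith only [h7]

theorem pt3 (B : Bd D l T G) (hq : Q q) (hx : ‖x‖ = 1) :
    (D.L q x - lap q x) ^ 2 ≤
      2 * (T ^ 2 + 2) * ip3 (Zb q x) (Zb q x) + 2 * G * gsq q x := by
  obtain ⟨e, f, p, r, s, F⟩ := exists_frame D hx
  have h0 := ne_zero_of_one hx
  have hZ := expand F.c (Zb_symm hq h0) (Zb_x hq hx)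
  set a := ∑ k, ∑ l, Zb q x k l * e k * e l
  set b := ∑ k, ∑ l, Zb q x k l * e k * f l
  set c := ∑ k, ∑ l, Zb q x k l * f k * f l
  have hZF : Fr e f a b c (Zb q x) := hZ
  have hlap : lap q x = a + c := by rw [← tr_Zb hq h0, hZF.tr F.o]
  have hL : D.L q x = (p * a + 2 * (r * b) + s * c) + ∑ i, D.gU x i * pd i q x := by
    rw [L_eq D hq hx, F.A'.ip F.o hZF]
  have hup := B.up x hx
  rw [F.trW] at hup
  have k := scal_upper (a := a) (b := b) (c := c) F.p0 F.s0 F.d0 hup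
  have hgg : (∑ i, D.gU x i * pd i q x) ^ 2 ≤ G * gsq q x := gUg B hx
  rw [hZF.ip F.o hZF, hlap, hL]
  set g := ∑ i, D.gU x i * pd i q x
  nlinarith only [k, hgg, sq_nonneg ((p * a + 2 * (r * b) + s * c) - (a + c) - g)]

end Vale.Agent.P366.H296
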