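import Vale.Agent.P366.H296.X4c
import Vale.Agent.P366.H296.F3c
import Vale.Agent.P366.H222.X0d
import Vale.Agent.P366.H896.X1e

/-! Kerr-Schild exteriors: the monotonicity leaves. -/

open MeasureTheory Metric Filter Topology Set
open scoped ContDiff ENNReal

noncomputable section
namespace Vale.Agent.P366.H296.KSx

open Vale.Agent.P366 (pd E)
open Vale.Agent.P366.H353
open Vale.Agent.P366.KS
open Vale.Agent.P366.H296 (gr Hp)

variable {C : Cone} {lam f : E 3 → ℝ} {V : E 4 → ℝ} {D : Stmt.Exterior 3} {x y : E 3} {s t : ℝ}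

/-! ### calculus on `pt` -/

lemma Y_gr (H : E 3 → ℝ) (x : E 3) (s : ℝ) : Y H x s = gr H x + s • x := by
  ext i; simp [Y]

/-- `pt` as a linear map -/
lemma pt_contDiff : ContDiff ℝ ∞ fun p : ℝ × E 3 => pt p.1 p.2 := by
  rw [contDiff_euclidean]
  intro i
  refine Fin.cases ?_ (fun j => ?_) i
  · exact contDiff_fst
  · exact (contDiff_piLp_apply (p := 2) (i := j)).comp contDiff_snd

lemma hasDerivAt_pt (y : E 3) (t : ℝ) :
    HasDerivAt (fun τ => pt τ y) (EuclideanSpace.single 0 1) t := by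
  have e : (fun τ => pt τ y) = fun τ : ℝ => pt 0 y + τ • EuclideanSpace.single 0 1 := by
    funext τ
    ext j
    refine Fin.cases ?_ (fun k => ?_) j
    · simp [pt]
    · simp [pt]
  rw [e]
  have h3 := ((hasDerivAt_id t).smul_const (EuclideanSpace.single 0 (1 : ℝ) : E 4)).const_add
    (pt 0 y)
  rw [one_smul] at h3
  exact h3

lemma deriv_pt {y : E 3} {t : ℝ} (hV : DifferentiableAt ℝ V (pt t y)) :
    deriv (fun τ => V (pt τ y)) t = pd 0 V (pt t y) :=
  (hV.hasFDerivAt.comp_hasDerivAt t (hasDerivAt_pt y t)).deriv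

lemma line_pt (t : ℝ) (y : E 3) (i : Fin 3) (r : ℝ) :
    pt t (y + r • EuclideanSpace.single i 1) = pt t y + r • EuclideanSpace.single i.succ 1 := by
  ext j
  refine Fin.cases ?_ (fun k => ?_) j
  · simp [pt]
  · simp [pt]

lemma pd_pt {y : E 3} {t : ℝ} (hV : DifferentiableAt ℝ V (pt t y)) (i : Fin 3) :
    pd i (fun z => V (pt t z)) y = pd i.succ V (pt t y) := by
  have hp : DifferentiableAt ℝ (fun z : E 3 => pt t z) y := by
    have h : ContDiff ℝ ∞ fun z : E 3 => pt t z :=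
      pt_contDiff.comp (contDiff_const.prodMk contDiff_id)
    exact h.contDiffAt.differentiableAt (by simp)
  have hd : DifferentiableAt ℝ (fun z => V (pt t z)) y := hV.comp y hp
  have h1 : HasDerivAt (fun r : ℝ => V (pt t (y + r • EuclideanSpace.single i 1)))
      (pd i (fun z => V (pt t z)) y) 0 := by
    have hl : HasDerivAt (fun r : ℝ => y + r • EuclideanSpace.single i (1 : ℝ))
        (EuclideanSpace.single i (1 : ℝ)) 0 := by
      have h3 := ((hasDerivAt_id (0 : ℝ)).smul_const (EuclideanSpace.single i (1 : ℝ))).const_add y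
      rw [one_smul] at h3
      exact h3
    have hf : HasFDerivAt (fun z => V (pt t z)) (fderiv ℝ (fun z => V (pt t z)) y)
        (y + (0 : ℝ) • EuclideanSpace.single i 1) := by
      rw [zero_smul, add_zero]; exact hd.hasFDerivAt
    exact hf.comp_hasDerivAt 0 hl
  have h2 : HasDerivAt (fun r : ℝ => V (pt t y + r • EuclideanSpace.single i.succ 1))
      (pd i.succ V (pt t y)) 0 := by
    have hl : HasDerivAt (fun r : ℝ => pt t y + r • EuclideanSpace.single i.succ (1 : ℝ))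
        (EuclideanSpace.single i.succ (1 : ℝ)) 0 := by
      have h3 := ((hasDerivAt_id (0 : ℝ)).smul_const
        (EuclideanSpace.single i.succ (1 : ℝ) : E 4)).const_add (pt t y)
      rw [one_smul] at h3
      exact h3
    have hf : HasFDerivAt V (fderiv ℝ V (pt t y))
        (pt t y + (0 : ℝ) • EuclideanSpace.single i.succ 1) := by
      rw [zero_smul, add_zero]; exact hV.hasFDerivAt
    exact hf.comp_hasDerivAt 0 hl
  simp only [line_pt] at h1
  exact h1.unique h2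

lemma ev_diff {y : E 3} {t : ℝ} (hV : ContDiffAt ℝ ∞ V (pt t y)) :
    ∀ᶠ z in 𝓝 y, DifferentiableAt ℝ V (pt t z) := by
  have h1 : ∀ᶠ p in 𝓝 (pt t y), DifferentiableAt ℝ V p := by
    have h2 : ContDiffAt ℝ 1 V (pt t y) := hV.of_le (by simp)
    filter_upwards [h2.eventually (by simp)] with p hp
    exact hp.differentiableAt (by simp)
  have hc : Continuous fun z : E 3 => pt t z :=
    (pt_contDiff.comp (contDiff_const.prodMk contDiff_id)).continuous
  exact hc.continuousAt.eventually h1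

lemma hs_pt {y : E 3} {t : ℝ} (hV : ContDiffAt ℝ ∞ V (pt t y)) (i j : Fin 3) :
    H353.hs (fun z => V (pt t z)) i j y = pd i.succ (pd j.succ V) (pt t y) := by
  unfold H353.hs
  have h1 : (fun z => pd j (fun z => V (pt t z)) z) =ᶠ[𝓝 y] fun z => pd j.succ V (pt t z) := by
    filter_upwards [ev_diff hV] with z hz
    exact pd_pt hz j
  rw [Vale.Agent.P366.pd_congr h1 i]
  have h2 : ContDiffAt ℝ ∞ (pd j.succ V) (pt t y) :=
    (hV.fderiv_right (m := ∞) (by simp)).clm_apply contDiffAt_const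
  exact pd_pt (h2.differentiableAt (by simp)) i

lemma cd_pt {y : E 3} {t : ℝ} (hV : ContDiffAt ℝ ∞ V (pt t y)) :
    ContDiffAt ℝ ∞ (fun p : ℝ × E 3 => V (pt p.1 p.2)) (t, y) :=
  ContDiffAt.comp (t, y) (g := V) (f := fun p : ℝ × E 3 => pt p.1 p.2) hV pt_contDiff.contDiffAt

/-! ### the two inequalities on the rays -/

lemma tr3_Ws (C : Cone) (hx : ‖x‖ = 1) (s : ℝ) : tr3 (Ws C.H s x) = lap C.H x + 2 * s := by
  have h := H296.tr_pr hx
  have h1 : tr3 (Ws C.H s x) = lap C.H x + s * tr3 (pr x) := by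
    unfold tr3 Ws lap
    rw [Finset.mul_sum, ← Finset.sum_add_distrib]
  rw [h1, h]; ring

lemma f_ge (hS : IsSlice C lam V f D) (hx : ‖x‖ = 1) (hs : C.U x ≤ s) : - s ≤ f (Y C.H x s) := by
  have hy : 0 ≤ D.F (Y C.H x s) := (mem_iff hS).mpr ⟨x, s, hx, hs, rfl⟩
  have h := (mem_region (V := V) hS hy).2.1
  rw [nul_pt, lam_Y hS hx hs] at h
  linarith only [h]

/-- the inequality (a) -/
lemma ineq_a (hS : IsSlice C lam V f D)
    (hV : ∀ p ∈ Region lam f D, ContDiffAt ℝ ∞ V p ∧ DECat (ksG lam V) (nul lam) p)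
    (hx : ‖x‖ = 1) (hs : C.U x < s) (ht : - s ≤ t) (ht' : t ≤ f (Y C.H x s)) :
    0 ≤ tr3 (Ws C.H s x) * ((∑ j, x j * pd j (fun z => V (pt t z)) (Y C.H x s)) -
      deriv (fun τ => V (pt τ (Y C.H x s))) t) + 2 * V (pt t (Y C.H x s)) := by
  have hm := mem_region' hS hx hs.le ht ht'
  obtain ⟨hVs, hD⟩ := hV _ hm
  have hF := F_pos hS hx hs
  have h := (dec_ineq (lam := lam) (V := V) (p := pt t (Y C.H x s))
    (by rw [sp_pt]; exact hS.smL _ hF.le) (by rw [sp_pt]; exact gsq_lam hS hF) hVs hD).1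
  rw [sp_pt] at h
  have h1 := lap_lam_Y hS hx hs.le
  have h2 := det2_lam_Y hS hx hs.le
  have hd := det2_Ws_pos C hx hs.le
  have h3 := mul_nonneg hd.le h
  have hdv : DifferentiableAt ℝ V (pt t (Y C.H x s)) := hVs.differentiableAt (by simp)
  have e1 : (∑ i : Fin 3, pd i lam (Y C.H x s) * pd i.succ V (pt t (Y C.H x s))) =
      ∑ j, x j * pd j (fun z => V (pt t z)) (Y C.H x s) :=
    Finset.sum_congr rfl fun i _ => by rw [pd_lam_Y hS hx hs.le, pd_pt hdv]
  rw [e1] at h3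
  rw [deriv_pt hdv]
  rw [← h1]
  set d := det2 (Ws C.H s x)
  set Vp := V (pt t (Y C.H x s))
  have e2 : 2 * Vp = (lap lam (Y C.H x s) ^ 2 - ∑ i, ∑ j, H353.hs lam i j (Y C.H x s) ^ 2) * d *
      Vp := by rw [h2]
  rw [e2]
  refine h3.trans_eq ?_
  ring

/-- the inequality (b) -/
lemma ineq_b (hS : IsSlice C lam V f D)
    (hV : ∀ p ∈ Region lam f D, ContDiffAt ℝ ∞ V p ∧ DECat (ksG lam V) (nul lam) p)
    (hx : ‖x‖ = 1) (hs : C.U x < s) (ht : - s ≤ t) (ht' : t ≤ f (Y C.H x s)) :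
    0 ≤ tr3 (Ws C.H s x) * deriv (fun τ => V (pt τ (Y C.H x s))) t -
      (det2 (Ws C.H s x) * (lap (fun z => V (pt t z)) (Y C.H x s) -
        ∑ j, ∑ k, x j * x k * H353.hs (fun z => V (pt t z)) j k (Y C.H x s)) -
      tr3 (Ws C.H s x) * ∑ j, x j * pd j (fun z => V (pt t z)) (Y C.H x s)) := by
  have hm := mem_region' hS hx hs.le ht ht'
  obtain ⟨hVs, hD⟩ := hV _ hm
  have hF := F_pos hS hx hs
  have h := (dec_ineq (lam := lam) (V := V) (p := pt t (Y C.H x s))
    (by rw [sp_pt]; exact hS.smL _ hF.le) (by rw [sp_pt]; exact gsq_lam hS hF) hVs hD).2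
  rw [sp_pt] at h
  have h1 := lap_lam_Y hS hx hs.le
  have hd := det2_Ws_pos C hx hs.le
  have h3 := mul_nonneg hd.le h
  have hdv : DifferentiableAt ℝ V (pt t (Y C.H x s)) := hVs.differentiableAt (by simp)
  have e1 : (∑ i : Fin 3, pd i lam (Y C.H x s) * pd i.succ V (pt t (Y C.H x s))) =
      ∑ j, x j * pd j (fun z => V (pt t z)) (Y C.H x s) :=
    Finset.sum_congr rfl fun i _ => by rw [pd_lam_Y hS hx hs.le, pd_pt hdv]
  have e2 : (∑ i : Fin 3, pd i.succ (pd i.succ V) (pt t (Y C.H x s))) =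
      lap (fun z => V (pt t z)) (Y C.H x s) := by
    unfold lap
    exact Finset.sum_congr rfl fun i _ => by rw [hs_pt hVs]
  have e3 : (∑ i : Fin 3, ∑ j : Fin 3, pd i lam (Y C.H x s) * pd j lam (Y C.H x s) *
      pd i.succ (pd j.succ V) (pt t (Y C.H x s))) =
      ∑ j, ∑ k, x j * x k * H353.hs (fun z => V (pt t z)) j k (Y C.H x s) :=
    Finset.sum_congr rfl fun i _ => Finset.sum_congr rfl fun j _ => by
      rw [pd_lam_Y hS hx hs.le, pd_lam_Y hS hx hs.le, hs_pt hVs]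
  rw [e1, e2, e3] at h3
  rw [deriv_pt hdv, ← h1]
  refine h3.trans_eq ?_
  ring

/-- far out -/
lemma far (hS : IsSlice C lam V f D) :
    ∃ L0 : ℝ, 0 < L0 ∧ ∀ L, L0 ≤ L → ∀ x : E 3, ‖x‖ = 1 → C.U x < L ∧ f (Y C.H x L) = 0 := by
  obtain ⟨R, hR⟩ := hS.cpt
  obtain ⟨B, hB0, hB⟩ := H296.bdd_above (f := fun x => C.U x) C.smU.contOn
  obtain ⟨G, hG0, hG⟩ := H296.bdd_above (f := fun x => ‖gr C.H x‖) (by
    have : ContinuousOn (gr C.H) (sphere (0 : E 3) 1) := fun x hx =>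
      (H296.gr_contDiffAt C.smH (ne_zero_of_one (by simpa using hx))).continuousAt.continuousWithinAt
    exact this.norm)
  refine ⟨B + 1 + (G + |R| + 1), by positivity, fun L hL x hx => ⟨?_, ?_⟩⟩
  · have := hB x hx
    linarith only [this, hL, hG0, abs_nonneg R]
  · refine hR _ ?_
    have h1 : Stmt.len (Y C.H x L) = ‖Y C.H x L‖ := rfl
    rw [h1, Y_gr]
    have h2 : ‖L • x‖ = |L| := by rw [norm_smul, hx, mul_one, Real.norm_eq_abs]
    have h3 : ‖L • x‖ ≤ ‖gr C.H x + L • x‖ + ‖gr C.H x‖ := by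
      have := norm_sub_le (gr C.H x + L • x) (gr C.H x)
      rwa [add_sub_cancel_left] at this
    have h4 := hG x hx
    have h5 := le_abs_self L
    have h6 := le_abs_self R
    linarith only [h2, h3, h4, h5, h6, hL, hB0]

end Vale.Agent.P366.H296.KSx

namespace Vale.Agent.P366.KS

open Vale.Agent.P366 (pd E)
open Vale.Agent.P366.H353
open Vale.Agent.P366.H296 (gr Hp)
open Vale.Agent.P366.H296.KSx

variable {C : Cone} {lam f : E 3 → ℝ} {V : E 4 → ℝ} {D : Stmt.Exterior 3} {x y : E 3} {s t : ℝ}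

theorem mono_s (hS : IsSlice C lam V f D)
    (hV : ∀ p ∈ Region lam f D, ContDiffAt ℝ ∞ V p ∧ DECat (ksG lam V) (nul lam) p)
    (hx : ‖x‖ = 1) {s s' : ℝ} (hs : C.U x ≤ s) (hs' : s ≤ s') :
    V (pt (-s) (Y C.H x s)) * tr3 (Ws C.H s x) ≤
      V (pt (-s') (Y C.H x s')) * tr3 (Ws C.H s' x) := by
  have h := H296.mono_s (V := fun t z => V (pt t z)) (v := 0) (s1 := s) (s2 := s')
    (c := lap C.H x) (a := gr C.H x) (x := x) hs' ?_ ?_
  · simpa only [zero_sub, ← Y_gr, ← tr3_Ws C hx] using h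
  · intro r hr
    rw [zero_sub, ← Y_gr]
    exact cd_pt (hV _ (mem_region' hS hx (hs.trans hr.1) le_rfl
      (f_ge hS hx (hs.trans hr.1)))).1
  · intro r hr
    rw [zero_sub, ← Y_gr, ← tr3_Ws C hx]
    exact ineq_a hS hV hx (hs.trans_lt hr.1) le_rfl (f_ge hS hx (hs.trans hr.1.le))

theorem mono_v (hS : IsSlice C lam V f D)
    (hV : ∀ p ∈ Region lam f D, ContDiffAt ℝ ∞ V p ∧ DECat (ksG lam V) (nul lam) p) :
    ∃ L0 : ℝ, ∀ L, L0 ≤ L → S2 (fun x => V (pt (-L) (Y C.H x L)) * tr3 (Ws C.H L x)) ≤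
      S2 (fun x => V (pt 0 (Y C.H x L)) * tr3 (Ws C.H L x)) := by
  obtain ⟨L0, hL0, hfar⟩ := far hS
  refine ⟨L0, fun L hL => ?_⟩
  have hLpos : 0 < L := hL0.trans_le hL
  have h := H296.mono_t (V := fun t z => V (pt t z)) (t1 := -L) (t2 := 0) (H := Hp C.H L)
    (by linarith only [hLpos]) (H296.sm_Hp C.smH L) (H296.hom_Hp C.homH L) ?_ ?_
  · refine (le_of_eq ?_).trans (h.trans (le_of_eq ?_))
    · exact S2_congr fun x hx => by rw [H296.lap_Hp C.smH hx, H296.gr_Hp C.smH hx, Y_gr, tr3_Ws C hx]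
    · exact S2_congr fun x hx => by rw [H296.lap_Hp C.smH hx, H296.gr_Hp C.smH hx, Y_gr, tr3_Ws C hx]
  · intro t ht x hx
    obtain ⟨h1, h2⟩ := hfar L hL x hx
    rw [H296.gr_Hp C.smH hx, ← Y_gr]
    exact cd_pt (hV _ (mem_region' hS hx h1.le ht.1 (by rw [h2]; exact ht.2))).1
  · intro t ht x hx
    obtain ⟨h1, h2⟩ := hfar L hL x hx
    rw [H296.lap_Hp C.smH hx, H296.gr_Hp C.smH hx, ← Y_gr, ← tr3_Ws C hx,
      show (fun i j => H353.hs (Hp C.H L) i j x) = Ws C.H L x from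
        funext fun i => funext fun j => H296.hs_Hp C.smH hx i j]
    exact ineq_b hS hV hx h1 ht.1.le (by rw [h2]; exact ht.2.le)

end Vale.Agent.P366.KS
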