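import Vale.Agent.P366.H296.X5c
import Vale.Agent.P366.H375.X5c

/-! Kerr-Schild exteriors: the momentum as a limit over the level sets of `λ`. -/

open MeasureTheory Metric Filter Topology Set
open scoped ContDiff ENNReal

noncomputable section
namespace Vale.Agent.P366.H296.KSx

open Vale.Agent.P366 (pd E)
open Vale.Agent.P366.H353
open Vale.Agent.P366.KS

variable {C : Cone} {lam f : E 3 → ℝ} {V : E 4 → ℝ} {D : Stmt.Exterior 3} {x y : E 3} {s t : ℝ}

lemma cont_smul {F : E 3 → ℝ} {R : ℝ} (h : ∀ x : E 3, ‖x‖ = 1 → ContinuousAt F (R • x)) :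
    ContinuousOn (fun x => F (R • x)) (sphere (0 : E 3) 1) := by
  intro x hx
  have hx1 : ‖x‖ = 1 := by simpa using hx
  exact (ContinuousAt.comp (g := F) (f := fun x : E 3 => R • x) (h x hx1)
    (continuous_const_smul R).continuousAt).continuousWithinAt

lemma cont_momT (hF : 0 ≤ D.F y) (i j : Fin 3) :
    ContinuousAt (fun y => Stmt.momT D.g D.K y i j) y := by
  have h := Vale.Agent.P366.Bridge.momT_smooth (fun i j => (D.smooth i j).1)
    (fun i j => (D.smooth i j).2) (x := y) (D.pos y hF).det_pos.ne' i j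
  exact h.continuousAt.congr (Eventually.of_forall fun z =>
    (Vale.Agent.P366.Bridge.momT_eq z i j).symm)

/-- the integral of a tangential gradient over a round sphere -/
lemma S2_grad {W : E 3 → ℝ} {R : ℝ} (hW : ∀ x : E 3, ‖x‖ = 1 → ContDiffAt ℝ ∞ W (R • x))
    (i : Fin 3) :
    R * S2 (fun x => pd i W (R • x) - (∑ k, pd k W (R • x) * x k) * x i) =
      2 * S2 (fun x => W (R • x) * x i) := by
  set Z : E 3 → ℝ := Hp (fun _ => 0) R with hZ
  have sZ : Sm Z := sm_Hp (Sm.const 0) R
  have z0 : Hom 1 (fun _ : E 3 => (0 : ℝ)) := fun x _ r _ => by simp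
  have hZ1 : Hom 1 Z := hom_Hp z0 R
  have hgr : ∀ x : E 3, ‖x‖ = 1 → gr Z x = R • x := fun x hx => by
    rw [hZ, gr_Hp (Sm.const 0) hx]
    have : gr (fun _ : E 3 => (0 : ℝ)) x = 0 := by
      ext k
      rw [gr_apply, Vale.Agent.P366.pd_const]
      rfl
    rw [this, zero_add]
  have hhs : ∀ x : E 3, ‖x‖ = 1 → ∀ j k, H353.hs Z j k x = R * pr x j k := fun x hx j k => by
    rw [hZ, hs_Hp (Sm.const 0) hx]
    have : H353.hs (fun _ : E 3 => (0 : ℝ)) j k x = 0 := by
      unfold H353.hs
      have e : pd k (fun _ : E 3 => (0 : ℝ)) = fun _ => 0 := by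
        funext z
        exact Vale.Agent.P366.pd_const 0 z k
      rw [e, Vale.Agent.P366.pd_const]
    rw [this, zero_add]
  have hW1 : ∀ x : E 3, ‖x‖ = 1 → ContDiffAt ℝ ∞ W (gr Z x) := fun x hx => by
    rw [hgr x hx]; exact hW x hx
  have hW' := gr_smooth_all sZ hZ1 hW1
  have hs : Sm fun x => W (gr Z x) := sm_comp_gr sZ hW'
  have h0 : Hom 0 fun x => W (gr Z x) := hom_comp_gr sZ hZ1
  have h := S2_div (k := 0) (F := fun j y => kd j i * W (gr Z y))
    (fun j => (Sm.const _).mul hs) (fun j => h0.cmul _)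
  have e1 : S2 (fun x => ∑ j, pd j (fun y => kd j i * W (gr Z y)) x) =
      R * S2 (fun x => pd i W (R • x) - (∑ k, pd k W (R • x) * x k) * x i) := by
    rw [← S2_cmul]
    refine S2_congr fun x hx => ?_
    have hx0 := ne_zero_of_one hx
    have a1 : ∀ j, pd j (fun y => kd j i * W (gr Z y)) x = kd j i * ∑ k, R * pr x j k *
        pd k W (R • x) := by
      intro j
      rw [pd_cmul' hs _ hx0, pd_comp_gr sZ hx0 ((hW' x hx0).differentiableAt (by simp)), hgr x hx]
      congr 1
      exact Finset.sum_congr rfl fun k _ => by rw [hhs x hx]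
    have a2 : ∑ j, pd j (fun y => kd j i * W (gr Z y)) x =
        ∑ k, R * pr x i k * pd k W (R • x) := by
      rw [Finset.sum_congr rfl fun j _ => a1 j]
      simp [kd]
    rw [a2]
    unfold pr kd
    have a3 : ∀ k, R * ((if i = k then (1 : ℝ) else 0) - x i * x k) * pd k W (R • x) =
        R * ((if i = k then (1 : ℝ) else 0) * pd k W (R • x)) -
        R * x i * (pd k W (R • x) * x k) := fun k => by ring
    simp only [a3, Finset.sum_sub_distrib, ← Finset.mul_sum]
    have a4 : ∑ k, (if i = k then (1 : ℝ) else 0) * pd k W (R • x) = pd i W (R • x) := by simp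
    rw [a4]
    ring
  have e2 : S2 (fun x => ∑ j, kd j i * W (gr Z x) * x j) = S2 (fun x => W (R • x) * x i) := by
    refine S2_congr fun x hx => ?_
    rw [hgr x hx]
    simp [kd]
  rw [← e1, h, e2]
  norm_num

end Vale.Agent.P366.H296.KSx

namespace Vale.Agent.P366.KS

open Vale.Agent.P366 (pd E)
open Vale.Agent.P366.H353
open Vale.Agent.P366.H296
open Vale.Agent.P366.H296.KSx

variable {C : Cone} {lam f : E 3 → ℝ} {V : E 4 → ℝ} {D : Stmt.Exterior 3} {x y : E 3} {s t : ℝ}

theorem momentum_lim (hS : IsSlice C lam V f D) (hV : ∀ p ∈ Region lam f D, ContDiffAt ℝ ∞ V p)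
    (hAF : D.IsAF) {P : Fin 3 → ℝ} (hP : D.IsMomentum P) (i : Fin 3) :
    Tendsto (fun L => S2 (fun x => V (pt 0 (Y C.H x L)) * tr3 (Ws C.H L x) * x i)) atTop
      (𝓝 (16 * Real.pi * P i)) := by
  obtain ⟨q, hq, hA⟩ := hAF
  have hq2 : 1 / 2 < q := by
    have : ((3 : ℕ) : ℝ) / 2 - 1 < q := hq
    norm_num at this
    linarith
  have hq0 : 0 < q := by linarith
  have hVq := BO_V hS fun i j => (hA i j 0 0).1
  have hdV : ∀ k, BO (q + 1) (pd k (V0 V)) := BO_dV hS fun i j k => (hA i j k 0).2.1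
  have hK : ∀ i j, Stmt.BigO (q + 1) (fun x => D.K x i j) := fun i j => (hA i j 0 0).2.2.2.1
  obtain ⟨a, ha, he⟩ := BO_err hS hV hq2 hVq hdV hK i
  obtain ⟨G, R0, hG1, hR1, hG, hH, hfar⟩ := exists_far hS
  have hci : ContinuousOn (fun x : E 3 => x i) (sphere (0 : E 3) 1) :=
    (EuclideanSpace.proj i : E 3 →L[ℝ] ℝ).continuous.continuousOn
  have h1 := lim_level hS hV hq0 hVq hdV (w := fun x => x i) hci fun x hx => by
    have := abs_coord_le x i
    rwa [hx] at this
  have h4 := he.tendsto ha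
  have hm : Tendsto (fun R => 8 * Real.pi * Stmt.flx (fun j x => Stmt.momT D.g D.K x i j) R) atTop
      (𝓝 (8 * Real.pi * P i)) := (hP i).const_mul _
  have h5 := hm.sub h4
  rw [sub_zero] at h5
  have h2 : Tendsto (fun R => R * S2 (fun x => V0 V (R • x) * x i)) atTop
      (𝓝 (8 * Real.pi * P i)) := by
    refine h5.congr' ?_
    filter_upwards [eventually_gt_atTop R0] with R hR
    have hRp : 0 < R := by linarith
    have hn : ∀ x : E 3, ‖x‖ = 1 → ‖R • x‖ = R := fun x hx => by
      rw [norm_smul, hx, mul_one, Real.norm_eq_abs, abs_of_pos hRp]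
    have hcdV : ∀ x : E 3, ‖x‖ = 1 → ContDiffAt ℝ ∞ (V0 V) (R • x) := fun x hx => by
      obtain ⟨z, s, F⟩ := hfar (R • x) (by rw [hn x hx]; exact hR)
      exact F.cdV hS hV
    have hth : ∀ x : E 3, ‖x‖ = 1 → ∀ j, th j (R • x) = x j := fun x hx j => by
      unfold th
      rw [hn x hx]
      show R * x j / R = x j
      field_simp
    -- the flux
    have e1 : 8 * Real.pi * Stmt.flx (fun j x => Stmt.momT D.g D.K x i j) R =
        R ^ 2 * S2 (fun x => ∑ j, Stmt.momT D.g D.K (R • x) i j * th j (R • x)) := by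
      unfold Stmt.flx
      rw [X5.S2_sphInt, X5.omega_three]
      have hp : Real.pi ≠ 0 := Real.pi_ne_zero
      show 8 * Real.pi * (R ^ 2 * S2 (fun x => ∑ j, Stmt.momT D.g D.K (R • x) i j *
        th j (R • x)) / (((3 : ℕ) - 1) * (4 * Real.pi))) = _
      push_cast
      field_simp
      ring
    have c1 : ContinuousOn (fun x : E 3 => ∑ j, Stmt.momT D.g D.K (R • x) i j * th j (R • x))
        (sphere (0 : E 3) 1) := by
      have c2 : ContinuousOn (fun x : E 3 => ∑ j, Stmt.momT D.g D.K (R • x) i j * x j)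
          (sphere (0 : E 3) 1) := by
        refine continuousOn_finsetSum _ fun j _ => ?_
        refine ContinuousOn.mul ?_
          (EuclideanSpace.proj j : E 3 →L[ℝ] ℝ).continuous.continuousOn
        exact cont_smul (F := fun y => Stmt.momT D.g D.K y i j) fun x hx => by
          obtain ⟨z, s, F⟩ := hfar (R • x) (by rw [hn x hx]; exact hR)
          exact cont_momT F.hF.le i j
      refine c2.congr fun x hx => ?_
      have hx1 : ‖x‖ = 1 := by simpa using hx
      exact Finset.sum_congr rfl fun j _ => by rw [hth x hx1]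
    have cv : ContinuousOn (fun x : E 3 => V0 V (R • x) * x i) (sphere (0 : E 3) 1) :=
      (cont_smul fun x hx => (hcdV x hx).continuousAt).mul hci
    have cg : ContinuousOn (fun x : E 3 => pd i (V0 V) (R • x) -
        (∑ k, pd k (V0 V) (R • x) * x k) * x i) (sphere (0 : E 3) 1) := by
      have cp : ∀ k, ContinuousOn (fun x : E 3 => pd k (V0 V) (R • x)) (sphere (0 : E 3) 1) :=
        fun k => cont_smul fun x hx => (cd_pd (hcdV x hx) k).continuousAt
      refine (cp i).sub ((continuousOn_finsetSum _ fun k _ => (cp k).mul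
        (EuclideanSpace.proj k : E 3 →L[ℝ] ℝ).continuous.continuousOn).mul hci)
    have em : ∀ x : E 3, ‖x‖ = 1 → mainP V i (R • x) = 2 / R * (V0 V (R • x) * x i) -
        1 / 2 * (pd i (V0 V) (R • x) - (∑ k, pd k (V0 V) (R • x) * x k) * x i) := fun x hx => by
      unfold mainP
      rw [hn x hx]
      simp only [hth x hx]
      ring
    have cm : ContinuousOn (fun x : E 3 => mainP V i (R • x)) (sphere (0 : E 3) 1) := by
      refine ((cK (2 / R) cv).sub (cK (1 / 2) cg)).congr fun x hx => ?_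
      exact em x (by simpa using hx)
    have e2 : S2 (fun x => mainP V i (R • x)) = 1 / R * S2 (fun x => V0 V (R • x) * x i) := by
      have := S2_grad hcdV i
      have e3 : S2 (fun x => pd i (V0 V) (R • x) - (∑ k, pd k (V0 V) (R • x) * x k) * x i) =
          2 / R * S2 (fun x => V0 V (R • x) * x i) := by
        field_simp
        linarith
      rw [S2_congr em, S2_sub (cK (2 / R) cv) (cK (1 / 2) cg), S2_cmul, S2_cmul, e3]
      ring
    rw [e1, S2_sub c1 cm, e2]
    field_simp
    ring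
  have h3 := h1.add (h2.const_mul 2)
  rw [zero_add] at h3
  have e : 16 * Real.pi * P i = 2 * (8 * Real.pi * P i) := by ring
  rw [e]
  refine h3.congr fun L => ?_
  ring

end Vale.Agent.P366.KS
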