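import Vale.Agent.P366.H296.X8

/-! Kerr-Schild exteriors: the momentum vanishes (limits). -/

open MeasureTheory Metric Filter Topology Set
open scoped ContDiff ENNReal

noncomputable section
namespace Vale.Agent.P366.H296.KSx

open Vale.Agent.P366 (pd E)
open Vale.Agent.P366.H353
open Vale.Agent.P366.KS
open Vale.Agent.P366.H296 (gr Hp)

variable {C : Cone} {lam f : E 3 → ℝ} {V : E 4 → ℝ} {D : Stmt.Exterior 3} {x y : E 3} {s t : ℝ}

/-- the metric far out -/
lemma metric_far (hS : IsSlice C lam V f D) {R : ℝ} (hR : ∀ y, R < Stmt.len y → f y = 0)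
    (hx : ‖x‖ = 1) (hs : C.U x < s) (hy : R < Stmt.len (Y C.H x s)) (i j : Fin 3) :
    D.g (Y C.H x s) i j = kd i j + V (pt 0 (Y C.H x s)) * x i * x j := by
  have hF := (F_pos hS hx hs).le
  have hf0 : f (Y C.H x s) = 0 := hR _ hy
  have hpd : ∀ i, pd i f (Y C.H x s) = 0 := by
    intro i
    unfold Vale.Agent.P366.pd
    have hopen : IsOpen {y : E 3 | R < ‖y‖} := isOpen_lt continuous_const continuous_norm
    have hev : f =ᶠ[𝓝 (Y C.H x s)] fun _ => 0 := by
      filter_upwards [hopen.mem_nhds hy] with z hz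
      exact hR z hz
    rw [hev.fderiv_eq]
    simp
  rw [hS.met _ hF, indG_eq (lam_diff hS hF) (f_diff hS hF), hf0]
  simp only [hpd, pd_lam_Y hS hx hs.le]
  ring

/-- `V → 0` at infinity -/
lemma vv_small (hS : IsSlice C lam V f D) (hAF : D.IsAF) {ε : ℝ} (hε : 0 < ε) :
    ∃ L1 : ℝ, ∀ L, L1 ≤ L → ∀ x : E 3, ‖x‖ = 1 → |vv C V L x| ≤ ε := by
  obtain ⟨L0, hL0, hfar⟩ := far hS
  obtain ⟨R, hR⟩ := hS.cpt
  obtain ⟨q, hq, hA⟩ := hAF
  have hq0 : 0 < q := by
    have : ((3 : ℕ) : ℝ) / 2 - 1 < q := hq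
    norm_num at this
    linarith only [this]
  have h1 : ∀ i j : Fin 3, ∃ R : ℝ, ∀ y, R < Stmt.len y →
      |D.g y i j - if i = j then 1 else 0| ≤ ε / 9 := by
    intro i j
    obtain ⟨K, R, hK⟩ := (hA i j 0 0).1
    have ht : Tendsto (fun r : ℝ => K * r ^ (-q)) atTop (𝓝 (K * 0)) :=
      (tendsto_rpow_neg_atTop hq0).const_mul K
    rw [mul_zero] at ht
    obtain ⟨R', hR'⟩ := (ht.eventually (gt_mem_nhds (show (0 : ℝ) < ε / 9 by positivity))).exists_forall_of_atTop
    refine ⟨max R R', fun y hy => ?_⟩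
    exact (hK y ((le_max_left _ _).trans_lt hy)).trans (hR' _ ((le_max_right _ _).trans hy.le)).le
  choose Rf hRf using h1
  obtain ⟨G, hG0, hG⟩ := H296.bdd_above (f := fun x => ‖gr C.H x‖) (by
    have : ContinuousOn (gr C.H) (sphere (0 : E 3) 1) := fun x hx =>
      (H296.gr_contDiffAt C.smH (ne_zero_of_one (by simpa using hx))).continuousAt.continuousWithinAt
    exact this.norm)
  set M := |R| + ∑ i, ∑ j, |Rf i j| with hM
  have hMij : ∀ i j, Rf i j ≤ M := by
    intro i j
    have a1 : |Rf i j| ≤ ∑ j, |Rf i j| :=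
      Finset.single_le_sum (f := fun j => |Rf i j|) (fun j _ => abs_nonneg _) (Finset.mem_univ j)
    have a2 : ∑ j, |Rf i j| ≤ ∑ i, ∑ j, |Rf i j| :=
      Finset.single_le_sum (f := fun i => ∑ j, |Rf i j|)
        (fun i _ => Finset.sum_nonneg fun j _ => abs_nonneg _) (Finset.mem_univ i)
    have a3 := le_abs_self (Rf i j)
    have a4 := abs_nonneg R
    linarith only [a1, a2, a3, a4]
  have hMR : R ≤ M := by
    have a1 : 0 ≤ ∑ i, ∑ j, |Rf i j| :=
      Finset.sum_nonneg fun i _ => Finset.sum_nonneg fun j _ => abs_nonneg _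
    linarith only [le_abs_self R, a1]
  have hM0 : 0 ≤ M := by
    have a1 : 0 ≤ ∑ i, ∑ j, |Rf i j| :=
      Finset.sum_nonneg fun i _ => Finset.sum_nonneg fun j _ => abs_nonneg _
    linarith only [abs_nonneg R, a1]
  refine ⟨L0 + (G + M + 1), fun L hL x hx => ?_⟩
  obtain ⟨a1, a2⟩ := hfar L (by linarith only [hL, hG0, hM0]) x hx
  have hlen : M < Stmt.len (Y C.H x L) := by
    have h1 : Stmt.len (Y C.H x L) = ‖Y C.H x L‖ := rfl
    rw [h1, Y_gr]
    have h2 : ‖L • x‖ = |L| := by rw [norm_smul, hx, mul_one, Real.norm_eq_abs]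
    have h3 : ‖L • x‖ ≤ ‖gr C.H x + L • x‖ + ‖gr C.H x‖ := by
      have := norm_sub_le (gr C.H x + L • x) (gr C.H x)
      rwa [add_sub_cancel_left] at this
    have h4 := hG x hx
    have h5 := le_abs_self L
    linarith only [h2, h3, h4, h5, hL, hL0]
  have hg : ∀ i j, |V (pt 0 (Y C.H x L)) * x i * x j| ≤ ε / 9 := by
    intro i j
    have h2 := hRf i j _ ((hMij i j).trans_lt hlen)
    rw [metric_far hS hR hx a1 (hMR.trans_lt hlen)] at h2
    have e : kd i j + V (pt 0 (Y C.H x L)) * x i * x j - (if i = j then (1 : ℝ) else 0) =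
        V (pt 0 (Y C.H x L)) * x i * x j := by unfold kd; ring
    rwa [e] at h2
  have hxi : ∀ i, |x i| ≤ 1 := by
    intro i
    have h3 := H296.sum_sq_one hx
    have h4 : x i ^ 2 ≤ ∑ i, x i ^ 2 :=
      Finset.single_le_sum (f := fun i => x i ^ 2) (fun i _ => sq_nonneg _) (Finset.mem_univ i)
    rw [h3] at h4
    rw [← sq_le_one_iff_abs_le_one]
    exact h4
  have hsum : vv C V L x = ∑ i, ∑ j, (V (pt 0 (Y C.H x L)) * x i * x j) * (x i * x j) := by
    have h3 := H296.sum_sq_one hx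
    have e : ∑ i, ∑ j, (V (pt 0 (Y C.H x L)) * x i * x j) * (x i * x j) =
        V (pt 0 (Y C.H x L)) * ((∑ i, x i ^ 2) * (∑ j, x j ^ 2)) := by
      simp only [Fin.sum_univ_three]
      ring
    rw [e, h3]
    unfold vv; ring
  rw [hsum]
  calc |∑ i, ∑ j, (V (pt 0 (Y C.H x L)) * x i * x j) * (x i * x j)|
      ≤ ∑ i, |∑ j, (V (pt 0 (Y C.H x L)) * x i * x j) * (x i * x j)| :=
        Finset.abs_sum_le_sum_abs _ _
    _ ≤ ∑ i : Fin 3, ∑ j : Fin 3, ε / 9 := by
        refine Finset.sum_le_sum fun i _ => (Finset.abs_sum_le_sum_abs _ _).trans ?_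
        refine Finset.sum_le_sum fun j _ => ?_
        rw [abs_mul]
        have b1 : |x i * x j| ≤ 1 := by
          rw [abs_mul]
          exact mul_le_one₀ (hxi i) (abs_nonneg _) (hxi j)
        calc _ ≤ ε / 9 * 1 := mul_le_mul (hg i j) b1 (abs_nonneg _) (by positivity)
          _ = ε / 9 := mul_one _
    _ = ε := by simp; ring

/-- continuity on a level set of the slice -/
lemma cont_level (hS : IsSlice C lam V f D) (hV : ∀ p ∈ Region lam f D, ContDiffAt ℝ ∞ V p)
    {L : ℝ} (h0 : 0 < L) (hfar : ∀ x : E 3, ‖x‖ = 1 → C.U x < L ∧ f (Y C.H x L) = 0) :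
    ContinuousOn (vv C V L) (sphere (0 : E 3) 1) ∧
      ContinuousOn (fun x => tr3 (Ws C.H L x)) (sphere (0 : E 3) 1) := by
  have hVs : ∀ s ∈ Icc L L, ∀ x : E 3, ‖x‖ = 1 → ContDiffAt ℝ ∞ V (pt 0 (Y C.H x s)) := by
    intro s hs x hx
    have : s = L := le_antisymm hs.2 hs.1
    subst this
    obtain ⟨a1, a2⟩ := hfar x hx
    exact hV _ (mem_region' hS hx a1.le (by linarith only [h0]) (by rw [a2]))
  have cv : ContinuousOn (fun p : ℝ × E 3 => vv C V p.1 p.2) (Icc L L ×ˢ sphere 0 1) :=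
    cont_comp C (F := fun z => V (pt 0 z)) fun s hs x hx => (cd_slice (hVs s hs x hx)).continuousAt
  exact ⟨H296.slice_cont (g := fun s x => vv C V s x) cv ⟨le_rfl, le_rfl⟩,
    H296.slice_cont (g := fun s x => tr3 (Ws C.H s x)) (cont_tr C L L) ⟨le_rfl, le_rfl⟩⟩

lemma S2_abs_le {g : E 3 → ℝ} {K : ℝ} (hg : ContinuousOn g (sphere (0 : E 3) 1))
    (h : ∀ x : E 3, ‖x‖ = 1 → |g x| ≤ K) : |S2 g| ≤ 4 * Real.pi * K := by
  rw [abs_le]
  constructor
  · have := S2_mono (f := fun _ => -K) continuousOn_const hg fun x hx => (abs_le.mp (h x hx)).1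
    rw [S2_const] at this
    linarith only [this]
  · have := S2_mono (h := fun _ => K) hg continuousOn_const fun x hx => (abs_le.mp (h x hx)).2
    rw [S2_const] at this
    exact this

/-- The momentum vanishes, given the formulas for energy and momentum. -/
theorem momentum_zero_of (hS : IsSlice C lam V f D)
    (hV : ∀ p ∈ Region lam f D, ContDiffAt ℝ ∞ V p ∧ DECat (ksG lam V) (nul lam) p)
    (hAF : D.IsAF) {m : ℝ} {P : Fin 3 → ℝ}
    (hm : Tendsto (fun L => S2 (fun x => V (pt 0 (Y C.H x L)) * tr3 (Ws C.H L x))) atTop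
      (𝓝 (16 * Real.pi * m)))
    (hP : ∀ i, Tendsto (fun L => S2 (fun x => V (pt 0 (Y C.H x L)) * tr3 (Ws C.H L x) * x i)) atTop
      (𝓝 (16 * Real.pi * P i))) :
    P = 0 := by
  have hV1 : ∀ p ∈ Region lam f D, ContDiffAt ℝ ∞ V p := fun p hp => (hV p hp).1
  have hA : Tendsto (fun L => S2 (fun x => vv C V L x * tr3 (Ws C.H L x))) atTop
      (𝓝 (16 * Real.pi * m)) := hm
  funext i
  have hp : Tendsto (fun L => S2 (fun x => vv C V L x * tr3 (Ws C.H L x) * x i)) atTop
      (𝓝 (16 * Real.pi * P i)) := hP i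
  obtain ⟨L0, hL0, hfar⟩ := far hS
  obtain ⟨G, hG0, hG⟩ := H296.bdd_above (f := fun x => ‖gr C.H x‖) (by
    have : ContinuousOn (gr C.H) (sphere (0 : E 3) 1) := fun x hx =>
      (H296.gr_contDiffAt C.smH (ne_zero_of_one (by simpa using hx))).continuousAt.continuousWithinAt
    exact this.norm)
  obtain ⟨T, hT0, hT⟩ := H296.bdd_above (f := fun x => |lap C.H x|) C.smH.lap.contOn.abs
  set A : ℝ → ℝ := fun L => S2 (fun x => vv C V L x * tr3 (Ws C.H L x)) with hAdef
  set p : ℝ → ℝ := fun L => S2 (fun x => vv C V L x * tr3 (Ws C.H L x) * x i) with hpdef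
  set q : ℝ → ℝ := fun L => S2 (fun x => Y C.H x L i * (vv C V L x * tr3 (Ws C.H L x))) with hqdef
  have hgi : ∀ x : E 3, |gr C.H x i| ≤ ‖gr C.H x‖ := fun x => by
    have := PiLp.norm_apply_le (gr C.H x) i
    simpa using this
  have hxi : ∀ x : E 3, ‖x‖ = 1 → |x i| ≤ 1 := fun x hx => by
    have := PiLp.norm_apply_le x i
    rw [hx] at this
    simpa using this
  have hYi : ∀ s L : ℝ, 0 ≤ s → s ≤ L → ∀ x : E 3, ‖x‖ = 1 → |Y C.H x s i| ≤ L + G := by
    intro s L hs hsL x hx
    rw [Y_gr]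
    have e : (gr C.H x + s • x) i = gr C.H x i + s * x i := by simp
    rw [e]
    have a1 := abs_add_le (gr C.H x i) (s * x i)
    have a2 : |s * x i| ≤ s := by
      rw [abs_mul, abs_of_nonneg hs]
      exact mul_le_of_le_one_right hs (hxi x hx)
    have a3 := hgi x
    have a4 := hG x hx
    linarith only [a1, a2, a3, a4, hsL]
  -- the basic inequality
  have key : ∀ L1 L2 : ℝ, L0 ≤ L1 → L1 ≤ L2 → |q L2 - q L1| ≤ (L2 + G) * (A L2 - A L1) := by
    intro L1 L2 h1 h12
    have hL1 : 0 < L1 := hL0.trans_le h1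
    have hfar1 : ∀ L, L1 ≤ L → ∀ x : E 3, ‖x‖ = 1 → C.U x < L ∧ f (Y C.H x L) = 0 :=
      fun L hL => hfar L (h1.trans hL)
    have hexp : ∀ (σ : ℝ) (L : ℝ), L1 ≤ L →
        S2 (fun x => (L2 + G + σ * Y C.H x L i) * (vv C V L x * tr3 (Ws C.H L x))) =
        (L2 + G) * A L + σ * q L := by
      intro σ L hL
      obtain ⟨c1, c2⟩ := cont_level hS hV1 (hL1.trans_le hL) (hfar1 L hL)
      have cYi : ContinuousOn (fun x => Y C.H x L i) (sphere (0 : E 3) 1) :=
        H296.slice_cont (g := fun s x => Y C.H x s i)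
          ((cont_coord i).comp_continuousOn (cont_Y C L L)) ⟨le_rfl, le_rfl⟩
      rw [hAdef, hqdef]
      simp only
      rw [← S2_cmul, ← S2_cmul, ← S2_add (cK _ (cM c1 c2)) (cK σ (cM cYi (cM c1 c2)))]
      exact S2_congr fun x _ => by ring
    have hp1 := weighted_mono hS hV (L1 := L1) (L2 := L2) (B := L2 + G) (σ := 1) h12 i hL1 hfar1
      (fun s hs x hx => by
        have := (abs_le.mp (hYi s L2 (hL1.le.trans hs.1) hs.2 x hx)).1
        linarith only [this])
    have hm1 := weighted_mono hS hV (L1 := L1) (L2 := L2) (B := L2 + G) (σ := -1) h12 i hL1 hfar1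
      (fun s hs x hx => by
        have := (abs_le.mp (hYi s L2 (hL1.le.trans hs.1) hs.2 x hx)).2
        linarith only [this])
    rw [hexp 1 L1 le_rfl, hexp 1 L2 h12] at hp1
    rw [hexp (-1) L1 le_rfl, hexp (-1) L2 h12] at hm1
    rw [abs_le]
    constructor <;> linarith only [hp1, hm1]
  -- splitting of `q`
  have hsplit : ∀ L, L0 ≤ L → q L = S2 (fun x => gr C.H x i * (vv C V L x * tr3 (Ws C.H L x))) +
      L * p L := by
    intro L hL
    obtain ⟨c1, c2⟩ := cont_level hS hV1 (hL0.trans_le hL) (hfar L hL)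
    have cg : ContinuousOn (fun x => gr C.H x i) (sphere (0 : E 3) 1) := (C.smH.pd i).contOn
    have cx : ContinuousOn (fun x : E 3 => x i) (sphere (0 : E 3) 1) := (cont_coord i).continuousOn
    rw [hqdef, hpdef]
    simp only
    rw [← S2_cmul, ← S2_add (cM cg (cM c1 c2)) (cK L (cM (cM c1 c2) cx))]
    refine S2_congr fun x _ => ?_
    rw [Y_gr]
    have e : (gr C.H x + L • x) i = gr C.H x i + L * x i := by simp
    rw [e]; ring
  -- the error term
  have herr : ∀ ε : ℝ, 0 < ε → ∃ L1, ∀ L, L1 ≤ L →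
      |S2 (fun x => gr C.H x i * (vv C V L x * tr3 (Ws C.H L x)))| ≤ ε * L := by
    intro ε hε
    set δ := ε / (4 * Real.pi * (G * (T + 2))) with hδ
    have hδ0 : 0 < δ := by positivity
    obtain ⟨L1, hL1⟩ := vv_small hS hAF hδ0
    refine ⟨max (max L0 L1) 1, fun L hL => ?_⟩
    have a1 : L0 ≤ L := (le_max_left _ _).trans ((le_max_left _ _).trans hL)
    have a2 : L1 ≤ L := (le_max_right _ _).trans ((le_max_left _ _).trans hL)
    have a3 : 1 ≤ L := (le_max_right _ _).trans hL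
    obtain ⟨c1, c2⟩ := cont_level hS hV1 (hL0.trans_le a1) (hfar L a1)
    have cg : ContinuousOn (fun x => gr C.H x i) (sphere (0 : E 3) 1) := (C.smH.pd i).contOn
    have h := S2_abs_le (K := G * (δ * ((T + 2) * L))) (cM cg (cM c1 c2)) fun x hx => by
      rw [abs_mul, abs_mul]
      have b1 : |gr C.H x i| ≤ G := (hgi x).trans (hG x hx)
      have b2 := hL1 L a2 x hx
      have b3 : |tr3 (Ws C.H L x)| ≤ (T + 2) * L := by
        rw [tr3_Ws C hx]
        have d1 := abs_add_le (lap C.H x) (2 * L)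
        have d2 := hT x hx
        have d3 : |2 * L| = 2 * L := abs_of_nonneg (by linarith only [a3])
        nlinarith only [d1, d2, d3, a3, hT0]
      exact mul_le_mul b1 (mul_le_mul b2 b3 (abs_nonneg _) hδ0.le)
        (mul_nonneg (abs_nonneg _) (abs_nonneg _)) hG0.le
    refine h.trans_eq ?_
    rw [hδ]
    have : Real.pi ≠ 0 := Real.pi_ne_zero
    field_simp
  -- limit in L2
  have hlim1 : ∀ L1, L0 ≤ L1 → |16 * Real.pi * P i| ≤ 16 * Real.pi * m - A L1 := by
    intro L1 h1
    have hdiv : Tendsto (fun L => (q L - q L1) / L) atTop (𝓝 (16 * Real.pi * P i)) := by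
      have e1 : Tendsto (fun L => S2 (fun x => gr C.H x i * (vv C V L x * tr3 (Ws C.H L x))) / L)
          atTop (𝓝 0) := by
        rw [Metric.tendsto_atTop]
        intro ε hε
        obtain ⟨L2, hL2⟩ := herr (ε / 2) (by positivity)
        refine ⟨max L2 1, fun L hL => ?_⟩
        have a1 : L2 ≤ L := (le_max_left _ _).trans hL
        have a2 : 1 ≤ L := (le_max_right _ _).trans hL
        have a3 : 0 < L := one_pos.trans_le a2
        rw [Real.dist_eq, sub_zero, abs_div, abs_of_pos a3, div_lt_iff₀ a3]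
        have := hL2 L a1
        nlinarith only [this, hε, a3]
      have e2 : Tendsto (fun L : ℝ => q L1 / L) atTop (𝓝 0) :=
        tendsto_const_nhds.div_atTop tendsto_id
      have e3 := (e1.add hp).sub e2
      rw [zero_add, sub_zero] at e3
      refine e3.congr' ?_
      filter_upwards [eventually_ge_atTop L0] with L hL
      have hLp : L ≠ 0 := (hL0.trans_le hL).ne'
      rw [hsplit L hL]
      field_simp
    have hrhs : Tendsto (fun L => (L + G) * (A L - A L1) / L) atTop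
        (𝓝 (16 * Real.pi * m - A L1)) := by
      have e2 : Tendsto (fun L : ℝ => G / L) atTop (𝓝 0) :=
        tendsto_const_nhds.div_atTop tendsto_id
      have e3 := ((tendsto_const_nhds (x := (1 : ℝ))).add e2).mul (hA.sub_const (A L1))
      rw [add_zero, one_mul] at e3
      refine e3.congr' ?_
      filter_upwards [eventually_ge_atTop L0] with L hL
      have hLp : L ≠ 0 := (hL0.trans_le hL).ne'
      field_simp
    refine le_of_tendsto_of_tendsto hdiv.abs hrhs ?_
    filter_upwards [eventually_ge_atTop L1] with L hL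
    have hLp : 0 < L := (hL0.trans_le h1).trans_le hL
    rw [abs_div, abs_of_pos hLp]
    exact div_le_div_of_nonneg_right (key L1 L h1 hL) hLp.le
  -- limit in L1
  have hlim2 : |16 * Real.pi * P i| ≤ 16 * Real.pi * m - 16 * Real.pi * m := by
    refine ge_of_tendsto (hA.const_sub (16 * Real.pi * m)) ?_
    filter_upwards [eventually_ge_atTop L0] with L hL using hlim1 L hL
  rw [sub_self] at hlim2
  have h3 := abs_nonpos_iff.mp hlim2
  have h4 : (16 : ℝ) * Real.pi ≠ 0 := by positivity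
  simpa using (mul_eq_zero.mp h3).resolve_left h4

end Vale.Agent.P366.H296.KSx
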