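import Vale.Agent.P366.H296.X5a

/-! Kerr-Schild exteriors: decay of `V`. -/

open MeasureTheory Metric Filter Topology Set
open scoped ContDiff ENNReal

noncomputable section
namespace Vale.Agent.P366.H296.KSx

open Vale.Agent.P366 (pd E)
open Vale.Agent.P366.H353
open Vale.Agent.P366.KS

variable {C : Cone} {lam f : E 3 → ℝ} {V : E 4 → ℝ} {D : Stmt.Exterior 3} {x y : E 3} {s t : ℝ}

/-- the restriction of `V` to `t = 0` -/
def V0 (V : E 4 → ℝ) (y : E 3) : ℝ := V (pt 0 y)

variable {G : ℝ}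

lemma FarPt.mem (hS : IsSlice C lam V f D) (F : FarPt C f D G y x s) :
    pt 0 y ∈ Region lam f D := by
  have h := mem_region hS F.hF.le
  rwa [F.hf.self_of_nhds] at h

lemma FarPt.cdV (hS : IsSlice C lam V f D) (hV : ∀ p ∈ Region lam f D, ContDiffAt ℝ ∞ V p)
    (F : FarPt C f D G y x s) : ContDiffAt ℝ ∞ (V0 V) y := cd_slice (hV _ (F.mem hS))

lemma FarPt.pdf (F : FarPt C f D G y x s) (i : Fin 3) : pd i f y = 0 := by
  rw [Vale.Agent.P366.pd_congr F.hf i, Vale.Agent.P366.pd_const]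

/-- the metric at far points -/
lemma FarPt.g (hS : IsSlice C lam V f D) (F : FarPt C f D G y x s) (i j : Fin 3) :
    D.g y i j = kd i j + V0 V y * pd i lam y * pd j lam y := by
  have hF := F.hF.le
  rw [hS.met _ hF, indG_eq (lam_diff hS hF) (f_diff hS hF), F.hf.self_of_nhds]
  simp only [F.pdf]
  unfold V0
  ring

lemma FarPt.one_add_pos (hS : IsSlice C lam V f D) (F : FarPt C f D G y x s) :
    0 < 1 + V0 V y := by
  have h := det_indG_pos hS F.hF.le
  have h1 : dL lam f y = 0 := by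
    unfold dL
    simp [F.pdf]
  simp only [F.pdf, h1, F.hf.self_of_nhds] at h
  unfold V0
  simpa using h

lemma FarPt.nn (hS : IsSlice C lam V f D) (F : FarPt C f D G y x s) :
    ∑ i, pd i lam y ^ 2 = 1 := gsq_lam' hS F.hF.le

/-- `V` from the metric -/
lemma FarPt.V_eq (hS : IsSlice C lam V f D) (F : FarPt C f D G y x s) :
    V0 V y = ∑ i, ∑ j, (D.g y i j - kd i j) * (pd i lam y * pd j lam y) := by
  have h := F.nn hS
  have e : ∑ i, ∑ j, (D.g y i j - kd i j) * (pd i lam y * pd j lam y) =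
      V0 V y * ((∑ i, pd i lam y ^ 2) * (∑ j, pd j lam y ^ 2)) := by
    simp only [F.g hS, Fin.sum_univ_three]
    ring
  rw [e, h]; ring

/-- far points form an open set -/
lemma far_open {R : ℝ} (hy : R < ‖y‖) : ∀ᶠ z in 𝓝 y, R < ‖z‖ :=
  (isOpen_lt continuous_const continuous_norm).mem_nhds hy

lemma FarPt.hs_n (hS : IsSlice C lam V f D) (F : FarPt C f D G y x s) (i : Fin 3) :
    ∑ k, H353.hs lam i k y * pd k lam y = 0 := by
  have h := hs_lam_mul_x hS F.hx F.hU.le i
  rw [F.hY] at h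
  rw [← h]
  refine Finset.sum_congr rfl fun k _ => ?_
  rw [← F.hY, pd_lam_Y hS F.hx F.hU.le, F.hY]

/-- the derivative of `V` from the metric -/
lemma FarPt.dV_eq (hS : IsSlice C lam V f D) {R : ℝ}
    (hfar : ∀ y : E 3, R < ‖y‖ → ∃ x s, FarPt C f D G y x s) (hy : R < ‖y‖) (k : Fin 3) :
    pd k (V0 V) y = ∑ i, ∑ j, pd k (fun z => D.g z i j) y * (pd i lam y * pd j lam y) := by
  obtain ⟨x, s, F⟩ := hfar y hy
  have h1 : V0 V =ᶠ[𝓝 y] fun z => ∑ i, ∑ j, (D.g z i j - kd i j) * (pd i lam z * pd j lam z) := by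
    filter_upwards [far_open hy] with z hz
    obtain ⟨x', s', F'⟩ := hfar z hz
    exact F'.V_eq hS
  rw [Vale.Agent.P366.pd_congr h1 k]
  have hlam := hS.smL y F.hF.le
  have dn : ∀ i, DifferentiableAt ℝ (pd i lam) y := fun i =>
    (cd_pd hlam i).differentiableAt (by simp)
  have dg : ∀ i j, DifferentiableAt ℝ (fun z => D.g z i j) y := fun i j =>
    ((D.smooth i j).1.contDiffAt).differentiableAt (by simp)
  have dgk : ∀ i j, DifferentiableAt ℝ (fun z => D.g z i j - kd i j) y := fun i j =>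
    (dg i j).sub (differentiableAt_const _)
  have e1 : ∀ i j, pd k (fun z => (D.g z i j - kd i j) * (pd i lam z * pd j lam z)) y =
      pd k (fun z => D.g z i j) y * (pd i lam y * pd j lam y) +
      (D.g y i j - kd i j) * (H353.hs lam k i y * pd j lam y + pd i lam y * H353.hs lam k j y) := by
    intro i j
    have dnn : DifferentiableAt ℝ (fun z => pd i lam z * pd j lam z) y := (dn i).mul (dn j)
    rw [Vale.Agent.P366.pd_mul (dgk i j) dnn, Vale.Agent.P366.pd_mul (dn i) (dn j),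
      Vale.Agent.P366.pd_sub (dg i j) (differentiableAt_const _), Vale.Agent.P366.pd_const]
    unfold H353.hs
    ring
  have dterm : ∀ i j, DifferentiableAt ℝ
      (fun z => (D.g z i j - kd i j) * (pd i lam z * pd j lam z)) y := fun i j =>
    (dgk i j).mul ((dn i).mul (dn j))
  have dsum : ∀ i, DifferentiableAt ℝ
      (fun z => ∑ j, (D.g z i j - kd i j) * (pd i lam z * pd j lam z)) y := fun i =>
    DifferentiableAt.fun_sum fun j _ => dterm i j
  rw [Vale.Agent.P366.pd_sum _ (fun i _ => dsum i) k]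
  have e2 : ∀ i, pd k (fun z => ∑ j, (D.g z i j - kd i j) * (pd i lam z * pd j lam z)) y =
      ∑ j, (pd k (fun z => D.g z i j) y * (pd i lam y * pd j lam y) +
      (D.g y i j - kd i j) * (H353.hs lam k i y * pd j lam y + pd i lam y * H353.hs lam k j y)) := by
    intro i
    rw [Vale.Agent.P366.pd_sum _ (fun j _ => dterm i j) k]
    exact Finset.sum_congr rfl fun j _ => e1 i j
  simp only [e2, Finset.sum_add_distrib]
  have e3 : ∑ i, ∑ j, (D.g y i j - kd i j) *
      (H353.hs lam k i y * pd j lam y + pd i lam y * H353.hs lam k j y) = 0 := by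
    have h2 := F.hs_n hS k
    have e4 : ∑ i, ∑ j, (D.g y i j - kd i j) *
      (H353.hs lam k i y * pd j lam y + pd i lam y * H353.hs lam k j y) =
      V0 V y * ((∑ i, H353.hs lam k i y * pd i lam y) * (∑ j, pd j lam y ^ 2) +
        (∑ i, pd i lam y ^ 2) * (∑ j, H353.hs lam k j y * pd j lam y)) := by
      simp only [F.g hS, Fin.sum_univ_three]
      ring
    rw [e4, h2]; ring
  rw [e3, add_zero]

lemma BO_V (hS : IsSlice C lam V f D) {q : ℝ}
    (hg : ∀ i j, Stmt.BigO q (fun x => D.g x i j - if i = j then 1 else 0)) : BO q (V0 V) := by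
  obtain ⟨G, R, hG1, hR1, hG, hH, hfar⟩ := exists_far hS
  have h1 : BO q fun y => ∑ i, ∑ j, (pd i lam y * pd j lam y) * (D.g y i j - kd i j) :=
    BO.sum _ fun i => BO.sum _ fun j => by
      have h2 : BO 0 fun y => pd i lam y * pd j lam y := by
        have := (BO_n hS i).mul (BO_n hS j)
        rwa [zero_add] at this
      exact h2.bmul (BO.of_bigO (hg i j))
  refine h1.congr (R := R) fun y hy => ?_
  obtain ⟨x, s, F⟩ := hfar y hy
  rw [F.V_eq hS]
  exact Finset.sum_congr rfl fun i _ => Finset.sum_congr rfl fun j _ => mul_comm _ _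

lemma BO_dV (hS : IsSlice C lam V f D) {q : ℝ}
    (hg : ∀ i j k, Stmt.BigO (q + 1) (Stmt.pd k fun x => D.g x i j)) (k : Fin 3) :
    BO (q + 1) (pd k (V0 V)) := by
  obtain ⟨G, R, hG1, hR1, hG, hH, hfar⟩ := exists_far hS
  have h1 : BO (q + 1) fun y => ∑ i, ∑ j, (pd i lam y * pd j lam y) *
      Stmt.pd k (fun z => D.g z i j) y :=
    BO.sum _ fun i => BO.sum _ fun j => by
      have h2 : BO 0 fun y => pd i lam y * pd j lam y := by
        have := (BO_n hS i).mul (BO_n hS j)
        rwa [zero_add] at this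
      exact h2.bmul (BO.of_bigO (hg i j k))
  refine h1.congr (R := R) fun y hy => ?_
  rw [FarPt.dV_eq hS hfar hy k]
  refine Finset.sum_congr rfl fun i _ => Finset.sum_congr rfl fun j _ => ?_
  rw [Vale.Agent.P366.Bridge.pd_eq (((D.smooth i j).1.contDiffAt).differentiableAt (by simp))]
  exact mul_comm _ _

/-! ### level sets and spheres -/

lemma S2_tendsto_zero {F : ℝ → E 3 → ℝ}
    (h : ∀ ε : ℝ, 0 < ε → ∃ L0 : ℝ, ∀ L, L0 ≤ L → ∀ x : E 3, ‖x‖ = 1 → |F L x| ≤ ε) :
    Tendsto (fun L => S2 (F L)) atTop (𝓝 0) := by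
  rw [Metric.tendsto_atTop]
  intro ε hε
  obtain ⟨L0, hL0⟩ := h (ε / (8 * Real.pi)) (by positivity)
  refine ⟨L0, fun L hL => ?_⟩
  rw [Real.dist_eq, sub_zero]
  have h1 : ‖∫ θ : sphere (0 : E 3) 1, F L (θ : E 3) ∂(sphM 3)‖ ≤
      ε / (8 * Real.pi) * (sphM 3).real univ :=
    norm_integral_le_of_norm_le_const (Eventually.of_forall fun θ => hL0 L hL θ (by simp))
  have h2 : (sphM 3).real univ = 4 * Real.pi := by
    have := S2_const 1
    unfold S2 at this
    rw [integral_const, smul_eq_mul, mul_one, mul_one] at this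
    exact this
  rw [h2, Real.norm_eq_abs] at h1
  have e : ε / (8 * Real.pi) * (4 * Real.pi) = ε / 2 := by field_simp; ring
  rw [e] at h1
  exact h1.trans_lt (half_lt_self hε)

/-- comparison of the level sets with the spheres -/
theorem lim_level (hS : IsSlice C lam V f D) (hV : ∀ p ∈ Region lam f D, ContDiffAt ℝ ∞ V p)
    {q : ℝ} (hq : 0 < q) (hVq : BO q (V0 V)) (hdV : ∀ k, BO (q + 1) (pd k (V0 V)))
    {w : E 3 → ℝ} (hw : ContinuousOn w (sphere (0 : E 3) 1)) (hw1 : ∀ x : E 3, ‖x‖ = 1 → |w x| ≤ 1) :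
    Tendsto (fun L => S2 (fun x => V (pt 0 (Y C.H x L)) * tr3 (Ws C.H L x) * w x) -
      2 * L * S2 (fun x => V0 V (L • x) * w x)) atTop (𝓝 0) := by
  obtain ⟨G, R, hG1, hR1, hG, hH, hfar⟩ := exists_far hS
  obtain ⟨T, hT0, hT⟩ := bdd_above (f := fun x => |lap C.H x|) C.smH.lap.contOn.abs
  obtain ⟨C1, R1, hC1, hR11, h1⟩ := hVq
  choose C2 R2 hC2 hR21 h2 using hdV
  set M := ∑ k, C2 k with hM
  have hM0 : 0 ≤ M := Finset.sum_nonneg fun k _ => hC2 k
  set R' := R + R1 + ∑ k, R2 k with hR'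
  have hRk : ∀ k, R2 k ≤ ∑ k, R2 k := fun k =>
    Finset.single_le_sum (f := R2) (fun k _ => zero_le_one.trans (hR21 k)) (Finset.mem_univ k)
  have hRs : 0 ≤ ∑ k, R2 k := Finset.sum_nonneg fun k _ => zero_le_one.trans (hR21 k)
  have hR'1 : R ≤ R' := by linarith only [hR11, hRs]
  have hR'2 : R1 ≤ R' := by linarith only [hR1, hRs]
  have hR'3 : ∀ k, R2 k ≤ R' := fun k => by linarith only [hR1, hR11, hRk k]
  have hR'0 : 1 ≤ R' := by linarith only [hR1, hR11, hRs]
  -- points of the segment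
  have hseg : ∀ L : ℝ, 2 * (R' + G) ≤ L → ∀ x : E 3, ‖x‖ = 1 → ∀ z ∈ segment ℝ (L • x) (Y C.H x L),
      L / 2 ≤ ‖z‖ ∧ R' < ‖z‖ := by
    intro L hL x hx z hz
    have hL0 : 0 < L := by linarith only [hL, hR'0, hG1]
    have hz1 : ‖z - L • x‖ ≤ G := by
      have h3 : ‖z - L • x‖ ≤ ‖Y C.H x L - L • x‖ := by
        rw [segment_eq_image'] at hz
        obtain ⟨r, hr, rfl⟩ := hz
        have e : L • x + r • (Y C.H x L - L • x) - L • x = r • (Y C.H x L - L • x) := by abel
        rw [e, norm_smul, Real.norm_eq_abs, abs_of_nonneg hr.1]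
        exact mul_le_of_le_one_left (norm_nonneg _) hr.2
      refine h3.trans ?_
      rw [Y_gr, add_sub_cancel_right]
      exact hG x hx
    have h4 : ‖L • x‖ = L := by rw [norm_smul, hx, mul_one, Real.norm_eq_abs, abs_of_pos hL0]
    have h5 : ‖L • x‖ ≤ ‖z‖ + ‖z - L • x‖ := by
      have := norm_sub_le z (z - L • x)
      rwa [sub_sub_cancel] at this
    constructor
    · linarith only [h4, h5, hz1, hL, hR'0, hG1]
    · linarith only [h4, h5, hz1, hL, hR'0, hG1]
  have hdiffV : ∀ z : E 3, R' < ‖z‖ → ContDiffAt ℝ ∞ (V0 V) z := fun z hz => by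
    obtain ⟨x, s, F⟩ := hfar z (hR'1.trans_lt hz)
    exact F.cdV hS hV
  -- mean value estimate
  have hmv : ∀ L : ℝ, 2 * (R' + G) ≤ L → ∀ x : E 3, ‖x‖ = 1 →
      |V0 V (Y C.H x L) - V0 V (L • x)| ≤ M * (L / 2) ^ (-(q + 1)) * G := by
    intro L hL x hx
    have hL0 : 0 < L := by linarith only [hL, hR'0, hG1]
    have hK : ∀ z ∈ segment ℝ (L • x) (Y C.H x L), ‖fderiv ℝ (V0 V) z‖ ≤ M * (L / 2) ^ (-(q + 1)) := by
      intro z hz
      obtain ⟨z1, z2⟩ := hseg L hL x hx z hz
      have hz0 : 0 < ‖z‖ := by linarith only [z1, hL0]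
      refine ContinuousLinearMap.opNorm_le_bound _
        (mul_nonneg hM0 (Real.rpow_nonneg (by positivity) _)) fun v => ?_
      rw [Vale.Agent.P366.fderiv_eq_sum_pd, Real.norm_eq_abs]
      refine (Finset.abs_sum_le_sum_abs _ _).trans ?_
      have h3 : ∀ k, |v k * pd k (V0 V) z| ≤ C2 k * (L / 2) ^ (-(q + 1)) * ‖v‖ := by
        intro k
        rw [abs_mul, mul_comm]
        have h4 := h2 k z ((hR'3 k).trans_lt z2)
        have h5 : ‖z‖ ^ (-(q + 1)) ≤ (L / 2) ^ (-(q + 1)) :=
          Real.rpow_le_rpow_of_nonpos (by positivity) z1 (by linarith only [hq])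
        have h6 : |pd k (V0 V) z| ≤ C2 k * (L / 2) ^ (-(q + 1)) :=
          h4.trans (mul_le_mul_of_nonneg_left h5 (hC2 k))
        exact mul_le_mul h6 (abs_coord_le v k) (abs_nonneg _)
          (mul_nonneg (hC2 k) (Real.rpow_nonneg (by positivity) _))
      refine (Finset.sum_le_sum fun k _ => h3 k).trans_eq ?_
      rw [← Finset.sum_mul, ← Finset.sum_mul]
    have h7 := Convex.norm_image_sub_le_of_norm_fderiv_le (𝕜 := ℝ) (f := V0 V)
      (s := segment ℝ (L • x) (Y C.H x L)) (fun z hz =>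
        (hdiffV z (hseg L hL x hx z hz).2).differentiableAt (by simp)) hK
      (convex_segment _ _) (left_mem_segment ℝ _ _) (right_mem_segment ℝ _ _)
    rw [Real.norm_eq_abs] at h7
    refine h7.trans ?_
    refine mul_le_mul_of_nonneg_left ?_ (mul_nonneg hM0 (Real.rpow_nonneg (by positivity) _))
    rw [Y_gr, add_sub_cancel_right]
    exact hG x hx
  -- the difference as one integral
  have hsplit : ∀ L : ℝ, 2 * (R' + G) ≤ L →
      S2 (fun x => V (pt 0 (Y C.H x L)) * tr3 (Ws C.H L x) * w x) -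
      2 * L * S2 (fun x => V0 V (L • x) * w x) =
      S2 (fun x => (V0 V (Y C.H x L) * lap C.H x + 2 * L * (V0 V (Y C.H x L) - V0 V (L • x))) *
        w x) := by
    intro L hL
    have hL0 : 0 < L := by linarith only [hL, hR'0, hG1]
    have c1 : ContinuousOn (fun x => V0 V (Y C.H x L)) (sphere (0 : E 3) 1) := by
      have h3 := cont_comp C (F := V0 V) (a := L) (b := L) fun s hs x hx => by
        have : s = L := le_antisymm hs.2 hs.1
        subst this
        exact (hdiffV _ (hseg s hL x hx _ (right_mem_segment ℝ _ _)).2).continuousAt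
      exact slice_cont (g := fun s x => V0 V (Y C.H x s)) h3 ⟨le_rfl, le_rfl⟩
    have c2 : ContinuousOn (fun x => tr3 (Ws C.H L x)) (sphere (0 : E 3) 1) :=
      slice_cont (g := fun s x => tr3 (Ws C.H s x)) (cont_tr C L L) ⟨le_rfl, le_rfl⟩
    have c3 : ContinuousOn (fun x : E 3 => V0 V (L • x)) (sphere (0 : E 3) 1) := by
      intro x hx
      have hx1 : ‖x‖ = 1 := by simpa using hx
      have h3 := (hdiffV _ (hseg L hL x hx1 _ (left_mem_segment ℝ _ _)).2).continuousAt
      exact (ContinuousAt.comp (g := V0 V) (f := fun x : E 3 => L • x) h3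
        (continuous_const_smul L).continuousAt).continuousWithinAt
    change S2 (fun x => V0 V (Y C.H x L) * tr3 (Ws C.H L x) * w x) - _ = _
    rw [← S2_cmul, ← S2_sub (cM (cM c1 c2) hw) (cK _ (cM c3 hw))]
    refine S2_congr fun x hx => ?_
    rw [tr3_Ws C hx]
    ring
  have hlim : Tendsto (fun L => S2 (fun x => (V0 V (Y C.H x L) * lap C.H x +
      2 * L * (V0 V (Y C.H x L) - V0 V (L • x))) * w x)) atTop (𝓝 0) := by
    refine S2_tendsto_zero fun ε hε => ?_
    have t1 : Tendsto (fun L : ℝ => C1 * (L / 2) ^ (-q) * T) atTop (𝓝 0) := by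
      have h3 : Tendsto (fun L : ℝ => L / 2) atTop atTop := tendsto_id.atTop_div_const (by norm_num)
      have := (((tendsto_rpow_neg_atTop hq).comp h3).const_mul C1).mul_const T
      simpa using this
    have t2 : Tendsto (fun L : ℝ => 4 * (M * (L / 2) ^ (-q) * G)) atTop (𝓝 0) := by
      have h3 : Tendsto (fun L : ℝ => L / 2) atTop atTop := tendsto_id.atTop_div_const (by norm_num)
      have := ((((tendsto_rpow_neg_atTop hq).comp h3).const_mul M).mul_const G).const_mul 4
      simpa using this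
    have t3 := t1.add t2
    rw [add_zero] at t3
    obtain ⟨L1, hL1⟩ := (t3.eventually (gt_mem_nhds hε)).exists_forall_of_atTop
    refine ⟨max L1 (2 * (R' + G)), fun L hL x hx => ?_⟩
    have a1 := hL1 L ((le_max_left _ _).trans hL)
    have a2 : 2 * (R' + G) ≤ L := (le_max_right _ _).trans hL
    have hL0 : 0 < L := by linarith only [a2, hR'0, hG1]
    obtain ⟨z1, z2⟩ := hseg L a2 x hx _ (right_mem_segment ℝ _ _)
    have b1 : |V0 V (Y C.H x L)| ≤ C1 * (L / 2) ^ (-q) := by
      refine (h1 _ (hR'2.trans_lt z2)).trans (mul_le_mul_of_nonneg_left ?_ hC1)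
      exact Real.rpow_le_rpow_of_nonpos (by positivity) z1 (by linarith only [hq])
    have b2 := hmv L a2 x hx
    have b3 : 2 * L * (M * (L / 2) ^ (-(q + 1)) * G) = 4 * (M * (L / 2) ^ (-q) * G) := by
      have : (L / 2) ^ (-(q + 1)) = (L / 2) ^ (-q) * (L / 2)⁻¹ := by
        rw [neg_add, Real.rpow_add (by positivity), Real.rpow_neg_one]
      rw [this]
      field_simp
      ring
    rw [abs_mul]
    have b4 : |V0 V (Y C.H x L) * lap C.H x + 2 * L * (V0 V (Y C.H x L) - V0 V (L • x))| ≤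
        C1 * (L / 2) ^ (-q) * T + 4 * (M * (L / 2) ^ (-q) * G) := by
      refine (abs_add_le _ _).trans (add_le_add ?_ ?_)
      · rw [abs_mul]
        exact mul_le_mul b1 (hT x hx) (abs_nonneg _)
          (mul_nonneg hC1 (Real.rpow_nonneg (by positivity) _))
      · rw [abs_mul, abs_of_pos (by positivity : 0 < 2 * L), ← b3]
        exact mul_le_mul_of_nonneg_left b2 (by positivity)
    calc _ ≤ ε * 1 := mul_le_mul (b4.trans a1.le) (hw1 x hx) (abs_nonneg _) hε.le
      _ = ε := mul_one _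
  refine hlim.congr' ?_
  filter_upwards [eventually_ge_atTop (2 * (R' + G))] with L hL
  exact (hsplit L hL).symm

end Vale.Agent.P366.H296.KSx
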