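import Vale.Agent.P366.H296.F3

/-! Null shells: density of the range of `L`, by the method of continuity. -/

open MeasureTheory Metric Filter Topology Set
open scoped ContDiff

noncomputable section
namespace Vale.Agent.P366.H296

open Vale.Agent.P366 (sphI sphM pd E)
open Vale.Agent.P366.H353

variable {D : Dat} {t : ℝ}

lemma L_add (D : Dat) {f g : E 3 → ℝ} (hf : Sm f) (hg : Sm g) {x : E 3} (hx : x ≠ 0) :
    D.L (fun y => 1 * f y + 1 * g y) x = D.L f x + D.L g x := by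
  have h1 := H896.lap_lin hf hg 1 1 hx
  have h2 := H896.hs_lin hf hg 1 1 hx
  have h3 := H896.pd_lin hf hg 1 1 hx
  unfold Dat.L
  rw [h1]
  have e1 : (∑ i, ∑ j, hs D.H i j x * hs (fun y => 1 * f y + 1 * g y) i j x) =
      (∑ i, ∑ j, hs D.H i j x * hs f i j x) + ∑ i, ∑ j, hs D.H i j x * hs g i j x := by
    simp only [← Finset.sum_add_distrib]
    refine Finset.sum_congr rfl fun i _ => Finset.sum_congr rfl fun j _ => ?_
    rw [h2 i j]; ring
  have e2 : (∑ i, pd i D.U x * pd i (fun y => 1 * f y + 1 * g y) x) =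
      (∑ i, pd i D.U x * pd i f x) + ∑ i, pd i D.U x * pd i g x := by
    simp only [← Finset.sum_add_distrib]
    refine Finset.sum_congr rfl fun i _ => ?_
    rw [h3 i]; ring
  rw [e1, e2]; ring

lemma Lt_add (D : Dat) (t : ℝ) {f g : E 3 → ℝ} (hf : Sm f) (hg : Sm g) {x : E 3} (hx : x ≠ 0) :
    Lt D t (fun y => 1 * f y + 1 * g y) x = Lt D t f x + Lt D t g x := by
  unfold Lt
  rw [L_add D hf hg hx, H896.lap_lin hf hg 1 1 hx]
  ring

lemma Lt_const (D : Dat) (t c : ℝ) (x : E 3) : Lt D t (fun _ => c) x = 0 := by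
  unfold Lt Dat.L
  rw [H896.lap_const]
  unfold hs
  simp [H896.pd_const', Vale.Agent.P366.pd_const]

/-- density for `L_t` -/
def Dense (D : Dat) (t : ℝ) : Prop :=
  ∀ f : E 3 → ℝ, ContinuousOn f (sphere 0 1) → S2 f = 0 → ∀ ε : ℝ, 0 < ε →
    ∃ q, Q q ∧ S2 (fun x => (f x - Lt D t q x) ^ 2) < ε

lemma S2_sq_add {u v : E 3 → ℝ} (hu : ContinuousOn u (sphere (0 : E 3) 1))
    (hv : ContinuousOn v (sphere (0 : E 3) 1)) :
    S2 (fun x => (u x + v x) ^ 2) ≤ 2 * S2 (fun x => u x ^ 2) + 2 * S2 (fun x => v x ^ 2) := by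
  have cu : ContinuousOn (fun x => 2 * u x ^ 2) (sphere (0 : E 3) 1) :=
    continuousOn_const.mul (hu.pow 2)
  have cv : ContinuousOn (fun x => 2 * v x ^ 2) (sphere (0 : E 3) 1) :=
    continuousOn_const.mul (hv.pow 2)
  have e : 2 * S2 (fun x => u x ^ 2) + 2 * S2 (fun x => v x ^ 2) =
      S2 (fun x => 2 * u x ^ 2 + 2 * v x ^ 2) := by
    rw [S2_add cu cv, S2_cmul, S2_cmul]
  rw [e]
  refine S2_mono ((hu.add hv).pow 2) (cu.add cv) fun x _ => ?_
  show (u x + v x) ^ 2 ≤ 2 * u x ^ 2 + 2 * v x ^ 2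
  nlinarith only [sq_nonneg (u x - v x)]

/-- one step of the iteration -/
lemma one_step {K s τ : ℝ} (hs : s ∈ Icc (0 : ℝ) 1)
    (hK : ∀ t ∈ Icc (0 : ℝ) 1, ∀ q, Q q →
      S2 (fun x => (D.L q x - lap q x) ^ 2) ≤ K * S2 (fun x => Lt D t q x ^ 2))
    (hK0 : 0 < K) (hτ : 16 * K * τ ^ 2 ≤ 1) (h : Dense D s) {f : E 3 → ℝ}
    (hf : ContinuousOn f (sphere 0 1)) (h0 : S2 f = 0) :
    ∃ q, Q q ∧ S2 (fun x => (f x - Lt D (s + τ) q x) ^ 2) ≤ S2 (fun x => f x ^ 2) / 2 := by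
  set F := S2 (fun x => f x ^ 2) with hF
  have hF0 : 0 ≤ F := S2_nonneg fun x _ => sq_nonneg _
  rcases hF0.eq_or_lt with hz | hpos
  · refine ⟨fun _ => 0, H896.Q_const 0, ?_⟩
    simp only [Lt_const, sub_zero]
    rw [← hF, ← hz]; norm_num
  · obtain ⟨q, hq, hlt⟩ := h f hf h0 (F / 12) (by positivity)
    refine ⟨q, hq, ?_⟩
    have cL : ContinuousOn (Lt D s q) (sphere (0 : E 3) 1) := (sm_Lt D s hq.sm).contOn
    have cD : ContinuousOn (fun x => D.L q x - lap q x) (sphere (0 : E 3) 1) :=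
      ((sm_L D hq.sm).sub hq.sm.lap).contOn
    have e1 : S2 (fun x => (f x - Lt D (s + τ) q x) ^ 2) =
        S2 (fun x => ((f x - Lt D s q x) + (-τ) * (D.L q x - lap q x)) ^ 2) := by
      refine S2_congr fun x _ => ?_
      unfold Lt; ring
    have h1 := S2_sq_add (u := fun x => f x - Lt D s q x)
      (v := fun x => (-τ) * (D.L q x - lap q x)) (hf.sub cL) (continuousOn_const.mul cD)
    have e2 : S2 (fun x => ((-τ) * (D.L q x - lap q x)) ^ 2) =
        τ ^ 2 * S2 (fun x => (D.L q x - lap q x) ^ 2) := by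
      rw [← S2_cmul]
      exact S2_congr fun x _ => by ring
    have h2 := hK s hs q hq
    have h3 : S2 (fun x => Lt D s q x ^ 2) ≤
        2 * S2 (fun x => f x ^ 2) + 2 * S2 (fun x => (f x - Lt D s q x) ^ 2) := by
      have e3 : S2 (fun x => Lt D s q x ^ 2) =
          S2 (fun x => (f x + (-1) * (f x - Lt D s q x)) ^ 2) :=
        S2_congr fun x _ => by ring
      have e4 : S2 (fun x => ((-1) * (f x - Lt D s q x)) ^ 2) =
          S2 (fun x => (f x - Lt D s q x) ^ 2) :=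
        S2_congr fun x _ => by ring
      have h4 := S2_sq_add (u := f) (v := fun x => (-1) * (f x - Lt D s q x)) hf
        (continuousOn_const.mul (hf.sub cL))
      rw [e4, ← e3] at h4
      exact h4
    rw [e2, ← e1] at h1
    rw [← hF] at h3
    set η := S2 (fun x => (f x - Lt D s q x) ^ 2)
    set Y := S2 (fun x => (D.L q x - lap q x) ^ 2)
    set Z := S2 (fun x => Lt D s q x ^ 2)
    have hη : 0 ≤ η := S2_nonneg fun x _ => sq_nonneg _
    have h5 : Y ≤ K * (2 * F + 2 * η) := h2.trans (mul_le_mul_of_nonneg_left h3 hK0.le)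
    have h6 : τ ^ 2 * Y ≤ (2 * F + 2 * η) / 16 := by
      calc τ ^ 2 * Y ≤ τ ^ 2 * (K * (2 * F + 2 * η)) := mul_le_mul_of_nonneg_left h5 (sq_nonneg _)
        _ = (16 * K * τ ^ 2) * ((2 * F + 2 * η) / 16) := by ring
        _ ≤ 1 * ((2 * F + 2 * η) / 16) := mul_le_mul_of_nonneg_right hτ (by positivity)
        _ = (2 * F + 2 * η) / 16 := one_mul _
    change S2 (fun x => (f x - Lt D (s + τ) q x) ^ 2) ≤ 2 * η + 2 * (τ ^ 2 * Y) at h1
    linarith only [h1, h6, hlt, hF0, hη]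

lemma dense_step {K s τ : ℝ} (hs : s ∈ Icc (0 : ℝ) 1)
    (hK : ∀ t ∈ Icc (0 : ℝ) 1, ∀ q, Q q →
      S2 (fun x => (D.L q x - lap q x) ^ 2) ≤ K * S2 (fun x => Lt D t q x ^ 2))
    (hK0 : 0 < K) (hτ : 16 * K * τ ^ 2 ≤ 1) (h : Dense D s) : Dense D (s + τ) := by
  intro f hf h0 ε hε
  set F := S2 (fun x => f x ^ 2) with hF
  have hF0 : 0 ≤ F := S2_nonneg fun x _ => sq_nonneg _
  have key : ∀ n : ℕ, ∃ q, Q q ∧ S2 (fun x => (f x - Lt D (s + τ) q x) ^ 2) ≤ (1 / 2) ^ n * F := by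
    intro n
    induction n with
    | zero =>
      refine ⟨fun _ => 0, H896.Q_const 0, ?_⟩
      simp only [Lt_const, sub_zero, pow_zero, one_mul]
      exact hF.symm.le
    | succ n ih =>
      obtain ⟨q, hq, hle⟩ := ih
      have cq := (sm_Lt D (s + τ) hq.sm).contOn
      have cr : ContinuousOn (fun x => f x - Lt D (s + τ) q x) (sphere (0 : E 3) 1) := hf.sub cq
      have h0r : S2 (fun x => f x - Lt D (s + τ) q x) = 0 := by
        rw [S2_sub hf cq, h0, int_Lt D (s + τ) hq, sub_zero]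
      obtain ⟨q', hq', hle'⟩ := one_step hs hK hK0 hτ h cr h0r
      refine ⟨fun y => 1 * q y + 1 * q' y, H896.Q_lin hq hq' 1 1, ?_⟩
      have e : S2 (fun x => (f x - Lt D (s + τ) (fun y => 1 * q y + 1 * q' y) x) ^ 2) =
          S2 (fun x => ((f x - Lt D (s + τ) q x) - Lt D (s + τ) q' x) ^ 2) := by
        refine S2_congr fun x hx => ?_
        rw [Lt_add D (s + τ) hq.sm hq'.sm (ne_zero_of_one hx)]
        ring
      rw [e]
      refine hle'.trans ?_
      rw [pow_succ]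
      linarith only [hle]
  obtain ⟨n, hn⟩ : ∃ n : ℕ, (1 / 2 : ℝ) ^ n < ε / (F + 1) :=
    exists_pow_lt_of_lt_one (by positivity) (by norm_num)
  obtain ⟨q, hq, hle⟩ := key n
  refine ⟨q, hq, hle.trans_lt ?_⟩
  have h1 : (1 / 2 : ℝ) ^ n * (F + 1) < ε := by
    rwa [lt_div_iff₀ (by positivity)] at hn
  have h2 : (0 : ℝ) < (1 / 2) ^ n := by positivity
  calc (1 / 2 : ℝ) ^ n * F ≤ (1 / 2 : ℝ) ^ n * (F + 1) :=
        mul_le_mul_of_nonneg_left (by linarith only []) h2.le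
    _ < ε := h1

lemma dense_zero (D : Dat) : Dense D 0 := by
  intro f hf h0 ε hε
  obtain ⟨q, hq, h⟩ := dens_lap hf h0 hε
  refine ⟨q, hq, ?_⟩
  have e : S2 (fun x => (f x - Lt D 0 q x) ^ 2) = S2 (fun x => (lap q x - f x) ^ 2) := by
    refine S2_congr fun x _ => ?_
    unfold Lt; ring
  rw [e]; exact h

lemma dense_one (D : Dat) : Dense D 1 := by
  obtain ⟨K, hK0, hK⟩ := apriori D
  obtain ⟨n, hn⟩ := exists_nat_gt (max 1 (16 * K))
  have hn1 : (1 : ℝ) < n := (le_max_left _ _).trans_lt hn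
  have hn2 : 16 * K < n := (le_max_right _ _).trans_lt hn
  have hn0 : (0 : ℝ) < n := one_pos.trans hn1
  have hτ : 16 * K * (1 / (n : ℝ)) ^ 2 ≤ 1 := by
    rw [div_pow, one_pow, mul_one_div, div_le_one (by positivity)]
    nlinarith only [hn1, hn2]
  have key : ∀ j : ℕ, j ≤ n → Dense D ((j : ℝ) / n) := by
    intro j
    induction j with
    | zero =>
      intro _
      simpa using dense_zero D
    | succ j ih =>
      intro hj
      have hj' : (j : ℝ) ≤ n := by exact_mod_cast Nat.le_of_succ_le hj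
      have h1 := ih (Nat.le_of_succ_le hj)
      have hs : (j : ℝ) / n ∈ Icc (0 : ℝ) 1 :=
        ⟨by positivity, by rw [div_le_one hn0]; exact hj'⟩
      have h2 := dense_step hs hK hK0 hτ h1
      have e : ((j + 1 : ℕ) : ℝ) / n = (j : ℝ) / n + 1 / n := by
        push_cast; ring
      rw [e]; exact h2
  have h := key n le_rfl
  rwa [div_self hn0.ne'] at h

end Vale.Agent.P366.H296

namespace Vale.Agent.P366.H353

open Vale.Agent.P366 (sphI sphM pd E)
open Vale.Agent.P366.H296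

theorem dens (D : Dat) {f : E 3 → ℝ} (hf : ContinuousOn f (sphere 0 1)) (h0 : S2 f = 0) {ε : ℝ}
    (hε : 0 < ε) : ∃ q, Q q ∧ S2 (fun x => (D.L q x - f x) ^ 2) < ε := by
  obtain ⟨q, hq, h⟩ := dense_one D f hf h0 ε hε
  refine ⟨q, hq, ?_⟩
  have e : S2 (fun x => (f x - Lt D 1 q x) ^ 2) = S2 (fun x => (D.L q x - f x) ^ 2) := by
    refine S2_congr fun x _ => ?_
    unfold Lt; ring
  rw [← e]; exact h

end Vale.Agent.P366.H353
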