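import Vale.Agent.P366.H296.F3c
import Vale.Agent.P366.H745.B
import Vale.Agent.P366.H896.Poinc

/-! Null shells: the a priori estimate for `L_t = (1 - t) Δ + t L`. -/

open MeasureTheory Metric Filter Topology Set
open scoped ContDiff

noncomputable section
namespace Vale.Agent.P366.H296

open Vale.Agent.P366 (sphI sphM pd E)
open Vale.Agent.P366.H353

variable {q : E 3 → ℝ} {x : E 3} {D : Dat} {l T G t : ℝ}

lemma int_lap (hq : Q q) : S2 (lap q) = 0 := by
  have h := S2_div (F := fun i => pd i q) (fun i => hq.sm.pd i) (fun i => hq.hom.pd hq.sm i)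
  have h1 : S2 (fun x => ∑ i, pd i q x * x i) = 0 := by
    rw [S2_congr (h := fun _ => 0) fun x hx => ?_, S2_const]
    · ring
    · rw [← Q_xg hq (ne_zero_of_one hx)]
      exact Finset.sum_congr rfl fun i _ => mul_comm _ _
  rw [h1, mul_zero] at h
  exact h

lemma energy_lap (hq : Q q) : S2 (fun x => q x * lap q x) = - S2 (gsq q) := by
  have h := S2_div (F := fun i x => q x * pd i q x) (fun i => hq.sm.mul (hq.sm.pd i))
    (fun i => (hq.hom.mul (hq.hom.pd hq.sm i)))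
  have h1 : S2 (fun x => ∑ i, q x * pd i q x * x i) = 0 := by
    rw [S2_congr (h := fun _ => 0) fun x hx => ?_, S2_const]
    · ring
    · have h2 := Q_xg hq (ne_zero_of_one hx)
      have h3 : ∑ i, q x * pd i q x * x i = q x * ∑ i, x i * pd i q x := by
        rw [Finset.mul_sum]
        exact Finset.sum_congr rfl fun i _ => by ring
      rw [h3, h2, mul_zero]
  rw [h1, mul_zero] at h
  have h4 : S2 (fun x => ∑ i, pd i (fun x => q x * pd i q x) x) =
      S2 (fun x => q x * lap q x + gsq q x) := by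
    refine S2_congr fun x hx => ?_
    have h5 : ∀ i, pd i (fun x => q x * pd i q x) x = q x * hs q i i x + pd i q x ^ 2 := fun i => by
      rw [pd_mul' hq.sm (hq.sm.pd i) (ne_zero_of_one hx)]
      unfold hs
      ring
    rw [Finset.sum_congr rfl fun i _ => h5 i, Finset.sum_add_distrib, ← Finset.mul_sum]
    rfl
  rw [h4, S2_add (hq.sm.mul hq.sm.lap).contOn hq.sm.gsq.contOn] at h
  linarith only [h]

/-- the operator `L_t` -/
def Lt (D : Dat) (t : ℝ) (q : E 3 → ℝ) (x : E 3) : ℝ := (1 - t) * lap q x + t * D.L q x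

lemma sm_Lt (D : Dat) (t : ℝ) (hq : Sm q) : Sm (Lt D t q) :=
  ((Sm.const (1 - t)).mul hq.lap).add ((Sm.const t).mul (sm_L D hq))

lemma int_Lt (D : Dat) (t : ℝ) (hq : Q q) : S2 (Lt D t q) = 0 := by
  unfold Lt
  rw [S2_add ((Sm.const (1 - t)).mul hq.sm.lap).contOn ((Sm.const t).mul (sm_L D hq.sm)).contOn,
    S2_cmul, S2_cmul, int_lap hq, int_L D hq]
  ring

lemma energy_Lt (B : Bd D l T G) (ht : t ∈ Icc (0 : ℝ) 1) (hq : Q q) :
    S2 (fun x => q x * Lt D t q x) ≤ - (l * S2 (gsq q)) := by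
  have e : S2 (fun x => q x * Lt D t q x) =
      (1 - t) * S2 (fun x => q x * lap q x) + t * S2 (fun x => q x * D.L q x) := by
    rw [← S2_cmul, ← S2_cmul, ← S2_add ((Sm.const (1 - t)).mul (hq.sm.mul hq.sm.lap)).contOn
      ((Sm.const t).mul (hq.sm.mul (sm_L D hq.sm))).contOn]
    refine S2_congr fun x _ => ?_
    unfold Lt; ring
  rw [e, energy_lap hq, energy D hq]
  have h1 : l * S2 (gsq q) ≤
      S2 (fun x => qf (D.A x) (fun i => pd i q x) (fun i => pd i q x)) := by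
    rw [← S2_cmul]
    exact S2_mono ((Sm.const l).mul hq.sm.gsq).contOn
      (sm_qf (sm_A D) (fun i => hq.sm.pd i) (fun i => hq.sm.pd i)).contOn fun x hx => pt2 B hq hx
  have h2 : 0 ≤ S2 (gsq q) := S2_nonneg fun x _ => Finset.sum_nonneg fun i _ => sq_nonneg _
  have h3 : l * S2 (gsq q) ≤ S2 (gsq q) := by
    nlinarith only [h2, B.l1]
  have h4 := mul_le_mul_of_nonneg_left h3 (sub_nonneg.mpr ht.2)
  have h5 := mul_le_mul_of_nonneg_left h1 ht.1
  linarith only [h4, h5]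

lemma grad_bound (B : Bd D l T G) (ht : t ∈ Icc (0 : ℝ) 1) (hq : Q q) :
    S2 (gsq q) ≤ S2 (fun x => Lt D t q x ^ 2) / l ^ 2 := by
  set c := S2 q / (4 * Real.pi)
  have h1 := energy_Lt B ht hq
  have h2 := poincare hq
  have h3 : S2 (fun x => (q x - c) * Lt D t q x) = S2 (fun x => q x * Lt D t q x) := by
    have e : S2 (fun x => (q x - c) * Lt D t q x) =
        S2 (fun x => q x * Lt D t q x) - c * S2 (Lt D t q) := by
      rw [← S2_cmul, ← S2_sub (hq.sm.mul (sm_Lt D t hq.sm)).contOn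
        ((Sm.const c).mul (sm_Lt D t hq.sm)).contOn]
      exact S2_congr fun x _ => by ring
    rw [e, int_Lt D t hq]; ring
  have hl := B.l0
  have h4 : - S2 (fun x => (q x - c) * Lt D t q x) ≤
      (l / 2) * S2 (fun x => (q x - c) ^ 2) + (1 / (2 * l)) * S2 (fun x => Lt D t q x ^ 2) := by
    rw [← S2_neg, ← S2_cmul, ← S2_cmul, ← S2_add
      ((Sm.const (l / 2)).mul ((hq.sm.sub (Sm.const c)).pow 2)).contOn
      ((Sm.const (1 / (2 * l))).mul ((sm_Lt D t hq.sm).pow 2)).contOn]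
    refine S2_mono ((hq.sm.sub (Sm.const c)).mul (sm_Lt D t hq.sm)).neg.contOn
      (((Sm.const (l / 2)).mul ((hq.sm.sub (Sm.const c)).pow 2)).add
      ((Sm.const (1 / (2 * l))).mul ((sm_Lt D t hq.sm).pow 2))).contOn fun x _ => ?_
    set u := q x - c
    set v := Lt D t q x
    have e : l / 2 * u ^ 2 + 1 / (2 * l) * v ^ 2 - -(u * v) = (l * u + v) ^ 2 / (2 * l) := by
      field_simp
      ring
    have : 0 ≤ (l * u + v) ^ 2 / (2 * l) := by positivity
    linarith only [e, this]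
  rw [h3] at h4
  rw [le_div_iff₀ (pow_pos hl 2)]
  have h5 : l * S2 (gsq q) ≤ (l / 2) * S2 (gsq q) + (1 / (2 * l)) * S2 (fun x => Lt D t q x ^ 2) := by
    have := mul_le_mul_of_nonneg_left h2 (half_pos hl).le
    linarith only [h1, h4, this]
  have h6 := mul_le_mul_of_nonneg_left h5 (mul_pos two_pos hl).le
  have e1 : 2 * l * (l / 2 * S2 (gsq q) + 1 / (2 * l) * S2 (fun x => Lt D t q x ^ 2)) =
      l ^ 2 * S2 (gsq q) + S2 (fun x => Lt D t q x ^ 2) := by
    field_simp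
  rw [e1] at h6
  linarith only [h6]

lemma hess_bound (B : Bd D l T G) (ht : t ∈ Icc (0 : ℝ) 1) (hq : Q q) :
    l ^ 2 / (1 + T) ^ 2 * S2 (fun x => ip3 (Zb q x) (Zb q x)) ≤
      (2 / l ^ 2) * S2 (fun x => Lt D t q x ^ 2) + (2 * G / l ^ 2) * S2 (gsq q) := by
  have h0 : 0 ≤ S2 (gsq q) := S2_nonneg fun x _ => Finset.sum_nonneg fun i _ => sq_nonneg _
  have h1 : l ^ 2 / (1 + T) ^ 2 * S2 (fun x => ip3 (Zb q x) (Zb q x)) +
      2 * S2 (fun x => det2 (Zb q x)) ≤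
      (2 / l ^ 2) * S2 (fun x => Lt D t q x ^ 2) + (2 * G / l ^ 2) * S2 (gsq q) := by
    have z := sm_Zb hq
    rw [← S2_cmul, ← S2_cmul, ← S2_cmul, ← S2_cmul,
      ← S2_add ((Sm.const _).mul (sm_ip z z)).contOn ((Sm.const 2).mul (sm_det z)).contOn,
      ← S2_add ((Sm.const _).mul ((sm_Lt D t hq.sm).pow 2)).contOn
        ((Sm.const _).mul hq.sm.gsq).contOn]
    exact S2_mono (((Sm.const _).mul (sm_ip z z)).add ((Sm.const 2).mul (sm_det z))).contOn
      (((Sm.const _).mul ((sm_Lt D t hq.sm).pow 2)).add ((Sm.const _).mul hq.sm.gsq)).contOn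
      fun x hx => pt1 B hq hx ht
  rw [bochner hq] at h1
  linarith only [h0, h1]

end Vale.Agent.P366.H296

namespace Vale.Agent.P366.H353

open Vale.Agent.P366 (sphI sphM pd E)
open Vale.Agent.P366.H296

theorem apriori (D : Dat) : ∃ K : ℝ, 0 < K ∧ ∀ t ∈ Icc (0 : ℝ) 1, ∀ q, Q q →
    S2 (fun x => (D.L q x - lap q x) ^ 2) ≤
      K * S2 (fun x => ((1 - t) * lap q x + t * D.L q x) ^ 2) := by
  obtain ⟨l, T, G, B⟩ := exists_bd D
  have hl := B.l0
  have hT := B.T0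
  have hG := B.G0
  refine ⟨2 * (T ^ 2 + 2) * ((1 + T) ^ 2 / l ^ 2 * (2 / l ^ 2 + 2 * G / l ^ 2 / l ^ 2)) +
    2 * G / l ^ 2, by positivity, fun t ht q hq => ?_⟩
  change _ ≤ _ * S2 (fun x => Lt D t q x ^ 2)
  set b := S2 (fun x => Lt D t q x ^ 2)
  have h1 := grad_bound B ht hq
  have h2 := hess_bound B ht hq
  change S2 (gsq q) ≤ b / l ^ 2 at h1
  change _ ≤ (2 / l ^ 2) * b + _ at h2
  have z := sm_Zb hq
  have h3 : S2 (fun x => (D.L q x - lap q x) ^ 2) ≤
      2 * (T ^ 2 + 2) * S2 (fun x => ip3 (Zb q x) (Zb q x)) + 2 * G * S2 (gsq q) := by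
    rw [← S2_cmul, ← S2_cmul, ← S2_add ((Sm.const _).mul (sm_ip z z)).contOn
      ((Sm.const _).mul hq.sm.gsq).contOn]
    exact S2_mono (((sm_L D hq.sm).sub hq.sm.lap).pow 2).contOn
      (((Sm.const _).mul (sm_ip z z)).add ((Sm.const _).mul hq.sm.gsq)).contOn
      fun x hx => pt3 B hq hx
  set m := S2 (fun x => ip3 (Zb q x) (Zb q x))
  set a := S2 (gsq q)
  have h4 : 2 * G / l ^ 2 * a ≤ 2 * G / l ^ 2 * (b / l ^ 2) :=
    mul_le_mul_of_nonneg_left h1 (by positivity)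
  have h5 : m ≤ (1 + T) ^ 2 / l ^ 2 * (2 / l ^ 2 + 2 * G / l ^ 2 / l ^ 2) * b := by
    have h6 : l ^ 2 / (1 + T) ^ 2 * m ≤ (2 / l ^ 2 + 2 * G / l ^ 2 / l ^ 2) * b := by
      calc l ^ 2 / (1 + T) ^ 2 * m ≤ 2 / l ^ 2 * b + 2 * G / l ^ 2 * (b / l ^ 2) := by
            linarith only [h2, h4]
        _ = (2 / l ^ 2 + 2 * G / l ^ 2 / l ^ 2) * b := by ring
    have h7 := mul_le_mul_of_nonneg_left h6 (show 0 ≤ (1 + T) ^ 2 / l ^ 2 by positivity)
    have e : (1 + T) ^ 2 / l ^ 2 * (l ^ 2 / (1 + T) ^ 2 * m) = m := by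
      have : (1 + T) ≠ 0 := by linarith only [hT] |> fun h : (0:ℝ) < 1 + T => h.ne'
      field_simp
    rw [e] at h7
    linarith only [h7]
  have h8 := mul_le_mul_of_nonneg_left h5 (show 0 ≤ 2 * (T ^ 2 + 2) by positivity)
  have h9 := mul_le_mul_of_nonneg_left h1 (show 0 ≤ 2 * G by positivity)
  calc _ ≤ 2 * (T ^ 2 + 2) * m + 2 * G * a := h3
    _ ≤ 2 * (T ^ 2 + 2) * ((1 + T) ^ 2 / l ^ 2 * (2 / l ^ 2 + 2 * G / l ^ 2 / l ^ 2) * b) +
        2 * G * (b / l ^ 2) := add_le_add h8 h9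
    _ = _ := by ring

end Vale.Agent.P366.H353
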