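import Mathlib.LinearAlgebra.Matrix.NonsingularInverse
import Mathlib.Analysis.SpecialFunctions.Pow.Real
import Mathlib.Tactic

/-! Symmetric matrices on the plane orthogonal to a unit vector of three-space. -/

noncomputable section
namespace Vale.Agent.P366.H296

/-- An orthonormal basis of the plane orthogonal to a unit vector. -/
theorem exists_onb (x : Fin 3 → ℝ) (hx : ∑ i, x i ^ 2 = 1) :
    ∃ e f : Fin 3 → ℝ, ∑ i, e i ^ 2 = 1 ∧ ∑ i, f i ^ 2 = 1 ∧ ∑ i, e i * f i = 0 ∧
      ∑ i, x i * e i = 0 ∧ ∑ i, x i * f i = 0 ∧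
      ∀ i j, (if i = j then (1 : ℝ) else 0) - x i * x j = e i * e j + f i * f j := by
  -- a unit vector orthogonal to x
  have key : ∃ e : Fin 3 → ℝ, ∑ i, e i ^ 2 = 1 ∧ ∑ i, x i * e i = 0 := by
    by_cases h : x 0 ^ 2 + x 1 ^ 2 = 0
    · have h0 : x 0 = 0 := by nlinarith only [h, sq_nonneg (x 0), sq_nonneg (x 1)]
      refine ⟨![1, 0, 0], ?_, ?_⟩
      · simp [Fin.sum_univ_three]
      · simp [Fin.sum_univ_three, h0]
    · have hpos : 0 < x 0 ^ 2 + x 1 ^ 2 := lt_of_le_of_ne (by positivity) (Ne.symm h)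
      set s := √(x 0 ^ 2 + x 1 ^ 2) with hs
      have hs2 : s ^ 2 = x 0 ^ 2 + x 1 ^ 2 := Real.sq_sqrt hpos.le
      have hs0 : 0 < s := Real.sqrt_pos.mpr hpos
      refine ⟨![-x 1 / s, x 0 / s, 0], ?_, ?_⟩
      · simp only [Fin.sum_univ_three, Matrix.cons_val_zero, Matrix.cons_val_one, Matrix.cons_val]
        field_simp
        linarith only [hs2]
      · simp only [Fin.sum_univ_three, Matrix.cons_val_zero, Matrix.cons_val_one, Matrix.cons_val]
        field_simp
        ring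
  obtain ⟨e, he, hxe⟩ := key
  set f : Fin 3 → ℝ := ![x 1 * e 2 - x 2 * e 1, x 2 * e 0 - x 0 * e 2, x 0 * e 1 - x 1 * e 0]
    with hf
  have f0 : f 0 = x 1 * e 2 - x 2 * e 1 := rfl
  have f1 : f 1 = x 2 * e 0 - x 0 * e 2 := rfl
  have f2 : f 2 = x 0 * e 1 - x 1 * e 0 := rfl
  simp only [Fin.sum_univ_three] at hx he hxe
  have hf1 : f 0 ^ 2 + f 1 ^ 2 + f 2 ^ 2 = 1 := by
    rw [f0, f1, f2]
    linear_combination (e 0 ^ 2 + e 1 ^ 2 + e 2 ^ 2) * hx + he -
      (x 0 * e 0 + x 1 * e 1 + x 2 * e 2) * hxe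
  have hef : e 0 * f 0 + e 1 * f 1 + e 2 * f 2 = 0 := by rw [f0, f1, f2]; ring
  have hxf : x 0 * f 0 + x 1 * f 1 + x 2 * f 2 = 0 := by rw [f0, f1, f2]; ring
  refine ⟨e, f, by simpa [Fin.sum_univ_three] using he, by simpa [Fin.sum_univ_three] using hf1,
    by simpa [Fin.sum_univ_three] using hef, by simpa [Fin.sum_univ_three] using hxe,
    by simpa [Fin.sum_univ_three] using hxf, ?_⟩
  have hM : (Matrix.of ![x, e, f]) * (Matrix.of ![x, e, f]).transpose = 1 := by
    ext i j
    fin_cases i <;> fin_cases j <;>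
      simp [Matrix.mul_apply, Fin.sum_univ_three, Matrix.one_apply] <;>
      first
        | linarith only [hx] | linarith only [he] | linarith only [hf1] | linarith only [hxe]
        | linarith only [hxf] | linarith only [hef]
  have hM' := mul_eq_one_comm.mp hM
  intro i j
  have := congrFun (congrFun hM' i) j
  simp only [Matrix.mul_apply, Fin.sum_univ_three, Matrix.transpose_apply, Matrix.of_apply,
    Matrix.cons_val_zero, Matrix.cons_val_one, Matrix.cons_val, Matrix.one_apply] at this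
  rw [← this]
  ring

/-- Expansion of a symmetric matrix that kills `x`. -/
theorem expand {x e f : Fin 3 → ℝ}
    (hc : ∀ i j, (if i = j then (1 : ℝ) else 0) - x i * x j = e i * e j + f i * f j)
    {M : Fin 3 → Fin 3 → ℝ} (hs : ∀ i j, M i j = M j i) (hx : ∀ i, ∑ j, M i j * x j = 0)
    (i j : Fin 3) :
    M i j = (∑ k, ∑ l, M k l * e k * e l) * (e i * e j) +
      (∑ k, ∑ l, M k l * e k * f l) * (e i * f j + f i * e j) +
      (∑ k, ∑ l, M k l * f k * f l) * (f i * f j) := by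
  have hv : ∀ (w : Fin 3 → ℝ) (i : Fin 3), w i = x i * (∑ k, x k * w k) + e i * (∑ k, e k * w k) +
      f i * (∑ k, f k * w k) := by
    intro w i
    have h1 : w i = ∑ k, (if i = k then (1 : ℝ) else 0) * w k := by simp
    have h2 : ∀ k, (if i = k then (1 : ℝ) else 0) = x i * x k + e i * e k + f i * f k := by
      intro k; linarith only [hc i k]
    rw [h1]
    simp only [h2, Fin.sum_univ_three]
    ring
  have hx' : ∀ i, ∑ j, x j * M i j = 0 := by
    intro i; rw [← hx i]; exact Finset.sum_congr rfl fun _ _ => mul_comm _ _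
  have e1 := hv (M i) j
  rw [hx' i] at e1
  have e2 : ∀ u : Fin 3 → ℝ, ∑ k, u k * M i k =
      e i * (∑ l, ∑ k, e l * (u k * M l k)) + f i * (∑ l, ∑ k, f l * (u k * M l k)) := by
    intro u
    have e3 := hv (fun l => ∑ k, u k * M l k) i
    have e4 : ∑ l, x l * ∑ k, u k * M l k = 0 := by
      have h0 := hx 0
      have h1 := hx 1
      have h2 := hx 2
      simp only [Fin.sum_univ_three] at h0 h1 h2 ⊢
      rw [hs 1 0, hs 2 0, hs 2 1] at *
      linear_combination u 0 * h0 + u 1 * h1 + u 2 * h2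
    rw [e3, e4]
    simp only [Finset.mul_sum]
    ring
  rw [e1, e2 e, e2 f]
  simp only [Fin.sum_univ_three]
  rw [hs 1 0, hs 2 0, hs 2 1]
  ring

/-- `tr (P M P M) ≥ 0` in the plane. -/
theorem plane_psd {p r s a b c : ℝ} (hp : 0 ≤ p) (hs : 0 ≤ s) (h : r ^ 2 ≤ p * s) :
    0 ≤ (p * a + 2 * r * b + s * c) ^ 2 - 2 * (p * s - r ^ 2) * (a * c - b ^ 2) := by
  rcases hp.eq_or_lt with hp | hp
  · have hr : r = 0 := by
      have : r ^ 2 ≤ 0 := by rw [← hp] at h; linarith only [h]
      nlinarith only [this, sq_nonneg r]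
    rw [← hp, hr]
    nlinarith only [sq_nonneg (s * c)]
  · have h1 : p ^ 2 * ((p * a + 2 * r * b + s * c) ^ 2 - 2 * (p * s - r ^ 2) * (a * c - b ^ 2)) =
        (p ^ 2 * a + 2 * p * r * b + r ^ 2 * c) ^ 2 + 2 * (p * s - r ^ 2) * (p * b + r * c) ^ 2 +
        (p * s - r ^ 2) ^ 2 * c ^ 2 := by ring
    have h2 : 0 ≤ p * s - r ^ 2 := by linarith only [h]
    have h3 : 0 ≤ p ^ 2 * ((p * a + 2 * r * b + s * c) ^ 2 -
        2 * (p * s - r ^ 2) * (a * c - b ^ 2)) := by rw [h1]; positivity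
    exact nonneg_of_mul_nonneg_right h3 (by positivity)

/-- The lower bound of `tr (A M A M)` in the plane for `A ≥ l`. -/
theorem plane_lower {l p r s a b c : ℝ} (hl : 0 ≤ l) (hp : l ≤ p) (hs : l ≤ s)
    (h : r ^ 2 ≤ (p - l) * (s - l)) :
    l ^ 2 * (a ^ 2 + 2 * b ^ 2 + c ^ 2) ≤
      (p * a + 2 * r * b + s * c) ^ 2 - 2 * (p * s - r ^ 2) * (a * c - b ^ 2) := by
  have h1 := plane_psd (a := a) (b := b) (c := c) (sub_nonneg.mpr hp) (sub_nonneg.mpr hs) h
  -- trace of P M ^ 2
  have h2 : 0 ≤ (p - l) * (a ^ 2 + b ^ 2) + 2 * r * (a * b + b * c) + (s - l) * (b ^ 2 + c ^ 2) := by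
    have q : ∀ u v : ℝ, 0 ≤ (p - l) * u ^ 2 + 2 * r * (u * v) + (s - l) * v ^ 2 := by
      intro u v
      rcases (sub_nonneg.mpr hp).eq_or_lt with hp' | hp'
      · have hr : r = 0 := by
          have : r ^ 2 ≤ 0 := by rw [← hp'] at h; linarith only [h]
          nlinarith only [this, sq_nonneg r]
        rw [← hp', hr]
        have := mul_nonneg (sub_nonneg.mpr hs) (sq_nonneg v)
        linarith only [this]
      · have h3 : (p - l) * ((p - l) * u ^ 2 + 2 * r * (u * v) + (s - l) * v ^ 2) =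
            ((p - l) * u + r * v) ^ 2 + ((p - l) * (s - l) - r ^ 2) * v ^ 2 := by ring
        have h4 : 0 ≤ (p - l) * ((p - l) * u ^ 2 + 2 * r * (u * v) + (s - l) * v ^ 2) := by
          rw [h3]
          have : 0 ≤ (p - l) * (s - l) - r ^ 2 := by linarith only [h]
          positivity
        exact nonneg_of_mul_nonneg_right h4 hp'
    have q1 := q a b
    have q2 := q b c
    nlinarith only [q1, q2]
  nlinarith only [h1, h2, mul_nonneg hl h2]

/-- The discriminant of a nonnegative binary quadratic form. -/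
theorem disc_of_nonneg {p r s : ℝ} (h : ∀ u v : ℝ, 0 ≤ p * u ^ 2 + 2 * r * (u * v) + s * v ^ 2) :
    0 ≤ p ∧ 0 ≤ s ∧ r ^ 2 ≤ p * s := by
  have hp : 0 ≤ p := by have := h 1 0; linarith only [this]
  have hs : 0 ≤ s := by have := h 0 1; linarith only [this]
  refine ⟨hp, hs, ?_⟩
  have h1 := h r (-p)
  have h2 := h s (-r)
  have h3 := h 1 (-1)
  have h4 := h 1 1
  rcases hp.eq_or_lt with hp' | hp'
  · rcases hs.eq_or_lt with hs' | hs'
    · rw [← hp', ← hs'] at h3 h4
      have : r = 0 := by linarith only [h3, h4]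
      rw [this, ← hp']; simp
    · have : 0 ≤ s * (p * s - r ^ 2) := by nlinarith only [h2]
      have := nonneg_of_mul_nonneg_right this hs'
      linarith only [this]
  · have : 0 ≤ p * (p * s - r ^ 2) := by nlinarith only [h1]
    have := nonneg_of_mul_nonneg_right this hp'
    linarith only [this]

end Vale.Agent.P366.H296
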