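import Vale.Agent.P366.H353.Basic
import Vale.Agent.P366.H296.Plane

/-! Null shells: pointwise facts on the tangent plane for the a priori estimate. -/

open MeasureTheory Metric Filter Topology Set
open scoped ContDiff

noncomputable section
namespace Vale.Agent.P366.H296

open Vale.Agent.P366 (sphI sphM pd E)
open Vale.Agent.P366.H353

variable {q : E 3 → ℝ} {x : E 3}

lemma sum_sq_one (hx : ‖x‖ = 1) : ∑ i, x i ^ 2 = 1 := by
  have h := EuclideanSpace.norm_sq_eq x
  rw [hx] at h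
  simpa using h.symm

lemma Q_xg (hq : Q q) (hx : x ≠ 0) : ∑ i, x i * pd i q x = 0 := by
  have := hq.hom.euler hq.sm hx
  simpa using this

lemma Q_hx (hq : Q q) (hx : x ≠ 0) (i : Fin 3) : ∑ j, hs q i j x * x j = - pd i q x := by
  have h := (hq.hom.pd hq.sm i).euler (hq.sm.pd i) hx
  have h2 : ∀ j, hs q i j x * x j = x j * pd j (pd i q) x := fun j => by
    rw [hs_symm hq.sm hx i j]; exact mul_comm _ _
  rw [Finset.sum_congr rfl fun j _ => h2 j, h]
  push_cast; ring

lemma H_hx (D : Dat) (hx : x ≠ 0) (i : Fin 3) : ∑ j, hs D.H i j x * x j = 0 := by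
  have h := (D.homH.pd D.smH i).euler (D.smH.pd i) hx
  have h2 : ∀ j, hs D.H i j x * x j = x j * pd j (pd i D.H) x := fun j => by
    rw [hs_symm D.smH hx i j]; exact mul_comm _ _
  rw [Finset.sum_congr rfl fun j _ => h2 j, h]
  push_cast; ring

lemma Zb_symm (hq : Q q) (hx : x ≠ 0) (i j : Fin 3) : Zb q x i j = Zb q x j i := by
  unfold Zb; rw [hs_symm hq.sm hx i j]; ring

lemma Zb_x (hq : Q q) (hx : ‖x‖ = 1) (i : Fin 3) : ∑ j, Zb q x i j * x j = 0 := by
  have h0 := ne_zero_of_one hx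
  have h1 := Q_hx hq h0 i
  have h2 := Q_xg hq h0
  have h3 := sum_sq_one hx
  simp only [Zb, Fin.sum_univ_three] at *
  linear_combination h1 + pd i q x * h3 + x i * h2

lemma tr_Zb (hq : Q q) (hx : x ≠ 0) : tr3 (Zb q x) = lap q x := by
  have h2 := Q_xg hq hx
  simp only [Zb, tr3, lap, Fin.sum_univ_three] at *
  linear_combination 2 * h2

lemma kd_symm (i j : Fin 3) : kd i j = kd j i := by
  unfold kd
  by_cases h : i = j
  · rw [h]
  · rw [if_neg h, if_neg (Ne.symm h)]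

lemma pr_symm (x : Fin 3 → ℝ) (i j : Fin 3) : pr x i j = pr x j i := by
  unfold pr
  rw [kd_symm i j]; ring

lemma W_symm (D : Dat) (hx : x ≠ 0) (i j : Fin 3) : D.W x i j = D.W x j i := by
  unfold Dat.W
  rw [hs_symm D.smH hx i j, pr_symm]

lemma kd_sum (i : Fin 3) (v : Fin 3 → ℝ) : ∑ j, kd i j * v j = v i := by
  simp [kd]

lemma pr_x (hx : ‖x‖ = 1) (i : Fin 3) : ∑ j, pr x i j * x j = 0 := by
  have h3 := sum_sq_one hx
  have h1 : ∀ j, pr x i j * x j = kd i j * x j - x i * x j ^ 2 := fun j => by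
    unfold pr; ring
  rw [Finset.sum_congr rfl fun j _ => h1 j, Finset.sum_sub_distrib, kd_sum, ← Finset.mul_sum, h3]
  ring

lemma W_x (D : Dat) (hx : ‖x‖ = 1) (i : Fin 3) : ∑ j, D.W x i j * x j = 0 := by
  have h1 := H_hx D (ne_zero_of_one hx) i
  have h2 := pr_x hx i
  have h3 : ∀ j, D.W x i j * x j = hs D.H i j x * x j + D.U x * (pr x i j * x j) := fun j => by
    unfold Dat.W; ring
  rw [Finset.sum_congr rfl fun j _ => h3 j, Finset.sum_add_distrib, ← Finset.mul_sum, h1, h2]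
  ring

/-- contraction with the projection -/
lemma ip_pr {M : Fin 3 → Fin 3 → ℝ} (hM : ∀ i, ∑ j, M i j * x j = 0) :
    ∑ i, ∑ j, pr x i j * M i j = tr3 M := by
  have h0 := hM 0
  have h1 := hM 1
  have h2 := hM 2
  simp only [pr, kd, tr3, Fin.sum_univ_three] at *
  simp only [Fin.isValue, ↓reduceIte, zero_ne_one, one_ne_zero, Fin.reduceEq]
  linear_combination (-x 0) * h0 - x 1 * h1 - x 2 * h2

lemma tr_pr (hx : ‖x‖ = 1) : tr3 (pr x) = 2 := by
  have h3 := sum_sq_one hx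
  simp only [pr, kd, tr3, Fin.sum_univ_three] at *
  simp only [↓reduceIte]
  linear_combination (-1 : ℝ) * h3

lemma tr_W (D : Dat) (hx : ‖x‖ = 1) : tr3 (D.W x) = lap D.H x + 2 * D.U x := by
  have h := tr_pr hx
  have h1 : tr3 (D.W x) = lap D.H x + D.U x * tr3 (pr x) := by
    unfold tr3 Dat.W lap
    rw [Finset.sum_add_distrib, Finset.mul_sum]
  rw [h1, h]; ring

lemma ip_hH (D : Dat) (hx : x ≠ 0) : ∑ i, ∑ j, hs D.H i j x * Zb q x i j =
    ∑ i, ∑ j, hs D.H i j x * hs q i j x := by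
  have h0 := H_hx D hx 0
  have h1 := H_hx D hx 1
  have h2 := H_hx D hx 2
  have s01 := hs_symm D.smH hx 0 1
  have s02 := hs_symm D.smH hx 0 2
  have s12 := hs_symm D.smH hx 1 2
  simp only [Zb, Fin.sum_univ_three] at *
  rw [← s01, ← s02, ← s12] at *
  linear_combination 2 * pd 0 q x * h0 + 2 * pd 1 q x * h1 + 2 * pd 2 q x * h2

/-- `L q` in terms of the cofactor matrix and the tangential Hessian. -/
lemma L_eq (D : Dat) (hq : Q q) (hx : ‖x‖ = 1) :
    D.L q x = ip3 (D.A x) (Zb q x) + ∑ i, D.gU x i * pd i q x := by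
  have h0 := ne_zero_of_one hx
  have e1 := ip_pr (Zb_x hq hx)
  have e2 := ip_hH (q := q) D h0
  have e3 := tr_Zb hq h0
  have e4 := tr_W D hx
  have e5 : ip3 (D.A x) (Zb q x) = tr3 (D.W x) * (∑ i, ∑ j, pr x i j * Zb q x i j) -
      (∑ i, ∑ j, hs D.H i j x * Zb q x i j) - D.U x * (∑ i, ∑ j, pr x i j * Zb q x i j) := by
    simp only [ip3, Dat.A, Dat.W, Finset.mul_sum, ← Finset.sum_sub_distrib]
    refine Finset.sum_congr rfl fun i _ => Finset.sum_congr rfl fun j _ => ?_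
    ring
  rw [e5, e1, e2, e3, e4]
  unfold Dat.L Dat.gU
  ring

end Vale.Agent.P366.H296
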