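import Vale.Agent.P366.H296.F3a

/-! Null shells: pointwise estimates on the tangent plane. -/

open MeasureTheory Metric Filter Topology Set
open scoped ContDiff

noncomputable section
namespace Vale.Agent.P366.H296

open Vale.Agent.P366 (sphI sphM pd E)
open Vale.Agent.P366.H353

variable {q : E 3 → ℝ} {x : E 3}

/-- `M = a e ⊗ e + b (e ⊗ f + f ⊗ e) + c f ⊗ f` -/
def Fr (e f : Fin 3 → ℝ) (a b c : ℝ) (M : Fin 3 → Fin 3 → ℝ) : Prop :=
  ∀ i j, M i j = a * (e i * e j) + b * (e i * f j + f i * e j) + c * (f i * f j)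

/-- an orthonormal pair -/
structure On (e f : Fin 3 → ℝ) : Prop where
  e1 : ∑ i, e i ^ 2 = 1
  f1 : ∑ i, f i ^ 2 = 1
  ef : ∑ i, e i * f i = 0

variable {e f : Fin 3 → ℝ} {a b c a' b' c' : ℝ} {M N : Fin 3 → Fin 3 → ℝ}

lemma Fr.ip (o : On e f) (hM : Fr e f a b c M) (hN : Fr e f a' b' c' N) :
    ip3 M N = a * a' + 2 * (b * b') + c * c' := by
  have h : ip3 M N = a * a' * (∑ i, e i ^ 2) ^ 2 +
      (a * b' + b * a') * (2 * (∑ i, e i ^ 2) * (∑ i, e i * f i)) +
      (a * c' + c * a') * (∑ i, e i * f i) ^ 2 +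
      b * b' * (2 * (∑ i, e i ^ 2) * (∑ i, f i ^ 2) + 2 * (∑ i, e i * f i) ^ 2) +
      (b * c' + c * b') * (2 * (∑ i, f i ^ 2) * (∑ i, e i * f i)) +
      c * c' * (∑ i, f i ^ 2) ^ 2 := by
    unfold ip3
    have : ∀ i j, M i j * N i j =
      (a * (e i * e j) + b * (e i * f j + f i * e j) + c * (f i * f j)) *
      (a' * (e i * e j) + b' * (e i * f j + f i * e j) + c' * (f i * f j)) := fun i j => by
      rw [hM i j, hN i j]
    simp only [this, Fin.sum_univ_three]
    ring
  rw [h, o.e1, o.f1, o.ef]; ring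

lemma Fr.tr (o : On e f) (hM : Fr e f a b c M) : tr3 M = a + c := by
  have h : tr3 M = a * (∑ i, e i ^ 2) + 2 * b * (∑ i, e i * f i) + c * (∑ i, f i ^ 2) := by
    unfold tr3
    simp only [fun i => hM i i, Fin.sum_univ_three]
    ring
  rw [h, o.e1, o.f1, o.ef]; ring

lemma Fr.dt (o : On e f) (hM : Fr e f a b c M) : det2 M = a * c - b ^ 2 := by
  unfold det2
  rw [hM.tr o, hM.ip o hM]; ring

lemma Fr.qf (hM : Fr e f a b c M) (v : Fin 3 → ℝ) :
    qf M v v = a * (∑ i, e i * v i) ^ 2 + 2 * b * ((∑ i, e i * v i) * (∑ i, f i * v i)) +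
      c * (∑ i, f i * v i) ^ 2 := by
  unfold H353.qf
  have : ∀ i j, M i j * v i * v j =
      (a * (e i * e j) + b * (e i * f j + f i * e j) + c * (f i * f j)) * v i * v j :=
    fun i j => by rw [hM i j]
  simp only [this, Fin.sum_univ_three]
  ring

/-- Data of a frame at a unit vector. -/
structure Frame (D : Dat) (x : E 3) (e f : Fin 3 → ℝ) (p r s : ℝ) : Prop where
  o : On e f
  xe : ∑ i, x i * e i = 0
  xf : ∑ i, x i * f i = 0
  c : ∀ i j, kd i j - x i * x j = e i * e j + f i * f j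
  W : Fr e f s (-r) p (D.W x)
  p0 : 0 < p
  s0 : 0 < s
  d0 : 0 < p * s - r ^ 2

lemma exists_frame (D : Dat) (hx : ‖x‖ = 1) :
    ∃ (e f : Fin 3 → ℝ) (p r s : ℝ), Frame D x e f p r s := by
  obtain ⟨e, f, he, hf, hef, hxe, hxf, hc⟩ := exists_onb x (sum_sq_one hx)
  have h0 := ne_zero_of_one hx
  have o : On e f := ⟨he, hf, hef⟩
  have hW := expand hc (W_symm D h0) (W_x D hx)
  set s := ∑ k, ∑ l, D.W x k l * e k * e l
  set r' := ∑ k, ∑ l, D.W x k l * e k * f l
  set p := ∑ k, ∑ l, D.W x k l * f k * f l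
  have hWF : Fr e f s (-(-r')) p (D.W x) := by
    intro i j
    rw [neg_neg]
    exact hW i j
  -- positivity
  have key : ∀ u w : ℝ, (u ≠ 0 ∨ w ≠ 0) → 0 < s * u ^ 2 + 2 * r' * (u * w) + p * w ^ 2 := by
    intro u w huw
    have hxv : ∑ i, x i * (u * e i + w * f i) = 0 := by
      have : ∀ i, x i * (u * e i + w * f i) = u * (x i * e i) + w * (x i * f i) := fun i => by ring
      rw [Finset.sum_congr rfl fun i _ => this i, Finset.sum_add_distrib, ← Finset.mul_sum,
        ← Finset.mul_sum, hxe, hxf]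
      ring
    have hev : ∑ i, e i * (u * e i + w * f i) = u := by
      have : ∀ i, e i * (u * e i + w * f i) = u * (e i ^ 2) + w * (e i * f i) := fun i => by ring
      rw [Finset.sum_congr rfl fun i _ => this i, Finset.sum_add_distrib, ← Finset.mul_sum,
        ← Finset.mul_sum, he, hef]
      ring
    have hfv : ∑ i, f i * (u * e i + w * f i) = w := by
      have : ∀ i, f i * (u * e i + w * f i) = u * (e i * f i) + w * (f i ^ 2) := fun i => by ring
      rw [Finset.sum_congr rfl fun i _ => this i, Finset.sum_add_distrib, ← Finset.mul_sum,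
        ← Finset.mul_sum, hf, hef]
      ring
    have hv0 : (fun i => u * e i + w * f i) ≠ 0 := by
      intro h
      have h' : ∀ i, u * e i + w * f i = 0 := fun i => congrFun h i
      simp only [h', mul_zero, Finset.sum_const_zero] at hev hfv
      rcases huw with hu | hw
      · exact hu hev.symm
      · exact hw hfv.symm
    have hpos := D.pos x hx (fun i => u * e i + w * f i) hxv hv0
    have hq : qf (D.W x) (fun i => u * e i + w * f i) (fun i => u * e i + w * f i) =
        qf (fun i j => hs D.H i j x) (fun i => u * e i + w * f i) (fun i => u * e i + w * f i) +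
        D.U x * (∑ i, (u * e i + w * f i) ^ 2 - (∑ i, x i * (u * e i + w * f i)) ^ 2) := by
      unfold H353.qf Dat.W pr kd
      simp only [Fin.sum_univ_three]
      simp only [Fin.isValue, ↓reduceIte, zero_ne_one, one_ne_zero, Fin.reduceEq]
      ring
    rw [hWF.qf, hev, hfv, hxv] at hq
    have : 0 < s * u ^ 2 + 2 * - -r' * (u * w) + p * w ^ 2 := by
      rw [hq]
      simpa using hpos
    simpa using this
  have hs0 : 0 < s := by
    have := key 1 0 (Or.inl one_ne_zero)
    linarith only [this]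
  have hp0 : 0 < p := by
    have := key 0 1 (Or.inr one_ne_zero)
    linarith only [this]
  have hd0 : 0 < p * s - r' ^ 2 := by
    have h1 := key (-r') s (Or.inr hs0.ne')
    have h2 : 0 < s * (p * s - r' ^ 2) := by
      have e : s * (-r') ^ 2 + 2 * r' * (-r' * s) + p * s ^ 2 = s * (p * s - r' ^ 2) := by ring
      rw [e] at h1; exact h1
    exact (pos_iff_pos_of_mul_pos h2).mp hs0
  exact ⟨e, f, p, -r', s, o, hxe, hxf, hc, hWF, hp0, hs0, by rw [neg_sq]; exact hd0⟩

namespace Frame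

variable {D : Dat} {p r s : ℝ}

lemma pr' (F : Frame D x e f p r s) : Fr e f 1 0 1 (pr x) := by
  intro i j
  have := F.c i j
  unfold pr
  rw [this]; ring

lemma trW (F : Frame D x e f p r s) : tr3 (D.W x) = p + s := by
  rw [F.W.tr F.o]; ring

lemma dtW (F : Frame D x e f p r s) : D.dt x = p * s - r ^ 2 := by
  unfold Dat.dt
  rw [F.W.dt F.o]; ring

lemma A' (F : Frame D x e f p r s) : Fr e f p r s (D.A x) := by
  intro i j
  unfold Dat.A
  rw [F.trW, F.pr' i j, F.W i j]
  ring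

lemma gg (F : Frame D x e f p r s) {v : Fin 3 → ℝ} (hv : ∑ i, x i * v i = 0) :
    ∑ i, v i ^ 2 = (∑ i, e i * v i) ^ 2 + (∑ i, f i * v i) ^ 2 := by
  have h : ∑ i, v i ^ 2 - (∑ i, x i * v i) ^ 2 = ∑ i, ∑ j, (kd i j - x i * x j) * v i * v j := by
    unfold kd
    simp only [Fin.sum_univ_three]
    simp only [Fin.isValue, ↓reduceIte, zero_ne_one, one_ne_zero, Fin.reduceEq]
    ring
  have h2 : ∑ i, ∑ j, (kd i j - x i * x j) * v i * v j =
      (∑ i, e i * v i) ^ 2 + (∑ i, f i * v i) ^ 2 := by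
    simp only [F.c, Fin.sum_univ_three]
    ring
  rw [hv, h2] at h
  linarith only [h]

end Frame

/-- the scalar inequality for `A_t` -/
lemma scal_lower {l p r s a b c t : ℝ} (hl : 0 < l) (hl1 : l ≤ 1) (hp : 0 < p) (hs : 0 < s)
    (hls : l * (p + s) ≤ p * s - r ^ 2) (ht0 : 0 ≤ t) (ht1 : t ≤ 1) :
    l ^ 2 * (a * a + 2 * (b * b) + c * c) + 2 * (((1 - t) + t * p) * ((1 - t) + t * s) - (t * r) ^ 2) *
      (a * c - b ^ 2) ≤ ((1 - t) * (a + c) + t * (p * a + 2 * (r * b) + s * c)) ^ 2 ∧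
    l ^ 2 ≤ ((1 - t) + t * p) * ((1 - t) + t * s) - (t * r) ^ 2 ∧
    ((1 - t) + t * p) * ((1 - t) + t * s) - (t * r) ^ 2 ≤ (1 + (p + s)) ^ 2 := by
  have h1 : l ≤ p := by
    have : l * (p + s) ≤ p * (p + s) := by nlinarith only [hls, sq_nonneg r, sq_nonneg p]
    exact le_of_mul_le_mul_right this (by linarith only [hp, hs])
  have h2 : l ≤ s := by
    have : l * (p + s) ≤ s * (p + s) := by nlinarith only [hls, sq_nonneg r, sq_nonneg s]
    exact le_of_mul_le_mul_right this (by linarith only [hp, hs])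
  have h3 : r ^ 2 ≤ (p - l) * (s - l) := by nlinarith only [hls, sq_nonneg l]
  have h4 : l ≤ (1 - t) + t * p := by nlinarith only [h1, hl1, ht0, ht1]
  have h5 : l ≤ (1 - t) + t * s := by nlinarith only [h2, hl1, ht0, ht1]
  have h6 : (t * r) ^ 2 ≤ (((1 - t) + t * p) - l) * (((1 - t) + t * s) - l) := by
    have e : (((1 - t) + t * p) - l) * (((1 - t) + t * s) - l) - (t * r) ^ 2 =
        ((1 - t) * (1 - l)) ^ 2 + ((1 - t) * (1 - l)) * t * ((p - l) + (s - l)) +
        t ^ 2 * ((p - l) * (s - l) - r ^ 2) := by ring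
    have hX : 0 ≤ (1 - t) * (1 - l) := mul_nonneg (by linarith only [ht1]) (by linarith only [hl1])
    have hY : 0 ≤ (p - l) + (s - l) := by linarith only [h1, h2]
    have hZ : 0 ≤ (p - l) * (s - l) - r ^ 2 := by linarith only [h3]
    have : 0 ≤ (((1 - t) + t * p) - l) * (((1 - t) + t * s) - l) - (t * r) ^ 2 := by
      rw [e]
      exact add_nonneg (add_nonneg (sq_nonneg _) (mul_nonneg (mul_nonneg hX ht0) hY))
        (mul_nonneg (sq_nonneg _) hZ)
    linarith only [this]
  refine ⟨?_, ?_, ?_⟩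
  · have := plane_lower (a := a) (b := b) (c := c) hl.le h4 h5 h6
    nlinarith only [this]
  · nlinarith only [h4, h5, h6, hl, mul_nonneg hl.le (sub_nonneg.mpr h4),
      mul_nonneg hl.le (sub_nonneg.mpr h5)]
  · have h7 : (1 - t) + t * p ≤ 1 + (p + s) := by nlinarith only [ht0, ht1, hp, hs]
    have h8 : (1 - t) + t * s ≤ 1 + (p + s) := by nlinarith only [ht0, ht1, hp, hs]
    have h9 : ((1 - t) + t * p) * ((1 - t) + t * s) ≤ (1 + (p + s)) * (1 + (p + s)) :=
      mul_le_mul h7 h8 (by linarith only [h5, hl]) (by linarith only [hp, hs])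
    nlinarith only [h9, sq_nonneg (t * r)]

/-- the scalar bound for `A - pr` -/
lemma scal_upper {p r s a b c T : ℝ} (hp : 0 < p) (hs : 0 < s) (hd : 0 < p * s - r ^ 2)
    (hT : p + s ≤ T) :
    ((p * a + 2 * (r * b) + s * c) - (a + c)) ^ 2 ≤
      (T ^ 2 + 2) * (a * a + 2 * (b * b) + c * c) := by
  have h1 : ((p * a + 2 * (r * b) + s * c) - (a + c)) ^ 2 ≤
      ((p - 1) ^ 2 + 2 * r ^ 2 + (s - 1) ^ 2) * (a * a + 2 * (b * b) + c * c) := by
    nlinarith only [sq_nonneg ((p - 1) * b - r * a), sq_nonneg ((p - 1) * c - (s - 1) * a),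
      sq_nonneg (r * c - (s - 1) * b)]
  have h2 : (p - 1) ^ 2 + 2 * r ^ 2 + (s - 1) ^ 2 ≤ T ^ 2 + 2 := by
    nlinarith only [hp, hs, hd, hT]
  have h3 : 0 ≤ a * a + 2 * (b * b) + c * c := by
    linarith only [mul_self_nonneg a, mul_self_nonneg b, mul_self_nonneg c]
  exact h1.trans (mul_le_mul_of_nonneg_right h2 h3)

end Vale.Agent.P366.H296
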