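import Vale.Agent.P366.H296.F3b

/-! Null shells: the Piola identity on the level sets `ν ↦ ∇H(ν)`. -/

open MeasureTheory Metric Filter Topology Set
open scoped ContDiff

noncomputable section
namespace Vale.Agent.P366.H296

open Vale.Agent.P366 (sphI sphM pd E)
open Vale.Agent.P366.H353

variable {H F V : E 3 → ℝ} {x : E 3}

/-- the gradient map -/
def gr (H : E 3 → ℝ) (x : E 3) : E 3 := WithLp.toLp 2 fun i => pd i H x

@[simp] lemma gr_apply (i : Fin 3) : gr H x i = pd i H x := rfl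

lemma gr_diff (hH : Sm H) (hx : x ≠ 0) : DifferentiableAt ℝ (gr H) x := by
  rw [differentiableAt_euclidean]
  exact fun i => (hH.pd i).diff hx

lemma gr_contDiffAt (hH : Sm H) (hx : x ≠ 0) : ContDiffAt ℝ ∞ (gr H) x := by
  rw [contDiffAt_euclidean]
  exact fun i => hH.pd i x hx

lemma gr_fderiv (hH : Sm H) (hx : x ≠ 0) (i k : Fin 3) :
    fderiv ℝ (gr H) x (EuclideanSpace.single i 1) k = hs H i k x := by
  have h1 : HasFDerivAt (fun y => gr H y k)
      ((EuclideanSpace.proj k : E 3 →L[ℝ] ℝ).comp (fderiv ℝ (gr H) x)) x :=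
    (EuclideanSpace.proj k : E 3 →L[ℝ] ℝ).hasFDerivAt.comp x (gr_diff hH hx).hasFDerivAt
  have h2 : hs H i k x = fderiv ℝ (fun y => gr H y k) x (EuclideanSpace.single i 1) := rfl
  rw [h2, h1.fderiv]
  rfl

/-- chain rule -/
lemma pd_comp_gr (hH : Sm H) (hx : x ≠ 0) (hF : DifferentiableAt ℝ F (gr H x)) (i : Fin 3) :
    pd i (fun y => F (gr H y)) x = ∑ k, hs H i k x * pd k F (gr H x) := by
  unfold Vale.Agent.P366.pd
  have h := hF.hasFDerivAt.comp x (gr_diff hH hx).hasFDerivAt
  rw [show (fun y => F (gr H y)) = F ∘ gr H from rfl, h.fderiv]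
  rw [ContinuousLinearMap.comp_apply, Vale.Agent.P366.fderiv_eq_sum_pd]
  refine Finset.sum_congr rfl fun k _ => ?_
  rw [gr_fderiv hH hx i k]
  rfl

lemma sm_comp_gr (hH : Sm H) (hF : ∀ x, x ≠ 0 → ContDiffAt ℝ ∞ F (gr H x)) :
    Sm fun x => F (gr H x) := fun x hx => (hF x hx).comp x (gr_contDiffAt hH hx)

lemma gr_hom (hH : Sm H) (h1 : Hom 1 H) (hx : x ≠ 0) {r : ℝ} (hr : 0 < r) :
    gr H (r • x) = gr H x := by
  ext i
  have := (h1.pd hH i) x hx r hr
  simpa using this

lemma hom_comp_gr (hH : Sm H) (h1 : Hom 1 H) : Hom 0 fun x => F (gr H x) := fun x hx r hr => by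
  show F (gr H (r • x)) = _
  rw [gr_hom hH h1 hx hr]
  simp

/-- third derivatives commute -/
lemma third' (hf : Sm H) (hx : x ≠ 0) (j : Fin 3) :
    ∑ i, pd i (hs H i j) x = pd j (lap H) x := by
  have h1 : pd j (lap H) x = ∑ i, pd j (hs H i i) x :=
    pd_sum' _ (fun i => hf.hs i i) hx j
  rw [h1]
  refine Finset.sum_congr rfl fun i _ => ?_
  have h2 : pd i (hs H i j) x = pd i (hs H j i) x :=
    pd_congr' (fun y hy => hs_symm hf hy i j) hx i
  rw [h2]
  exact hs_symm (hf.pd i) hx i j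

/-- The Piola identity. -/
theorem piola (hH : Sm H) (h1 : Hom 1 H) {G : Fin 3 → E 3 → ℝ}
    (hG : ∀ j x, x ≠ 0 → ContDiffAt ℝ ∞ (G j) (gr H x)) :
    S2 (fun x => lap H x * (∑ j, ∑ k, hs H j k x * pd k (G j) (gr H x)) -
      ∑ i, ∑ j, hs H i j x * ∑ k, hs H i k x * pd k (G j) (gr H x)) =
    S2 (fun x => lap H x * ∑ j, x j * G j (gr H x)) := by
  have hGs : ∀ j, Sm fun x => G j (gr H x) := fun j => sm_comp_gr hH (hG j)
  have hdiff : ∀ j x, x ≠ 0 → DifferentiableAt ℝ (G j) (gr H x) := fun j x hx =>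
    (hG j x hx).differentiableAt (by simp)
  have h := S2_div (k := -1)
    (F := fun i x => lap H x * G i (gr H x) - ∑ j, hs H i j x * G j (gr H x))
    (fun i => (hH.lap.mul (hGs i)).sub (Sm.sum _ fun j => (hH.hs i j).mul (hGs j)))
    (fun i => (((h1.lap hH).mul (hom_comp_gr hH h1)).cast (by norm_num)).sub
      (Hom.sum _ fun j => ((h1.hs hH i j).mul (hom_comp_gr hH h1)).cast (by norm_num)))
  have e1 : S2 (fun x => ∑ i, pd i (fun x => lap H x * G i (gr H x) -
      ∑ j, hs H i j x * G j (gr H x)) x) =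
      S2 (fun x => lap H x * (∑ j, ∑ k, hs H j k x * pd k (G j) (gr H x)) -
      ∑ i, ∑ j, hs H i j x * ∑ k, hs H i k x * pd k (G j) (gr H x)) := by
    refine S2_congr fun x hx => ?_
    have h0 := ne_zero_of_one hx
    have k1 : ∀ i, pd i (fun x => lap H x * G i (gr H x) - ∑ j, hs H i j x * G j (gr H x)) x =
        lap H x * (∑ k, hs H i k x * pd k (G i) (gr H x)) + pd i (lap H) x * G i (gr H x) -
        (∑ j, hs H i j x * (∑ k, hs H i k x * pd k (G j) (gr H x)) +
          ∑ j, pd i (hs H i j) x * G j (gr H x)) := by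
      intro i
      rw [pd_sub' (hH.lap.mul (hGs i)) (Sm.sum _ fun j => (hH.hs i j).mul (hGs j)) h0,
        pd_mul' hH.lap (hGs i) h0, pd_sum' _ (fun j => (hH.hs i j).mul (hGs j)) h0,
        pd_comp_gr hH h0 (hdiff i x h0), ← Finset.sum_add_distrib]
      congr 1
      refine Finset.sum_congr rfl fun j _ => ?_
      rw [pd_mul' (hH.hs i j) (hGs j) h0, pd_comp_gr hH h0 (hdiff j x h0)]
    have k2 : ∑ i, ∑ j, pd i (hs H i j) x * G j (gr H x) = ∑ j, pd j (lap H) x * G j (gr H x) := by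
      rw [Finset.sum_comm]
      refine Finset.sum_congr rfl fun j _ => ?_
      rw [← Finset.sum_mul, third' hH h0 j]
    rw [Finset.sum_congr rfl fun i _ => k1 i, Finset.sum_sub_distrib, Finset.sum_add_distrib,
      Finset.sum_add_distrib, k2, ← Finset.mul_sum]
    ring
  have e2 : S2 (fun x => ∑ i, (lap H x * G i (gr H x) - ∑ j, hs H i j x * G j (gr H x)) * x i) =
      S2 (fun x => lap H x * ∑ j, x j * G j (gr H x)) := by
    refine S2_congr fun x hx => ?_
    have h0 := ne_zero_of_one hx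
    have k3 : ∀ j, ∑ i, hs H i j x * x i = 0 := by
      intro j
      have := (h1.pd hH j).euler (hH.pd j) h0
      rw [← show ((1 - 1 : ℤ) : ℝ) * pd j H x = 0 by norm_num, ← this]
      exact Finset.sum_congr rfl fun i _ => mul_comm _ _
    have k4 : ∑ i, (∑ j, hs H i j x * G j (gr H x)) * x i = 0 := by
      have : ∑ i, (∑ j, hs H i j x * G j (gr H x)) * x i =
          ∑ j, (∑ i, hs H i j x * x i) * G j (gr H x) := by
        simp only [Finset.sum_mul]
        rw [Finset.sum_comm]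
        exact Finset.sum_congr rfl fun j _ => Finset.sum_congr rfl fun i _ => by ring
      rw [this]
      simp [k3]
    simp only [sub_mul, Finset.sum_sub_distrib, k4, sub_zero, Finset.mul_sum]
    exact Finset.sum_congr rfl fun i _ => by ring
  rw [e1, e2] at h
  rw [h]
  push_cast
  ring

end Vale.Agent.P366.H296
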