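import Vale.Agent.P366.H296.X4b

/-! Null shells: monotonicity of `V tr W` along the null rays and the chain of inequalities. -/

open MeasureTheory Metric Filter Topology Set
open scoped ContDiff

noncomputable section
namespace Vale.Agent.P366.H296

open Vale.Agent.P366 (sphI sphM pd E)
open Vale.Agent.P366.H353

variable {H : E 3 → ℝ} {x : E 3}

/-- Monotonicity along a null ray. -/
theorem mono_s {V : ℝ → E 3 → ℝ} {v s1 s2 c : ℝ} {a : E 3} (h12 : s1 ≤ s2)
    (hV : ∀ s ∈ Icc s1 s2, ContDiffAt ℝ ∞ (fun p : ℝ × E 3 => V p.1 p.2) (v - s, a + s • x))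
    (ha : ∀ s ∈ Ioo s1 s2, 0 ≤ (c + 2 * s) * ((∑ j, x j * pd j (V (v - s)) (a + s • x)) -
      deriv (fun τ => V τ (a + s • x)) (v - s)) + 2 * V (v - s) (a + s • x)) :
    V (v - s1) (a + s1 • x) * (c + 2 * s1) ≤ V (v - s2) (a + s2 • x) * (c + 2 * s2) := by
  set Vj : ℝ × E 3 → ℝ := fun p => V p.1 p.2 with hVj
  have hline : ∀ s : ℝ, HasDerivAt (fun s : ℝ => ((v - s, a + s • x) : ℝ × E 3)) (-1, x) s := by
    intro s
    have h1 : HasDerivAt (fun s : ℝ => v - s) (-1) s := (hasDerivAt_id s).const_sub v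
    have h2 : HasDerivAt (fun s : ℝ => a + s • x) x s := by
      have h3 := ((hasDerivAt_id s).smul_const x).const_add a
      rw [one_smul] at h3
      exact h3
    exact h1.prodMk h2
  have hd : ∀ s ∈ Icc s1 s2, HasDerivAt (fun s => V (v - s) (a + s • x))
      (fderiv ℝ Vj (v - s, a + s • x) (-1, x)) s := by
    intro s hs
    have h2 : HasFDerivAt Vj (fderiv ℝ Vj (v - s, a + s • x)) (v - s, a + s • x) :=
      ((hV s hs).differentiableAt (by simp)).hasFDerivAt
    exact h2.comp_hasDerivAt s (hline s)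
  have hsplit : ∀ s ∈ Icc s1 s2, fderiv ℝ Vj (v - s, a + s • x) (-1, x) =
      (∑ j, x j * pd j (V (v - s)) (a + s • x)) - deriv (fun τ => V τ (a + s • x)) (v - s) := by
    intro s hs
    have h2 : HasFDerivAt Vj (fderiv ℝ Vj (v - s, a + s • x)) (v - s, a + s • x) :=
      ((hV s hs).differentiableAt (by simp)).hasFDerivAt
    have e : ((-1, x) : ℝ × E 3) = (0, x) - (1, 0) := by
      ext <;> simp
    rw [e, map_sub]
    have h3 : HasDerivAt (fun τ : ℝ => ((τ, a + s • x) : ℝ × E 3)) (1, 0) (v - s) :=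
      (hasDerivAt_id _).prodMk (hasDerivAt_const _ _)
    have h4 := (h2.comp_hasDerivAt (v - s) h3).deriv
    have h5 : HasFDerivAt (fun y : E 3 => ((v - s, y) : ℝ × E 3))
        (ContinuousLinearMap.inr ℝ ℝ (E 3)) (a + s • x) := hasFDerivAt_prodMk_right _ _
    have h6 := (h2.comp (a + s • x) h5)
    have h7 : fderiv ℝ (V (v - s)) (a + s • x) =
        (fderiv ℝ Vj (v - s, a + s • x)).comp (ContinuousLinearMap.inr ℝ ℝ (E 3)) := h6.fderiv
    have h8 := Vale.Agent.P366.fderiv_eq_sum_pd (V (v - s)) (a + s • x) x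
    rw [← h8, h7]
    congr 1
    exact h4.symm
  have hm : MonotoneOn (fun s => V (v - s) (a + s • x) * (c + 2 * s)) (Icc s1 s2) := by
    have hlin : ∀ s : ℝ, HasDerivAt (fun s : ℝ => c + 2 * s) 2 s := fun s => by
      simpa using ((hasDerivAt_id s).const_mul 2).const_add c
    have hprod : ∀ s ∈ Icc s1 s2, HasDerivAt (fun s => V (v - s) (a + s • x) * (c + 2 * s))
        (fderiv ℝ Vj (v - s, a + s • x) (-1, x) * (c + 2 * s) + V (v - s) (a + s • x) * 2) s :=
      fun s hs => (hd s hs).mul (hlin s)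
    refine monotoneOn_of_deriv_nonneg (convex_Icc s1 s2)
      (fun s hs => (hprod s hs).continuousAt.continuousWithinAt) ?_ ?_
    · intro s hs
      rw [interior_Icc] at hs
      exact (hprod s (Ioo_subset_Icc_self hs)).differentiableAt.differentiableWithinAt
    · intro s hs
      rw [interior_Icc] at hs
      rw [(hprod s (Ioo_subset_Icc_self hs)).deriv, hsplit s (Ioo_subset_Icc_self hs)]
      have := ha s hs
      linarith only [this]
  exact hm (left_mem_Icc.mpr h12) (right_mem_Icc.mpr h12) h12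

/-- The chain of inequalities: cut ≤ level set on the null cone ≤ level set on the slice. -/
theorem chain_le {V : ℝ → E 3 → ℝ} {U : E 3 → ℝ} {v0 Λ : ℝ} (hH : Sm H) (h1 : Hom 1 H)
    (hU : Sm U) (hUΛ : ∀ x : E 3, ‖x‖ = 1 → U x ≤ Λ) (hv : v0 ≤ Λ)
    (hVs : ∀ x : E 3, ‖x‖ = 1 → ∀ s ∈ Icc (U x) Λ,
      ContDiffAt ℝ ∞ (fun p : ℝ × E 3 => V p.1 p.2) (v0 - s, gr H x + s • x))
    (ha : ∀ x : E 3, ‖x‖ = 1 → ∀ s ∈ Ioo (U x) Λ,
      0 ≤ (lap H x + 2 * s) * ((∑ j, x j * pd j (V (v0 - s)) (gr H x + s • x)) -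
        deriv (fun τ => V τ (gr H x + s • x)) (v0 - s)) + 2 * V (v0 - s) (gr H x + s • x))
    (hVt : ∀ t ∈ Icc (v0 - Λ) 0, ∀ x : E 3, ‖x‖ = 1 →
      ContDiffAt ℝ ∞ (fun p : ℝ × E 3 => V p.1 p.2) (t, gr H x + Λ • x))
    (hb : ∀ t ∈ Ioo (v0 - Λ) 0, ∀ x : E 3, ‖x‖ = 1 →
      0 ≤ (lap H x + 2 * Λ) * deriv (fun τ => V τ (gr H x + Λ • x)) t -
        (det2 (fun i j => hs H i j x + Λ * pr x i j) * (lap (V t) (gr H x + Λ • x) -
          ∑ j, ∑ k, x j * x k * hs (V t) j k (gr H x + Λ • x)) -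
        (lap H x + 2 * Λ) * ∑ j, x j * pd j (V t) (gr H x + Λ • x))) :
    S2 (fun x => V (v0 - U x) (gr H x + U x • x) * (lap H x + 2 * U x)) ≤
      S2 (fun x => V 0 (gr H x + Λ • x) * (lap H x + 2 * Λ)) := by
  have step1 : S2 (fun x => V (v0 - U x) (gr H x + U x • x) * (lap H x + 2 * U x)) ≤
      S2 (fun x => V (v0 - Λ) (gr H x + Λ • x) * (lap H x + 2 * Λ)) := by
    refine S2_mono ?_ ?_ fun x hx => mono_s (hUΛ x hx) (hVs x hx) (ha x hx)
    · refine ContinuousOn.mul ?_ (hH.lap.contOn.add (continuousOn_const.mul hU.contOn))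
      have cm : ContinuousOn (fun x : E 3 => ((v0 - U x, gr H x + U x • x) : ℝ × E 3))
          (sphere 0 1) := by
        refine (continuousOn_const.sub hU.contOn).prodMk (ContinuousOn.add ?_
          (hU.contOn.smul continuousOn_id))
        exact fun x hx => (gr_contDiffAt hH (ne_zero_of_one (by simpa using hx))).continuousAt.continuousWithinAt
      intro x hx
      have hx1 : ‖x‖ = 1 := by simpa using hx
      exact ContinuousAt.comp_continuousWithinAt (g := fun p : ℝ × E 3 => V p.1 p.2)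
        (f := fun x : E 3 => ((v0 - U x, gr H x + U x • x) : ℝ × E 3))
        (hVs x hx1 (U x) (left_mem_Icc.mpr (hUΛ x hx1))).continuousAt (cm x hx)
    · refine ContinuousOn.mul ?_ (hH.lap.contOn.add continuousOn_const)
      have cm : ContinuousOn (fun x : E 3 => ((v0 - Λ, gr H x + Λ • x) : ℝ × E 3))
          (sphere 0 1) := by
        refine continuousOn_const.prodMk (ContinuousOn.add ?_
          (continuous_const_smul Λ).continuousOn)
        exact fun x hx => (gr_contDiffAt hH (ne_zero_of_one (by simpa using hx))).continuousAt.continuousWithinAt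
      intro x hx
      have hx1 : ‖x‖ = 1 := by simpa using hx
      exact ContinuousAt.comp_continuousWithinAt (g := fun p : ℝ × E 3 => V p.1 p.2)
        (f := fun x : E 3 => ((v0 - Λ, gr H x + Λ • x) : ℝ × E 3))
        (hVs x hx1 Λ (right_mem_Icc.mpr (hUΛ x hx1))).continuousAt (cm x hx)
  have step2 := mono_t (V := V) (t1 := v0 - Λ) (t2 := 0) (H := Hp H Λ)
    (by linarith only [hv]) (sm_Hp hH Λ) (hom_Hp h1 Λ)
    (fun t ht x hx => by rw [gr_Hp hH hx]; exact hVt t ht x hx)
    (fun t ht x hx => by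
      have h := hb t ht x hx
      rw [lap_Hp hH hx, gr_Hp hH hx, show (fun i j => hs (Hp H Λ) i j x) =
        fun i j => hs H i j x + Λ * pr x i j from funext fun i => funext fun j => hs_Hp hH hx i j]
      exact h)
  have e1 : ∀ t : ℝ, S2 (fun x => V t (gr (Hp H Λ) x) * lap (Hp H Λ) x) =
      S2 (fun x => V t (gr H x + Λ • x) * (lap H x + 2 * Λ)) := fun t =>
    S2_congr fun x hx => by rw [lap_Hp hH hx, gr_Hp hH hx]
  rw [e1, e1] at step2
  exact step1.trans step2

end Vale.Agent.P366.H296
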