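import Vale.Agent.P366.H296.X8b
import Vale.Agent.P366.H375.X2d

/-! Kerr-Schild exteriors: the orders of decay. -/

open MeasureTheory Metric Filter Topology Set
open scoped ContDiff ENNReal

noncomputable section
namespace Vale.Agent.P366.H296

open Vale.Agent.P366 (pd E)
open Vale.Agent.P366.H353

/-- `e = O(r ^ (-a))` -/
def BO (a : ℝ) (e : E 3 → ℝ) : Prop :=
  ∃ C R : ℝ, 0 ≤ C ∧ 1 ≤ R ∧ ∀ y : E 3, R < ‖y‖ → |e y| ≤ C * ‖y‖ ^ (-a)

namespace BO

variable {a b : ℝ} {e e' : E 3 → ℝ}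

lemma of_bigO (h : Stmt.BigO a e) : BO a e := by
  obtain ⟨C, R, h⟩ := h
  refine ⟨|C|, max R 1, abs_nonneg _, le_max_right _ _, fun y hy => ?_⟩
  refine (h y ((le_max_left _ _).trans_lt hy)).trans ?_
  exact mul_le_mul_of_nonneg_right (le_abs_self C) (Real.rpow_nonneg (norm_nonneg _) _)

lemma congr (h : BO a e) {R : ℝ} (he : ∀ y : E 3, R < ‖y‖ → e' y = e y) : BO a e' := by
  obtain ⟨C, R', hC, hR, h⟩ := h
  refine ⟨C, max R R', hC, hR.trans (le_max_right _ _), fun y hy => ?_⟩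
  rw [he y ((le_max_left _ _).trans_lt hy)]
  exact h y ((le_max_right _ _).trans_lt hy)

lemma le (h : BO a e) {R : ℝ} (he : ∀ y : E 3, R < ‖y‖ → |e' y| ≤ |e y|) : BO a e' := by
  obtain ⟨C, R', hC, hR, h⟩ := h
  refine ⟨C, max R R', hC, hR.trans (le_max_right _ _), fun y hy => ?_⟩
  exact (he y ((le_max_left _ _).trans_lt hy)).trans (h y ((le_max_right _ _).trans_lt hy))

lemma mono (h : BO a e) (hb : b ≤ a) : BO b e := by
  obtain ⟨C, R, hC, hR, h⟩ := h
  refine ⟨C, R, hC, hR, fun y hy => (h y hy).trans ?_⟩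
  refine mul_le_mul_of_nonneg_left ?_ hC
  exact Real.rpow_le_rpow_of_exponent_le (hR.trans hy.le) (by linarith only [hb])

lemma add (h : BO a e) (h' : BO a e') : BO a fun y => e y + e' y := by
  obtain ⟨C, R, hC, hR, h⟩ := h
  obtain ⟨C', R', hC', hR', h'⟩ := h'
  refine ⟨C + C', max R R', add_nonneg hC hC', hR.trans (le_max_left _ _), fun y hy => ?_⟩
  rw [add_mul]
  exact (abs_add_le _ _).trans (add_le_add (h y ((le_max_left _ _).trans_lt hy))
    (h' y ((le_max_right _ _).trans_lt hy)))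

lemma neg (h : BO a e) : BO a fun y => - e y :=
  h.le (R := 0) fun y _ => by rw [abs_neg]

lemma sub (h : BO a e) (h' : BO a e') : BO a fun y => e y - e' y :=
  (h.add h'.neg).congr (R := 0) fun y _ => by ring

lemma mul (h : BO a e) (h' : BO b e') : BO (a + b) fun y => e y * e' y := by
  obtain ⟨C, R, hC, hR, h⟩ := h
  obtain ⟨C', R', hC', hR', h'⟩ := h'
  refine ⟨C * C', max R R', mul_nonneg hC hC', hR.trans (le_max_left _ _), fun y hy => ?_⟩
  have hy0 : 0 < ‖y‖ := one_pos.trans_le (hR.trans ((le_max_left _ _).trans hy.le))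
  have e1 : C * C' * ‖y‖ ^ (-(a + b)) = C * ‖y‖ ^ (-a) * (C' * ‖y‖ ^ (-b)) := by
    rw [neg_add, Real.rpow_add hy0]; ring
  rw [e1, abs_mul]
  exact mul_le_mul (h y ((le_max_left _ _).trans_lt hy)) (h' y ((le_max_right _ _).trans_lt hy))
    (abs_nonneg _) (mul_nonneg hC (Real.rpow_nonneg (norm_nonneg _) _))

lemma bdd {K : ℝ} (R : ℝ) (h : ∀ y : E 3, R < ‖y‖ → |e y| ≤ K) : BO 0 e := by
  refine ⟨|K|, max R 1, abs_nonneg _, le_max_right _ _, fun y hy => ?_⟩
  rw [neg_zero, Real.rpow_zero, mul_one]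
  exact (h y ((le_max_left _ _).trans_lt hy)).trans (le_abs_self K)

lemma const (c : ℝ) : BO 0 fun _ : E 3 => c := bdd 0 fun _ _ => le_rfl

lemma cmul (c : ℝ) (h : BO a e) : BO a fun y => c * e y := by
  have := (const c).mul h
  rwa [zero_add] at this

lemma bmul (h' : BO 0 e') (h : BO a e) : BO a fun y => e' y * e y := by
  have := h'.mul h
  rwa [zero_add] at this

lemma sum {ι : Type*} (s : Finset ι) {e : ι → E 3 → ℝ} (h : ∀ i, BO a (e i)) :
    BO a fun y => ∑ i ∈ s, e i y := by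
  classical
  induction s using Finset.induction_on with
  | empty =>
    refine ⟨0, 1, le_rfl, le_rfl, fun y _ => ?_⟩
    simp
  | insert i s hi ih =>
    simp only [Finset.sum_insert hi]
    exact (h i).add ih

lemma of_le {K R : ℝ} (m : ℕ) (hK : 0 ≤ K) (h : ∀ y : E 3, R < ‖y‖ → |e y| ≤ K / ‖y‖ ^ m) :
    BO m e := by
  refine ⟨K, max R 1, hK, le_max_right _ _, fun y hy => ?_⟩
  refine (h y ((le_max_left _ _).trans_lt hy)).trans_eq ?_
  rw [Real.rpow_neg (norm_nonneg _), Real.rpow_natCast]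
  rfl

lemma inv_len : BO 1 fun y : E 3 => 1 / ‖y‖ := by
  have := of_le (e := fun y : E 3 => 1 / ‖y‖) (K := 1) (R := 0) 1 zero_le_one fun y hy => by
    rw [pow_one, abs_of_nonneg (by positivity)]
  simpa using this

/-- error terms vanish in the limit -/
lemma tendsto (h : BO a e) (ha : 2 < a) :
    Tendsto (fun R : ℝ => R ^ 2 * S2 (fun θ => e (R • θ))) atTop (𝓝 0) := by
  obtain ⟨C, R0, hC, hR0, h⟩ := h
  have hb : ∀ R : ℝ, R0 < R → |R ^ 2 * S2 (fun θ => e (R • θ))| ≤ 4 * Real.pi * C * R ^ (-(a - 2)) := by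
    intro R hR
    have hRp : 0 < R := one_pos.trans_le (hR0.trans hR.le)
    have h1 : ‖∫ θ : sphere (0 : E 3) 1, e (R • (θ : E 3)) ∂(sphM 3)‖ ≤
        C * R ^ (-a) * (sphM 3).real univ := by
      refine norm_integral_le_of_norm_le_const (Eventually.of_forall fun θ => ?_)
      have hn : ‖R • (θ : E 3)‖ = R := Vale.Agent.P366.norm_smul_sph hRp.le θ
      have := h (R • (θ : E 3)) (by rw [hn]; exact hR)
      rwa [hn] at this
    have h2 : (sphM 3).real univ = 4 * Real.pi := by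
      have := S2_const 1
      unfold S2 at this
      rw [integral_const, smul_eq_mul, mul_one, mul_one] at this
      exact this
    rw [h2, Real.norm_eq_abs] at h1
    rw [abs_mul, abs_of_nonneg (by positivity : (0:ℝ) ≤ R ^ 2)]
    have h3 : R ^ 2 * R ^ (-a) = R ^ (-(a - 2)) := by
      rw [← Real.rpow_natCast, ← Real.rpow_add hRp]
      congr 1
      push_cast; ring
    calc R ^ 2 * |S2 (fun θ => e (R • θ))| ≤ R ^ 2 * (C * R ^ (-a) * (4 * Real.pi)) :=
          mul_le_mul_of_nonneg_left h1 (by positivity)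
      _ = 4 * Real.pi * C * (R ^ 2 * R ^ (-a)) := by ring
      _ = _ := by rw [h3]
  have hlim : Tendsto (fun R : ℝ => 4 * Real.pi * C * R ^ (-(a - 2))) atTop (𝓝 0) := by
    have := (tendsto_rpow_neg_atTop (sub_pos.mpr ha)).const_mul (4 * Real.pi * C)
    rwa [mul_zero] at this
  rw [tendsto_zero_iff_abs_tendsto_zero]
  refine squeeze_zero' (Eventually.of_forall fun _ => abs_nonneg _) ?_ hlim
  filter_upwards [eventually_gt_atTop R0] with R hR using hb R hR

end BO

namespace KSx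

open Vale.Agent.P366.KS

variable {C : Cone} {lam f : E 3 → ℝ} {V : E 4 → ℝ} {D : Stmt.Exterior 3} {x y : E 3} {s t : ℝ}

/-- bounds for the support function -/
lemma exists_G (C : Cone) : ∃ G : ℝ, 1 ≤ G ∧ (∀ x : E 3, ‖x‖ = 1 → ‖gr C.H x‖ ≤ G) ∧
    (∀ x : E 3, ‖x‖ = 1 → ∀ i j, |H353.hs C.H i j x| ≤ G) ∧ ∀ x : E 3, ‖x‖ = 1 → C.U x ≤ G := by
  obtain ⟨G1, h1, hG1⟩ := bdd_above (f := fun x => ‖gr C.H x‖) (by
    have : ContinuousOn (gr C.H) (sphere (0 : E 3) 1) := fun x hx =>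
      (gr_contDiffAt C.smH (ne_zero_of_one (by simpa using hx))).continuousAt.continuousWithinAt
    exact this.norm)
  obtain ⟨G2, h2, hG2⟩ := bdd_above (f := fun x => ∑ i, ∑ j, |H353.hs C.H i j x|)
    (continuousOn_finsetSum _ fun i _ => continuousOn_finsetSum _ fun j _ =>
      (C.smH.hs i j).contOn.abs)
  obtain ⟨G3, h3, hG3⟩ := bdd_above (f := fun x => C.U x) C.smU.contOn
  refine ⟨G1 + G2 + G3 + 1, by linarith only [h1, h2, h3], fun x hx => ?_, fun x hx i j => ?_,
    fun x hx => ?_⟩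
  · have := hG1 x hx
    linarith only [this, h2, h3]
  · have a1 : |H353.hs C.H i j x| ≤ ∑ j, |H353.hs C.H i j x| :=
      Finset.single_le_sum (f := fun j => |H353.hs C.H i j x|) (fun j _ => abs_nonneg _)
        (Finset.mem_univ j)
    have a2 : ∑ j, |H353.hs C.H i j x| ≤ ∑ i, ∑ j, |H353.hs C.H i j x| :=
      Finset.single_le_sum (f := fun i => ∑ j, |H353.hs C.H i j x|)
        (fun i _ => Finset.sum_nonneg fun j _ => abs_nonneg _) (Finset.mem_univ i)
    have := hG2 x hx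
    linarith only [this, h1, h3, a1, a2]
  · have := hG3 x hx
    linarith only [this, h1, h2]

/-- coordinates of far points -/
structure FarPt (C : Cone) (f : E 3 → ℝ) (D : Stmt.Exterior 3) (G : ℝ) (y x : E 3) (s : ℝ) :
    Prop where
  hx : ‖x‖ = 1
  hU : C.U x < s
  hY : Y C.H x s = y
  hF : 0 < D.F y
  hf : f =ᶠ[𝓝 y] fun _ => 0
  h1 : ‖y - s • x‖ ≤ G
  h2 : |‖y‖ - s| ≤ G
  h3 : ‖y‖ ≤ 2 * s
  h4 : 6 * G ≤ s

lemma exists_far (hS : IsSlice C lam V f D) : ∃ G R : ℝ, 1 ≤ G ∧ 1 ≤ R ∧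
    (∀ x : E 3, ‖x‖ = 1 → ‖gr C.H x‖ ≤ G) ∧
    (∀ x : E 3, ‖x‖ = 1 → ∀ i j, |H353.hs C.H i j x| ≤ G) ∧
    ∀ y : E 3, R < ‖y‖ → ∃ x s, FarPt C f D G y x s := by
  obtain ⟨G, hG1, hG, hH, hU⟩ := exists_G C
  obtain ⟨R1, hR1⟩ := D.dom.2.2.2
  obtain ⟨R2, hR2⟩ := hS.cpt
  refine ⟨G, |R1| + |R2| + 8 * G, hG1, by
    linarith only [hG1, abs_nonneg R1, abs_nonneg R2], hG, hH, fun y hy => ?_⟩
  have a1 := le_abs_self R1
  have a2 := le_abs_self R2
  have a3 := abs_nonneg R1
  have a4 := abs_nonneg R2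
  have hF : 0 < D.F y := hR1 y (show R1 < ‖y‖ by linarith only [hy, a1, a4, hG1])
  obtain ⟨x, s, hx, hs, hxy⟩ := (mem_iff hS).mp hF.le
  have hYg : y - s • x = gr C.H x := by rw [← hxy, Y_gr]; abel
  have h1 : ‖y - s • x‖ ≤ G := by rw [hYg]; exact hG x hx
  have hs0 : 0 < s := (posU' C hx).trans_le hs
  have hsx : ‖s • x‖ = s := by rw [norm_smul, hx, mul_one, Real.norm_eq_abs, abs_of_pos hs0]
  have h2 : |‖y‖ - s| ≤ G := by
    have := abs_norm_sub_norm_le y (s • x)
    rw [hsx] at this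
    exact this.trans h1
  have h2' := abs_le.mp h2
  have hsG : 6 * G < s := by linarith only [h2'.2, hy, a3, a4, hG1]
  refine ⟨x, s, hx, (hU x hx).trans_lt (by linarith only [hsG, hG1]), hxy, hF, ?_, h1, h2, ?_,
    hsG.le⟩
  · have hopen : IsOpen {z : E 3 | R2 < ‖z‖} := isOpen_lt continuous_const continuous_norm
    filter_upwards [hopen.mem_nhds (show R2 < ‖y‖ by linarith only [hy, a2, a3, hG1])] with z hz
    exact hR2 z hz
  · linarith only [h2'.2, hsG, hG1]

variable (hS : IsSlice C lam V f D)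
include hS

/-- the angular coordinates -/
def th (i : Fin 3) (y : E 3) : ℝ := y i / ‖y‖

omit hS in
lemma abs_coord_le (y : E 3) (i : Fin 3) : |y i| ≤ ‖y‖ := by
  have := PiLp.norm_apply_le y i
  simpa using this

omit hS in
lemma BO_th (i : Fin 3) : BO 0 (th i) := by
  refine BO.bdd (K := 1) 0 fun y hy => ?_
  unfold th
  rw [abs_div, abs_norm, div_le_one hy]
  exact abs_coord_le y i

lemma BO_n (i : Fin 3) : BO 0 (pd i lam) := by
  obtain ⟨G, R, hG1, hR1, hG, hH, hfar⟩ := exists_far hS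
  refine BO.bdd (K := 1) R fun y hy => ?_
  obtain ⟨x, s, F⟩ := hfar y hy
  rw [← F.hY, pd_lam_Y hS F.hx F.hU.le]
  have := abs_coord_le x i
  rwa [F.hx] at this

lemma BO_n_sub (i : Fin 3) : BO 1 fun y => pd i lam y - th i y := by
  obtain ⟨G, R, hG1, hR1, hG, hH, hfar⟩ := exists_far hS
  have := BO.of_le (e := fun y => pd i lam y - th i y) (K := 2 * G) (R := R) 1
    (by linarith only [hG1]) fun y hy => by
    obtain ⟨x, s, F⟩ := hfar y hy
    have hy0 : 0 < ‖y‖ := one_pos.trans_le (hR1.trans hy.le)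
    have e1 : pd i lam y = x i := by rw [← F.hY, pd_lam_Y hS F.hx F.hU.le]
    rw [e1, pow_one, le_div_iff₀ hy0]
    unfold th
    have e2 : |x i - y i / ‖y‖| * ‖y‖ = |(‖y‖ - s) * x i - (y - s • x) i| := by
      rw [← abs_of_pos hy0, ← abs_mul, abs_of_pos hy0]
      congr 1
      simp only [PiLp.sub_apply, PiLp.smul_apply, smul_eq_mul]
      field_simp
      ring
    rw [e2]
    have b1 : |(‖y‖ - s) * x i| ≤ G := by
      rw [abs_mul]
      have := abs_coord_le x i
      rw [F.hx] at this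
      calc _ ≤ G * 1 := mul_le_mul F.h2 this (abs_nonneg _) (by linarith only [hG1])
        _ = G := mul_one G
    have b2 := (abs_coord_le (y - s • x) i).trans F.h1
    have b3 := abs_sub ((‖y‖ - s) * x i) ((y - s • x) i)
    linarith only [b1, b2, b3]
  simpa using this

/-- the Hessian of `λ` at far points -/
lemma hs_far {G : ℝ} (hG1 : 1 ≤ G) (hH : ∀ x : E 3, ‖x‖ = 1 → ∀ i j, |H353.hs C.H i j x| ≤ G)
    (F : FarPt C f D G y x s) : (∀ i j, |H353.hs lam i j y| ≤ 18 / s) ∧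
      ∀ i j, |s * H353.hs lam i j y - pr x i j| ≤ G * (18 / s) * 3 := by
  have hs0 : 0 < s := by linarith only [F.h4, hG1]
  have key : ∀ i j, s * H353.hs lam i j y = pr x i j - ∑ k, H353.hs lam i k y * H353.hs C.H k j x := by
    intro i j
    have h1 := hs_lam_Y hS F.hx F.hU.le i j
    have h2 := hs_lam_mul_x hS F.hx F.hU.le i
    rw [F.hY] at h1 h2
    have e : ∑ k, H353.hs lam i k y * Ws C.H s x k j =
        ∑ k, H353.hs lam i k y * H353.hs C.H k j x + s * H353.hs lam i j y -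
        s * x j * ∑ k, H353.hs lam i k y * x k := by
      have e1 : ∑ k, H353.hs lam i k y * kd k j = H353.hs lam i j y := by simp [kd]
      rw [← e1, Finset.mul_sum, Finset.mul_sum, ← Finset.sum_add_distrib, ← Finset.sum_sub_distrib]
      refine Finset.sum_congr rfl fun k _ => ?_
      unfold Ws pr
      ring
    rw [e, h2] at h1
    linarith only [h1]
  have hpr : ∀ i j, |pr x i j| ≤ 2 := by
    intro i j
    unfold pr kd
    have b1 := abs_coord_le x i
    have b2 := abs_coord_le x j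
    rw [F.hx] at b1 b2
    have b3 : |x i * x j| ≤ 1 := by rw [abs_mul]; exact mul_le_one₀ b1 (abs_nonneg _) b2
    have b4 : |(if i = j then (1 : ℝ) else 0)| ≤ 1 := by split_ifs <;> simp
    have := abs_sub (if i = j then (1 : ℝ) else 0) (x i * x j)
    linarith only [this, b3, b4]
  set μ : Fin 3 → ℝ := fun i => ∑ k, |H353.hs lam i k y| with hμ
  have hsum : ∀ i j, |∑ k, H353.hs lam i k y * H353.hs C.H k j x| ≤ μ i * G := by
    intro i j
    refine (Finset.abs_sum_le_sum_abs _ _).trans ?_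
    rw [hμ, Finset.sum_mul]
    refine Finset.sum_le_sum fun k _ => ?_
    rw [abs_mul]
    exact mul_le_mul_of_nonneg_left (hH x F.hx k j) (abs_nonneg _)
  have hμ0 : ∀ i, 0 ≤ μ i := fun i => Finset.sum_nonneg fun k _ => abs_nonneg _
  have hμs : ∀ i, s * μ i ≤ 6 + 3 * (μ i * G) := by
    intro i
    have h1 : ∀ j, s * |H353.hs lam i j y| ≤ 2 + μ i * G := by
      intro j
      have e1 : s * |H353.hs lam i j y| = |s * H353.hs lam i j y| := by
        rw [abs_mul, abs_of_pos hs0]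
      rw [e1, key i j]
      exact (abs_sub _ _).trans (add_le_add (hpr i j) (hsum i j))
    have h2 : s * μ i = ∑ j, s * |H353.hs lam i j y| := by rw [hμ, Finset.mul_sum]
    rw [h2, Fin.sum_univ_three]
    linarith only [h1 0, h1 1, h1 2]
  have hμ' : ∀ i, μ i ≤ 12 / s := by
    intro i
    rw [le_div_iff₀ hs0]
    have h1 := hμs i
    have h2 : 6 * (μ i * G) ≤ s * μ i := by
      have := mul_le_mul_of_nonneg_right F.h4 (hμ0 i)
      linarith only [this]
    linarith only [h1, h2]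
  constructor
  · intro i j
    have h1 : |H353.hs lam i j y| ≤ μ i :=
      Finset.single_le_sum (f := fun k => |H353.hs lam i k y|) (fun k _ => abs_nonneg _)
        (Finset.mem_univ j)
    refine h1.trans ((hμ' i).trans ?_)
    exact div_le_div_of_nonneg_right (by norm_num) hs0.le
  · intro i j
    have e1 : s * H353.hs lam i j y - pr x i j = -∑ k, H353.hs lam i k y * H353.hs C.H k j x := by
      linarith only [key i j]
    rw [e1, abs_neg]
    refine (hsum i j).trans ?_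
    have h1 := hμ' i
    have h2 : 12 / s ≤ 18 / s := div_le_div_of_nonneg_right (by norm_num) hs0.le
    have h3 : 0 ≤ 18 / s := by positivity
    calc μ i * G ≤ (18 / s) * G := mul_le_mul_of_nonneg_right (h1.trans h2) (by linarith only [hG1])
      _ = G * (18 / s) := mul_comm _ _
      _ ≤ G * (18 / s) * 3 := by
        have : 0 ≤ G * (18 / s) := mul_nonneg (by linarith only [hG1]) h3
        linarith only [this]

lemma BO_hs (i j : Fin 3) : BO 1 (H353.hs lam i j) := by
  obtain ⟨G, R, hG1, hR1, hG, hH, hfar⟩ := exists_far hS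
  have := BO.of_le (e := H353.hs lam i j) (K := 36) (R := R) 1 (by norm_num) fun y hy => by
    obtain ⟨x, s, F⟩ := hfar y hy
    have hy0 : 0 < ‖y‖ := one_pos.trans_le (hR1.trans hy.le)
    have hs0 : 0 < s := by linarith only [F.h4, hG1]
    refine ((hs_far hS hG1 hH F).1 i j).trans ?_
    rw [pow_one, div_le_div_iff₀ hs0 hy0]
    linarith only [F.h3]
  simpa using this

lemma BO_lap : BO 2 fun y => lap lam y - 2 / ‖y‖ := by
  obtain ⟨G, R, hG1, hR1, hG, hH, hfar⟩ := exists_far hS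
  have := BO.of_le (e := fun y => lap lam y - 2 / ‖y‖) (K := 2000 * G) (R := R) 2
    (by linarith only [hG1]) fun y hy => by
    obtain ⟨x, s, F⟩ := hfar y hy
    have hy0 : 0 < ‖y‖ := one_pos.trans_le (hR1.trans hy.le)
    have hs0 : 0 < s := by linarith only [F.h4, hG1]
    have h1 := (hs_far hS hG1 hH F).2
    have h2 := tr_pr F.hx
    have e1 : s * (lap lam y - 2 / ‖y‖) = (∑ i, (s * H353.hs lam i i y - pr x i i)) +
        2 * (‖y‖ - s) / ‖y‖ := by
      rw [Finset.sum_sub_distrib, ← Finset.mul_sum]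
      unfold tr3 at h2
      rw [h2]
      unfold lap
      field_simp
      ring
    have h3 : |∑ i, (s * H353.hs lam i i y - pr x i i)| ≤ 9 * (G * (18 / s)) := by
      refine (Finset.abs_sum_le_sum_abs _ _).trans ?_
      rw [Fin.sum_univ_three]
      linarith only [h1 0 0, h1 1 1, h1 2 2]
    have h4 : |2 * (‖y‖ - s) / ‖y‖| ≤ 2 * G / ‖y‖ := by
      rw [abs_div, abs_norm, abs_mul, abs_two]
      exact div_le_div_of_nonneg_right (by linarith only [F.h2]) hy0.le
    have h5 : s * |lap lam y - 2 / ‖y‖| ≤ 9 * (G * (18 / s)) + 2 * G / ‖y‖ := by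
      rw [← abs_of_pos hs0, ← abs_mul, abs_of_pos hs0, e1]
      exact (abs_add_le _ _).trans (add_le_add h3 h4)
    have h6 : 18 / s ≤ 36 / ‖y‖ := by
      rw [div_le_div_iff₀ hs0 hy0]; linarith only [F.h3]
    have h7 : s * |lap lam y - 2 / ‖y‖| ≤ 400 * G / ‖y‖ := by
      have : G * (18 / s) ≤ G * (36 / ‖y‖) := mul_le_mul_of_nonneg_left h6 (by linarith only [hG1])
      calc s * |lap lam y - 2 / ‖y‖| ≤ 9 * (G * (36 / ‖y‖)) + 2 * G / ‖y‖ := by
            linarith only [h5, this]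
        _ = 326 * G / ‖y‖ := by ring
        _ ≤ 400 * G / ‖y‖ := div_le_div_of_nonneg_right (by linarith only [hG1]) hy0.le
    have h8 : ‖y‖ * |lap lam y - 2 / ‖y‖| ≤ 2 * (400 * G / ‖y‖) := by
      have := mul_le_mul_of_nonneg_right F.h3 (abs_nonneg (lap lam y - 2 / ‖y‖))
      linarith only [this, h7]
    rw [le_div_iff₀ (by positivity)]
    have h9 := mul_le_mul_of_nonneg_left h8 hy0.le
    have e2 : ‖y‖ * (2 * (400 * G / ‖y‖)) = 800 * G := by field_simp; ring
    rw [e2] at h9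
    have e3 : |lap lam y - 2 / ‖y‖| * ‖y‖ ^ 2 = ‖y‖ * (‖y‖ * |lap lam y - 2 / ‖y‖|) := by ring
    rw [e3]
    linarith only [h9, hG1]
  simpa using this

end KSx

end Vale.Agent.P366.H296
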