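import Vale.Agent.P366.H296.X5b

/-! Kerr-Schild exteriors: the momentum flux far out. -/

open MeasureTheory Metric Filter Topology Set
open scoped ContDiff ENNReal

noncomputable section
namespace Vale.Agent.P366.H296.KSx

open Vale.Agent.P366 (pd E)
open Vale.Agent.P366.H353
open Vale.Agent.P366.KS

variable {C : Cone} {lam f : E 3 → ℝ} {V : E 4 → ℝ} {D : Stmt.Exterior 3} {x y : E 3} {s t : ℝ}
variable {G : ℝ}

/-- the lapse -/
def NN (V : E 4 → ℝ) (y : E 3) : ℝ := 1 / √(1 + V0 V y)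

lemma FarPt.spdf (F : FarPt C f D G y x s) (i : Fin 3) : Stmt.pd i f y = 0 := by
  have hd : DifferentiableAt ℝ f y := F.hf.differentiableAt_iff.mpr (differentiableAt_const _)
  rw [Vale.Agent.P366.Bridge.pd_eq hd, F.pdf]

lemma FarPt.spdf2 (F : FarPt C f D G y x s) (i j : Fin 3) :
    Stmt.pd i (Stmt.pd j f) y = 0 := by
  have h1 : Stmt.pd j f =ᶠ[𝓝 y] fun _ => 0 := by
    have hF := F.hf
    unfold Filter.EventuallyEq at hF
    filter_upwards [eventually_eventually_nhds.2 hF] with z hz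
    have hz' : f =ᶠ[𝓝 z] fun _ => 0 := hz
    have hd : DifferentiableAt ℝ f z := hz'.differentiableAt_iff.mpr (differentiableAt_const _)
    rw [Vale.Agent.P366.Bridge.pd_eq hd, Vale.Agent.P366.pd_congr hz' j,
      Vale.Agent.P366.pd_const]
  have hd : DifferentiableAt ℝ (Stmt.pd j f) y :=
    h1.differentiableAt_iff.mpr (differentiableAt_const _)
  rw [Vale.Agent.P366.Bridge.pd_eq hd, Vale.Agent.P366.pd_congr h1 i, Vale.Agent.P366.pd_const]

/-- the second fundamental form at far points -/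
lemma FarPt.K (hS : IsSlice C lam V f D) (hV : ∀ p ∈ Region lam f D, ContDiffAt ℝ ∞ V p)
    (F : FarPt C f D G y x s) : ∃ κ : ℝ, ∀ i j, D.K y i j = NN V y * (-(V0 V y * H353.hs lam i j y) -
      (pd i (V0 V) y * pd j lam y + pd j (V0 V) y * pd i lam y) / 2 +
      κ * (pd i lam y * pd j lam y)) := by
  have hF := F.hF.le
  have hl := hS.smL y hF
  have hf0 : f y = 0 := F.hf.self_of_nhds
  have hVp := hV _ (F.mem hS)
  have hnn := F.nn hS
  refine ⟨(pd 0 V (pt 0 y) - V (pt 0 y) * (- pd 0 V (pt 0 y) +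
    ∑ k : Fin 3, pd k lam y * pd k.succ V (pt 0 y))) / 2, fun i j => ?_⟩
  rw [hS.sff y hF, X2.indK_eq hl hnn (F.hs_n hS) (by rw [hf0]; exact hVp), hf0]
  have hln : ∑ i, Stmt.pd i lam y * Stmt.pd i lam y = 1 := by
    rw [← hnn]
    exact Finset.sum_congr rfl fun i _ => by rw [X2.stmt_pd' hl i, sq]
  rw [X2.lapse_eq V f hln, hf0]
  simp only [F.spdf, F.spdf2, X2.stmt_pd' hl, X2.stmt_pd2 hl, X2.cot]
  have e1 : ∀ k : Fin 3, pd k.succ V (pt 0 y) = pd k (V0 V) y := fun k =>
    (pd_pt (hVp.differentiableAt (by simp)) k).symm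
  simp only [e1]
  unfold NN V0
  simp only [zero_mul, mul_zero, Finset.sum_const_zero, sub_zero, add_zero, zero_add, one_pow,
    mul_one, zero_sub]
  unfold H353.hs
  ring

/-- the inverse metric at far points -/
lemma FarPt.up (hS : IsSlice C lam V f D) (F : FarPt C f D G y x s) (i j : Fin 3) :
    Stmt.up D.g i j y = kd i j - V0 V y / (1 + V0 V y) * (pd i lam y * pd j lam y) := by
  have hp := (F.one_add_pos (V := V) hS).ne'
  have hnn := F.nn hS
  have e : Stmt.mat D.g y * (Matrix.of fun i j => kd i j -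
      V0 V y / (1 + V0 V y) * (pd i lam y * pd j lam y)) = 1 := by
    ext a c
    rw [Matrix.mul_apply]
    have h1 : ∀ b, Stmt.mat D.g y a b * (Matrix.of fun i j => kd i j -
        V0 V y / (1 + V0 V y) * (pd i lam y * pd j lam y)) b c =
        kd a b * kd b c + V0 V y * pd a lam y * (pd b lam y * kd b c) -
        V0 V y / (1 + V0 V y) * pd c lam y * (kd a b * pd b lam y) -
        V0 V y * (V0 V y / (1 + V0 V y)) * pd a lam y * pd c lam y * pd b lam y ^ 2 := by
      intro b
      rw [Matrix.of_apply]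
      unfold Stmt.mat
      rw [F.g hS]
      ring
    have h2 : ∑ b, kd a b * kd b c = kd a c := by simp [kd]
    have h3 : ∑ b, pd b lam y * kd b c = pd c lam y := by simp [kd]
    have h4 : ∑ b, kd a b * pd b lam y = pd a lam y := by simp [kd]
    simp only [h1, Finset.sum_add_distrib, Finset.sum_sub_distrib, ← Finset.mul_sum, hnn, h2, h3, h4]
    rw [Matrix.one_apply]
    have h5 : kd a c = if a = c then 1 else 0 := rfl
    rw [← h5]
    field_simp
    ring
  unfold Stmt.up
  rw [Matrix.inv_eq_right_inv e, Matrix.of_apply]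

/-- the momentum tensor applied to the normal -/
lemma FarPt.momT_n (hS : IsSlice C lam V f D) (hV : ∀ p ∈ Region lam f D, ContDiffAt ℝ ∞ V p)
    (F : FarPt C f D G y x s) (i : Fin 3) :
    ∑ j, Stmt.momT D.g D.K y i j * pd j lam y =
      NN V y * ((1 + V0 V y) * V0 V y * lap lam y * pd i lam y -
        (pd i (V0 V) y - (∑ k, pd k (V0 V) y * pd k lam y) * pd i lam y) / 2) := by
  obtain ⟨κ, hK⟩ := F.K hS hV
  have hp := (F.one_add_pos (V := V) hS).ne'
  have hnn := F.nn hS
  have hhn := F.hs_n hS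
  set v := V0 V y
  set N := NN V y
  set n : Fin 3 → ℝ := fun i => pd i lam y with hn
  set W : Fin 3 → ℝ := fun i => pd i (V0 V) y with hW
  have e1 : ∀ i, ∑ j, D.K y i j * n j = N * (-(W i + (∑ k, W k * n k) * n i) / 2 + κ * n i) := by
    intro i
    have : ∑ j, D.K y i j * n j = N * (-(v * (∑ j, H353.hs lam i j y * n j)) -
        (W i * (∑ j, n j ^ 2) + (∑ k, W k * n k) * n i) / 2 + κ * n i * ∑ j, n j ^ 2) := by
      simp only [hK, Fin.sum_univ_three]
      ring
    rw [this, hhn i, hnn]; ring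
  have e2 : ∑ i, D.K y i i = N * (-(v * lap lam y) - (∑ k, W k * n k) + κ) := by
    have : ∑ i, D.K y i i = N * (-(v * lap lam y) - (∑ k, W k * n k) + κ * ∑ j, n j ^ 2) := by
      simp only [hK, lap, Fin.sum_univ_three]
      ring
    rw [this, hnn]; ring
  have e3 : Stmt.tr D.g D.K y = N * (-(v * lap lam y) + 1 / (1 + v) * (κ - ∑ k, W k * n k)) := by
    have h1 : Stmt.tr D.g D.K y = (∑ i, D.K y i i) - v / (1 + v) * ∑ i, n i * ∑ j, D.K y i j * n j := by
      unfold Stmt.tr
      have up' : ∀ i j, Stmt.up D.g i j y = kd i j - v / (1 + v) * (n i * n j) :=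
        fun i j => F.up hS i j
      simp only [up']
      have a1 : ∀ i j, (kd i j - v / (1 + v) * (n i * n j)) * D.K y i j =
          kd i j * D.K y i j - v / (1 + v) * (n i * (D.K y i j * n j)) := fun i j => by
        ring
      have a2 : ∑ i, ∑ j, kd i j * D.K y i j = ∑ i, D.K y i i :=
        Finset.sum_congr rfl fun i _ => by simp [kd]
      simp only [a1, Finset.sum_sub_distrib, ← Finset.mul_sum, a2]
    rw [h1, e2]
    have h2 : ∑ i, n i * ∑ j, D.K y i j * n j = N * (κ - ∑ k, W k * n k) := by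
      have : ∑ i, n i * ∑ j, D.K y i j * n j = N * (-((∑ k, W k * n k) +
          (∑ k, W k * n k) * ∑ i, n i ^ 2) / 2 + κ * ∑ i, n i ^ 2) := by
        simp only [e1, Fin.sum_univ_three]
        ring
      rw [this, hnn]; ring
    rw [h2]
    field_simp
    ring
  have e4 : ∑ j, D.g y i j * n j = (1 + v) * n i := by
    have : ∑ j, D.g y i j * n j = ∑ j, kd i j * n j + v * n i * ∑ j, n j ^ 2 := by
      simp only [F.g hS, Fin.sum_univ_three]
      ring
    rw [this, hnn]
    have : ∑ j, kd i j * n j = n i := by simp [kd]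
    rw [this]; ring
  have e5 : ∑ j, Stmt.momT D.g D.K y i j * n j = ∑ j, D.K y i j * n j -
      Stmt.tr D.g D.K y * ∑ j, D.g y i j * n j := by
    unfold Stmt.momT
    rw [Finset.mul_sum, ← Finset.sum_sub_distrib]
    exact Finset.sum_congr rfl fun j _ => by ring
  rw [e5, e1, e3, e4]
  field_simp
  ring

/-! ### orders -/

lemma BO_NN (hS : IsSlice C lam V f D) {q : ℝ} (hq : 0 < q) (hVq : BO q (V0 V)) :
    BO q (fun y => NN V y - 1) := by
  obtain ⟨C1, R1, hC1, hR1, h1⟩ := hVq
  have ht : Tendsto (fun r : ℝ => C1 * r ^ (-q)) atTop (𝓝 0) := by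
    have := (tendsto_rpow_neg_atTop hq).const_mul C1
    rwa [mul_zero] at this
  obtain ⟨R2, hR2⟩ := (ht.eventually (gt_mem_nhds (show (0 : ℝ) < 1 / 2 by
    norm_num))).exists_forall_of_atTop
  refine ⟨2 * C1, max R1 R2, by positivity, hR1.trans (le_max_left _ _), fun y hy => ?_⟩
  have a1 := h1 y ((le_max_left _ _).trans_lt hy)
  have a2 : |V0 V y| < 1 / 2 := a1.trans_lt (hR2 _ ((le_max_right _ _).trans hy.le))
  have a3 := abs_lt.mp a2
  unfold NN
  set v := V0 V y
  have hv : (1 : ℝ) / 2 < 1 + v := by linarith only [a3.1]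
  set r := √(1 + v)
  have hr2 : r ^ 2 = 1 + v := Real.sq_sqrt (by linarith only [hv])
  have hr0 : 0 < r := Real.sqrt_pos.mpr (by linarith only [hv])
  have hrh : 1 / 2 ≤ r := by
    by_contra hcon
    push Not at hcon
    nlinarith only [hcon, hr2, hv, hr0]
  have e : 1 / r - 1 = -v / (r * (1 + r)) := by
    field_simp
    nlinarith only [hr2]
  show |1 / r - 1| ≤ _
  rw [e, abs_div, abs_neg, abs_of_pos (by positivity : 0 < r * (1 + r))]
  rw [div_le_iff₀ (by positivity)]
  have h3 : (1 : ℝ) / 2 ≤ r * (1 + r) := by nlinarith only [hrh]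
  have h4 : 0 ≤ ‖y‖ ^ (-q) := Real.rpow_nonneg (norm_nonneg _) _
  calc |v| ≤ C1 * ‖y‖ ^ (-q) := a1
    _ = 2 * C1 * ‖y‖ ^ (-q) * (1 / 2) := by ring
    _ ≤ 2 * C1 * ‖y‖ ^ (-q) * (r * (1 + r)) :=
        mul_le_mul_of_nonneg_left h3 (by positivity)

lemma BO_up (hS : IsSlice C lam V f D) {q : ℝ} (hq : 0 < q) (hVq : BO q (V0 V)) (i j : Fin 3) :
    BO 0 (fun y => Stmt.up D.g i j y) := by
  obtain ⟨G, R, hG1, hR1, hG, hH, hfar⟩ := exists_far hS
  obtain ⟨C1, R1, hC1, hR1', h1⟩ := hVq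
  have ht : Tendsto (fun r : ℝ => C1 * r ^ (-q)) atTop (𝓝 0) := by
    have := (tendsto_rpow_neg_atTop hq).const_mul C1
    rwa [mul_zero] at this
  obtain ⟨R2, hR2⟩ := (ht.eventually (gt_mem_nhds (show (0 : ℝ) < 1 / 2 by
    norm_num))).exists_forall_of_atTop
  refine BO.bdd (K := 2) (max R (max R1 R2)) fun y hy => ?_
  obtain ⟨x, s, F⟩ := hfar y ((le_max_left _ _).trans_lt hy)
  have a1 := h1 y (((le_max_left _ _).trans (le_max_right _ _)).trans_lt hy)
  have a2 : |V0 V y| < 1 / 2 := a1.trans_lt (hR2 _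
    (((le_max_right _ _).trans (le_max_right _ _)).trans hy.le))
  rw [F.up hS]
  have a3 := abs_lt.mp a2
  have hn : ∀ i, |pd i lam y| ≤ 1 := fun i => by
    rw [← F.hY, pd_lam_Y hS F.hx F.hU.le]
    have := abs_coord_le x i
    rwa [F.hx] at this
  have b1 : |V0 V y / (1 + V0 V y)| ≤ 1 := by
    have hp : 0 < 1 + V0 V y := by linarith only [a3.1]
    rw [abs_div, abs_of_pos hp, div_le_one hp]
    linarith only [a2, a3.1]
  have b2 : |pd i lam y * pd j lam y| ≤ 1 := by
    rw [abs_mul]; exact mul_le_one₀ (hn i) (abs_nonneg _) (hn j)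
  have b3 : |V0 V y / (1 + V0 V y) * (pd i lam y * pd j lam y)| ≤ 1 := by
    rw [abs_mul]; exact mul_le_one₀ b1 (abs_nonneg _) b2
  have b4 : |kd i j| ≤ 1 := by unfold kd; split_ifs <;> simp
  have := abs_sub (kd i j) (V0 V y / (1 + V0 V y) * (pd i lam y * pd j lam y))
  linarith only [this, b3, b4]

lemma BO_momT (hS : IsSlice C lam V f D) {q : ℝ} (hq : 0 < q) (hVq : BO q (V0 V))
    (hK : ∀ i j, Stmt.BigO (q + 1) (fun x => D.K x i j)) (i j : Fin 3) :
    BO (q + 1) (fun y => Stmt.momT D.g D.K y i j) := by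
  have htr : BO (q + 1) (fun y => Stmt.tr D.g D.K y) := by
    unfold Stmt.tr
    exact BO.sum _ fun i => BO.sum _ fun j => (BO_up hS hq hVq i j).bmul (BO.of_bigO (hK i j))
  have hg : BO 0 (fun y => D.g y i j) := by
    obtain ⟨G, R, hG1, hR1, hG, hH, hfar⟩ := exists_far hS
    have h1 : BO 0 fun y => kd i j + V0 V y * (pd i lam y * pd j lam y) := by
      have h2 : BO 0 fun y => pd i lam y * pd j lam y := by
        have := (BO_n hS i).mul (BO_n hS j)
        rwa [zero_add] at this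
      have h3 := (hVq.mono hq.le).mul h2
      rw [zero_add] at h3
      exact (BO.const (kd i j)).add h3
    refine h1.congr (R := R) fun y hy => ?_
    obtain ⟨x, s, F⟩ := hfar y hy
    rw [F.g hS]; ring
  unfold Stmt.momT
  exact (BO.of_bigO (hK i j)).sub ((hg.bmul htr).congr (R := 0) fun y _ => mul_comm _ _)

/-- the main part of the momentum flux -/
def mainP (V : E 4 → ℝ) (i : Fin 3) (y : E 3) : ℝ :=
  2 / ‖y‖ * V0 V y * th i y - (pd i (V0 V) y - (∑ k, pd k (V0 V) y * th k y) * th i y) / 2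

lemma BO_err (hS : IsSlice C lam V f D) (hV : ∀ p ∈ Region lam f D, ContDiffAt ℝ ∞ V p)
    {q : ℝ} (hq : 1 / 2 < q) (hVq : BO q (V0 V)) (hdV : ∀ k, BO (q + 1) (pd k (V0 V)))
    (hK : ∀ i j, Stmt.BigO (q + 1) (fun x => D.K x i j)) (i : Fin 3) :
    ∃ a : ℝ, 2 < a ∧ BO a (fun y => (∑ j, Stmt.momT D.g D.K y i j * th j y) - mainP V i y) := by
  have hq0 : 0 < q := by linarith only [hq]
  obtain ⟨G, R, hG1, hR1, hG, hH, hfar⟩ := exists_far hS
  set a := min (2 * q + 1) (q + 2) with ha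
  have ha1 : a ≤ 2 * q + 1 := min_le_left _ _
  have ha2 : a ≤ q + 2 := min_le_right _ _
  refine ⟨a, lt_min (by linarith only [hq]) (by linarith only [hq0]), ?_⟩
  have hn := BO_n hS
  have hdn := BO_n_sub hS
  have hN := BO_NN hS hq0 hVq
  have hlap : BO 1 (fun y => lap lam y) := by
    have h1 : BO 1 fun y : E 3 => 2 * (1 / ‖y‖) := BO.inv_len.cmul 2
    have h2 := ((BO_lap hS).mono (by norm_num : (1 : ℝ) ≤ 2)).add h1
    refine h2.congr (R := 0) fun y _ => ?_
    ring
  -- the bracket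
  have hWn : BO (q + 1) fun y => ∑ k, pd k (V0 V) y * pd k lam y :=
    BO.sum _ fun k => ((hn k).bmul (hdV k)).congr (R := 0) fun y _ => mul_comm _ _
  have hbr : BO (q + 1) fun y => (1 + V0 V y) * V0 V y * lap lam y * pd i lam y -
      (pd i (V0 V) y - (∑ k, pd k (V0 V) y * pd k lam y) * pd i lam y) / 2 := by
    have h1 : BO (q + 1) fun y => V0 V y * lap lam y := hVq.mul hlap
    have h2 : BO 0 fun y => (1 + V0 V y) * pd i lam y := by
      have := ((BO.const 1).add (hVq.mono hq0.le)).mul (hn i)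
      rwa [zero_add] at this
    have h3 := h2.bmul h1
    have h4 : BO (q + 1) fun y => (∑ k, pd k (V0 V) y * pd k lam y) * pd i lam y :=
      ((hn i).bmul hWn).congr (R := 0) fun y _ => mul_comm _ _
    have h5 := ((hdV i).sub h4).cmul (1 / 2)
    exact (h3.sub h5).congr (R := 0) fun y _ => by ring
  have e1 := (hN.mul hbr).mono (show a ≤ q + (q + 1) by linarith only [ha1])
  have e2 : BO a fun y => V0 V y * V0 V y * (lap lam y * pd i lam y) := by
    have h1 := (hVq.mul hVq).mul ((hlap.mul (hn i)))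
    exact h1.mono (by linarith only [ha1])
  have e3 : BO a fun y => V0 V y * (lap lam y - 2 / ‖y‖) * pd i lam y := by
    exact ((hVq.mul (BO_lap hS)).mul (hn i)).mono (by linarith only [ha2])
  have e4 : BO a fun y => 2 * (V0 V y * (1 / ‖y‖) * (pd i lam y - th i y)) :=
    (((hVq.mul BO.inv_len).mul (hdn i)).mono (by linarith only [ha2])).cmul 2
  have e5 : BO a fun y => (∑ k, pd k (V0 V) y * (pd k lam y - th k y)) * pd i lam y := by
    have h1 : BO (q + 1 + 1) fun y => ∑ k, pd k (V0 V) y * (pd k lam y - th k y) :=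
      BO.sum _ fun k => (hdV k).mul (hdn k)
    exact (h1.mul (hn i)).mono (by linarith only [ha2])
  have e6 : BO a fun y => (∑ k, pd k (V0 V) y * th k y) * (pd i lam y - th i y) := by
    have h1 : BO (q + 1) fun y => ∑ k, pd k (V0 V) y * th k y :=
      BO.sum _ fun k => ((BO_th k).bmul (hdV k)).congr (R := 0) fun y _ => mul_comm _ _
    exact (h1.mul (hdn i)).mono (by linarith only [ha2])
  have e7 : BO a fun y => ∑ j, Stmt.momT D.g D.K y i j * (pd j lam y - th j y) :=
    BO.sum _ fun j => ((BO_momT hS hq0 hVq hK i j).mul (hdn j)).mono (by linarith only [ha2])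
  have htot := (((((e1.add e2).add e3).add e4).add (e5.cmul (1 / 2))).add (e6.cmul (1 / 2))).sub e7
  refine htot.congr (R := R) fun y hy => ?_
  obtain ⟨x, s, F⟩ := hfar y hy
  have h1 := F.momT_n hS hV i
  have h2 : ∑ j, Stmt.momT D.g D.K y i j * th j y = ∑ j, Stmt.momT D.g D.K y i j * pd j lam y -
      ∑ j, Stmt.momT D.g D.K y i j * (pd j lam y - th j y) := by
    rw [← Finset.sum_sub_distrib]
    exact Finset.sum_congr rfl fun j _ => by ring
  have h3 : ∑ k, pd k (V0 V) y * (pd k lam y - th k y) = ∑ k, pd k (V0 V) y * pd k lam y -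
      ∑ k, pd k (V0 V) y * th k y := by
    rw [← Finset.sum_sub_distrib]
    exact Finset.sum_congr rfl fun k _ => by ring
  rw [h2, h1, h3]
  unfold mainP
  ring

end Vale.Agent.P366.H296.KSx
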