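import Vale.Agent.P366.H296.X4b

/-! Kerr-Schild exteriors: the Piola identity with a linear weight. -/

open MeasureTheory Metric Filter Topology Set
open scoped ContDiff

noncomputable section
namespace Vale.Agent.P366.H296

open Vale.Agent.P366 (sphI sphM pd E)
open Vale.Agent.P366.H353

variable {H : E 3 → ℝ} {x : E 3}

lemma gr_smooth_all {V : E 3 → ℝ} (hH : Sm H) (h1 : Hom 1 H)
    (hV : ∀ x : E 3, ‖x‖ = 1 → ContDiffAt ℝ ∞ V (gr H x)) :
    ∀ x : E 3, x ≠ 0 → ContDiffAt ℝ ∞ V (gr H x) := by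
  intro x hx
  have hn : 0 < ‖x‖ := norm_pos_iff.mpr hx
  have hx1 : ‖‖x‖⁻¹ • x‖ = 1 := by
    rw [norm_smul, norm_inv, norm_norm, inv_mul_cancel₀ hn.ne']
  have h := hV _ hx1
  rwa [gr_hom hH h1 hx (inv_pos.mpr hn)] at h

lemma cd_pd {V : E 3 → ℝ} {y : E 3} (h : ContDiffAt ℝ ∞ V y) (j : Fin 3) :
    ContDiffAt ℝ ∞ (pd j V) y := (h.fderiv_right (m := ∞) (by simp)).clm_apply contDiffAt_const

/-- The Piola identity with the projection. -/
theorem piola_pr (hH : Sm H) (h1 : Hom 1 H) {G : Fin 3 → E 3 → ℝ}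
    (hG : ∀ j x, x ≠ 0 → ContDiffAt ℝ ∞ (G j) (gr H x)) :
    S2 (fun x => det2 (fun i j => hs H i j x) * ∑ j, ∑ k, pr x j k * pd k (G j) (gr H x)) =
    S2 (fun x => lap H x * ∑ j, x j * G j (gr H x)) := by
  rw [← piola hH h1 hG]
  refine S2_congr fun x hx => ?_
  have h0 := ne_zero_of_one hx
  have hch := cayley (M := fun i j => hs H i j x) hx (hs_symm hH h0) (hs_x hH h1 h0)
  set y := gr H x
  have e1 : lap H x * (∑ j, ∑ k, hs H j k x * pd k (G j) y) -
      ∑ i, ∑ j, hs H i j x * ∑ k, hs H i k x * pd k (G j) y =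
      ∑ j, ∑ k, (tr3 (fun i j => hs H i j x) * hs H j k x - ∑ i, hs H i j x * hs H i k x) *
        pd k (G j) y := by
    have e2 : ∑ i, ∑ j, hs H i j x * ∑ k, hs H i k x * pd k (G j) y =
        ∑ j, ∑ k, (∑ i, hs H i j x * hs H i k x) * pd k (G j) y := by
      rw [Finset.sum_comm]
      refine Finset.sum_congr rfl fun j _ => ?_
      simp only [Finset.mul_sum, Finset.sum_mul]
      rw [Finset.sum_comm]
      refine Finset.sum_congr rfl fun k _ => Finset.sum_congr rfl fun i _ => ?_
      ring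
    rw [e2, Finset.mul_sum, ← Finset.sum_sub_distrib]
    refine Finset.sum_congr rfl fun j _ => ?_
    rw [Finset.mul_sum, ← Finset.sum_sub_distrib]
    refine Finset.sum_congr rfl fun k _ => ?_
    unfold tr3 lap
    ring
  rw [e1]
  simp only [hch, mul_assoc, ← Finset.mul_sum]

/-- The Piola identity with a linear weight. -/
theorem piola_w {V : E 3 → ℝ} (hH : Sm H) (h1 : Hom 1 H)
    (hV : ∀ x : E 3, ‖x‖ = 1 → ContDiffAt ℝ ∞ V (gr H x)) (i : Fin 3) :
    S2 (fun x => gr H x i * (det2 (fun i j => hs H i j x) * (lap V (gr H x) -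
      ∑ j, ∑ k, x j * x k * hs V j k (gr H x)))) =
    S2 (fun x => lap H x * (gr H x i * (∑ j, x j * pd j V (gr H x)) - x i * V (gr H x))) := by
  have hV' := gr_smooth_all hH h1 hV
  have hco : ∀ y : E 3, ContDiffAt ℝ ∞ (fun y : E 3 => y i) y := fun y =>
    (contDiff_piLp_apply (p := 2) (i := i)).contDiffAt
  have hG : ∀ (j : Fin 3) (x : E 3), x ≠ 0 →
      ContDiffAt ℝ ∞ (fun y => y i * pd j V y - kd i j * V y) (gr H x) := fun j x hx =>
    ((hco _).mul (cd_pd (hV' x hx) j)).sub (contDiffAt_const.mul (hV' x hx))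
  have h := piola_pr hH h1 (G := fun j y => y i * pd j V y - kd i j * V y) hG
  have e1 : S2 (fun x => det2 (fun i j => hs H i j x) * ∑ j, ∑ k, pr x j k *
      pd k (fun y => y i * pd j V y - kd i j * V y) (gr H x)) =
      S2 (fun x => gr H x i * (det2 (fun i j => hs H i j x) * (lap V (gr H x) -
      ∑ j, ∑ k, x j * x k * hs V j k (gr H x)))) := by
    refine S2_congr fun x hx => ?_
    have h0 := ne_zero_of_one hx
    set y := gr H x
    have hVy : DifferentiableAt ℝ V y := (hV' x h0).differentiableAt (by simp)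
    have hVj : ∀ j, DifferentiableAt ℝ (pd j V) y := fun j =>
      (cd_pd (hV' x h0) j).differentiableAt (by simp)
    have hci : DifferentiableAt ℝ (fun y : E 3 => y i) y := (hco y).differentiableAt (by simp)
    have k1 : ∀ j k, pd k (fun y => y i * pd j V y - kd i j * V y) y =
        y i * hs V k j y + kd k i * pd j V y - kd i j * pd k V y := by
      intro j k
      have a1 : DifferentiableAt ℝ (fun y : E 3 => y i * pd j V y) y := hci.mul (hVj j)
      have a2 : DifferentiableAt ℝ (fun y : E 3 => kd i j * V y) y :=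
        (differentiableAt_const _).mul hVy
      rw [Vale.Agent.P366.pd_sub a1 a2, Vale.Agent.P366.pd_mul hci (hVj j),
        Vale.Agent.P366.pd_mul (differentiableAt_const _) hVy, Vale.Agent.P366.pd_const,
        Vale.Agent.P366.pd_coord]
      unfold hs kd
      ring
    simp only [k1]
    have hsym : ∀ j k, pr x j k = pr x k j := pr_symm x
    have k2 : ∑ j, ∑ k, pr x j k * (y i * hs V k j y + kd k i * pd j V y - kd i j * pd k V y) =
        y i * (∑ j, ∑ k, pr x j k * hs V k j y) := by
      have b1 : ∑ j, ∑ k, pr x j k * (kd k i * pd j V y) = ∑ j, pr x j i * pd j V y := by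
        refine Finset.sum_congr rfl fun j _ => ?_
        simp [kd]
      have b2 : ∑ j, ∑ k, pr x j k * (kd i j * pd k V y) = ∑ k, pr x i k * pd k V y := by
        rw [Finset.sum_comm]
        refine Finset.sum_congr rfl fun k _ => ?_
        simp [kd]
      have b3 : ∑ j, pr x j i * pd j V y = ∑ k, pr x i k * pd k V y :=
        Finset.sum_congr rfl fun j _ => by rw [hsym j i]
      have b4 : ∑ j, ∑ k, pr x j k * (y i * hs V k j y + kd k i * pd j V y - kd i j * pd k V y) =
          y i * (∑ j, ∑ k, pr x j k * hs V k j y) + ∑ j, ∑ k, pr x j k * (kd k i * pd j V y) -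
          ∑ j, ∑ k, pr x j k * (kd i j * pd k V y) := by
        simp only [Finset.mul_sum, ← Finset.sum_add_distrib, ← Finset.sum_sub_distrib]
        exact Finset.sum_congr rfl fun j _ => Finset.sum_congr rfl fun k _ => by ring
      rw [b4, b1, b2, b3]; ring
    have k3 : ∑ j, ∑ k, pr x j k * hs V k j y = lap V y - ∑ j, ∑ k, x j * x k * hs V j k y := by
      unfold lap pr
      simp only [sub_mul, Finset.sum_sub_distrib]
      have c1 : ∑ j, ∑ k, kd j k * hs V k j y = ∑ j, hs V j j y :=
        Finset.sum_congr rfl fun j _ => by simp [kd]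
      have c2 : ∑ j, ∑ k, x j * x k * hs V k j y = ∑ j, ∑ k, x j * x k * hs V j k y := by
        rw [Finset.sum_comm]
        exact Finset.sum_congr rfl fun j _ => Finset.sum_congr rfl fun k _ => by ring
      rw [c1, c2]
    rw [k2, k3]; ring
  have e2 : S2 (fun x => lap H x * ∑ j, x j * (gr H x i * pd j V (gr H x) -
      kd i j * V (gr H x))) =
      S2 (fun x => lap H x * (gr H x i * (∑ j, x j * pd j V (gr H x)) - x i * V (gr H x))) := by
    refine S2_congr fun x hx => ?_
    have c1 : ∑ j, x j * (gr H x i * pd j V (gr H x) - kd i j * V (gr H x)) =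
        gr H x i * (∑ j, x j * pd j V (gr H x)) - x i * V (gr H x) := by
      have c2 : ∑ j, x j * (kd i j * V (gr H x)) = x i * V (gr H x) := by simp [kd]
      rw [← c2, Finset.mul_sum, ← Finset.sum_sub_distrib]
      exact Finset.sum_congr rfl fun j _ => by ring
    rw [c1]
  rw [e1, e2] at h
  exact h

end Vale.Agent.P366.H296
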