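import Vale.Agent.P366.H296.X4
import Vale.Agent.P366.H296.X8a

/-! Kerr-Schild exteriors: the momentum vanishes. -/

open MeasureTheory Metric Filter Topology Set
open scoped ContDiff ENNReal

noncomputable section
namespace Vale.Agent.P366.H296.KSx

open Vale.Agent.P366 (pd E)
open Vale.Agent.P366.H353
open Vale.Agent.P366.KS
open Vale.Agent.P366.H296 (gr Hp)

variable {C : Cone} {lam f : E 3 → ℝ} {V : E 4 → ℝ} {D : Stmt.Exterior 3} {x y : E 3} {s t : ℝ}

/-- the values of `V` on the level sets of the slice -/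
def vv (C : Cone) (V : E 4 → ℝ) (s : ℝ) (x : E 3) : ℝ := V (pt 0 (Y C.H x s))

/-- the derivative of `V` along the rays of the slice -/
def vd (C : Cone) (V : E 4 → ℝ) (s : ℝ) (x : E 3) : ℝ :=
  ∑ j, x j * pd j (fun z => V (pt 0 z)) (Y C.H x s)

/-- the surface Laplacian of `V` times the area density -/
def vz (C : Cone) (V : E 4 → ℝ) (s : ℝ) (x : E 3) : ℝ :=
  det2 (Ws C.H s x) * (lap (fun z => V (pt 0 z)) (Y C.H x s) -
    ∑ j, ∑ k, x j * x k * H353.hs (fun z => V (pt 0 z)) j k (Y C.H x s)) -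
  tr3 (Ws C.H s x) * vd C V s x

lemma cM {f g : E 3 → ℝ} (hf : ContinuousOn f (sphere (0 : E 3) 1))
    (hg : ContinuousOn g (sphere (0 : E 3) 1)) :
    ContinuousOn (fun x => f x * g x) (sphere (0 : E 3) 1) := hf.mul hg

lemma cA {f g : E 3 → ℝ} (hf : ContinuousOn f (sphere (0 : E 3) 1))
    (hg : ContinuousOn g (sphere (0 : E 3) 1)) :
    ContinuousOn (fun x => f x + g x) (sphere (0 : E 3) 1) := hf.add hg

lemma cK {f : E 3 → ℝ} (c : ℝ) (hf : ContinuousOn f (sphere (0 : E 3) 1)) :
    ContinuousOn (fun x => c * f x) (sphere (0 : E 3) 1) := continuousOn_const.mul hf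

lemma cont_coord (i : Fin 3) : Continuous fun y : E 3 => y i :=
  (EuclideanSpace.proj (𝕜 := ℝ) i).continuous

lemma cont_Y (C : Cone) (a b : ℝ) :
    ContinuousOn (fun p : ℝ × E 3 => Y C.H p.2 p.1) (Icc a b ×ˢ sphere 0 1) := by
  have e : (fun p : ℝ × E 3 => Y C.H p.2 p.1) = fun p : ℝ × E 3 => gr C.H p.2 + p.1 • p.2 := by
    funext p; exact Y_gr _ _ _
  rw [e]
  have h1 : ContinuousOn (gr C.H) (sphere (0 : E 3) 1) := fun x hx =>
    (H296.gr_contDiffAt C.smH (ne_zero_of_one (by simpa using hx))).continuousAt.continuousWithinAt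
  exact (h1.comp continuousOn_snd fun p hp => hp.2).add
    (continuous_fst.smul continuous_snd).continuousOn

lemma cont_tr (C : Cone) (a b : ℝ) :
    ContinuousOn (fun p : ℝ × E 3 => tr3 (Ws C.H p.1 p.2)) (Icc a b ×ˢ sphere 0 1) := by
  have h : ContinuousOn (fun p : ℝ × E 3 => lap C.H p.2 + 2 * p.1) (Icc a b ×ˢ sphere 0 1) :=
    (C.smH.lap.contOn.comp continuousOn_snd fun p hp => hp.2).add
      (continuous_const.mul continuous_fst).continuousOn
  exact h.congr fun p hp => tr3_Ws C (by simpa using hp.2) p.1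

lemma cont_comp (C : Cone) {F : E 3 → ℝ} {a b : ℝ}
    (hF : ∀ s ∈ Icc a b, ∀ x : E 3, ‖x‖ = 1 → ContinuousAt F (Y C.H x s)) :
    ContinuousOn (fun p : ℝ × E 3 => F (Y C.H p.2 p.1)) (Icc a b ×ˢ sphere 0 1) := by
  intro p hp
  exact ContinuousAt.comp_continuousWithinAt (g := F)
    (f := fun p : ℝ × E 3 => Y C.H p.2 p.1) (x := p)
    (hF p.1 hp.1 p.2 (by simpa using hp.2)) (cont_Y C a b p hp)

lemma cd_slice {y : E 3} (hV : ContDiffAt ℝ ∞ V (pt 0 y)) :
    ContDiffAt ℝ ∞ (fun z => V (pt 0 z)) y :=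
  ContDiffAt.comp y (g := V) (f := fun z : E 3 => pt 0 z) hV
    (pt_contDiff.comp (contDiff_const.prodMk contDiff_id)).contDiffAt

lemma hasDerivAt_vv (hV : ContDiffAt ℝ ∞ V (pt 0 (Y C.H x s))) :
    HasDerivAt (fun s => vv C V s x) (vd C V s x) s := by
  have h1 := ((cd_slice hV).differentiableAt (by simp)).hasFDerivAt
  have h2 : HasDerivAt (fun s => Y C.H x s) x s := by
    have e : (fun s => Y C.H x s) = fun s : ℝ => gr C.H x + s • x := by
      funext r; exact Y_gr _ _ _
    rw [e]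
    have h3 := ((hasDerivAt_id s).smul_const x).const_add (gr C.H x)
    rw [one_smul] at h3
    exact h3
  have h3 := h1.comp_hasDerivAt s h2
  unfold vd
  rw [← Vale.Agent.P366.fderiv_eq_sum_pd]
  exact h3

/-- the weighted mass function is nondecreasing -/
lemma weighted_mono (hS : IsSlice C lam V f D)
    (hV : ∀ p ∈ Region lam f D, ContDiffAt ℝ ∞ V p ∧ DECat (ksG lam V) (nul lam) p)
    {L1 L2 B σ : ℝ} (h12 : L1 ≤ L2) (i : Fin 3) (h0 : 0 < L1)
    (hfar : ∀ L, L1 ≤ L → ∀ x : E 3, ‖x‖ = 1 → C.U x < L ∧ f (Y C.H x L) = 0)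
    (hB : ∀ s ∈ Icc L1 L2, ∀ x : E 3, ‖x‖ = 1 → 0 ≤ B + σ * Y C.H x s i) :
    S2 (fun x => (B + σ * Y C.H x L1 i) * (vv C V L1 x * tr3 (Ws C.H L1 x))) ≤
      S2 (fun x => (B + σ * Y C.H x L2 i) * (vv C V L2 x * tr3 (Ws C.H L2 x))) := by
  have hVs : ∀ s ∈ Icc L1 L2, ∀ x : E 3, ‖x‖ = 1 → ContDiffAt ℝ ∞ V (pt 0 (Y C.H x s)) := by
    intro s hs x hx
    obtain ⟨a1, a2⟩ := hfar s hs.1 x hx
    exact (hV _ (mem_region' hS hx a1.le (by linarith only [h0, hs.1]) (by rw [a2]))).1
  have cY : ContinuousOn (fun p : ℝ × E 3 => Y C.H p.2 p.1 i) (Icc L1 L2 ×ˢ sphere 0 1) :=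
    (cont_coord i).comp_continuousOn (cont_Y C L1 L2)
  have cw : ContinuousOn (fun p : ℝ × E 3 => B + σ * Y C.H p.2 p.1 i) (Icc L1 L2 ×ˢ sphere 0 1) :=
    continuousOn_const.add (continuousOn_const.mul cY)
  have cv : ContinuousOn (fun p : ℝ × E 3 => vv C V p.1 p.2) (Icc L1 L2 ×ˢ sphere 0 1) :=
    cont_comp C (F := fun z => V (pt 0 z)) fun s hs x hx => (cd_slice (hVs s hs x hx)).continuousAt
  have cvd : ContinuousOn (fun p : ℝ × E 3 => vd C V p.1 p.2) (Icc L1 L2 ×ˢ sphere 0 1) := by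
    refine continuousOn_finsetSum _ fun j _ => ContinuousOn.mul ?_ ?_
    · exact ((cont_coord j).comp continuous_snd).continuousOn
    · exact cont_comp C fun s hs x hx => (H296.cd_pd (cd_slice (hVs s hs x hx)) j).continuousAt
  have ct := cont_tr C L1 L2
  refine H296.S2_mono_param
    (g := fun s x => (B + σ * Y C.H x s i) * (vv C V s x * tr3 (Ws C.H s x)))
    (g' := fun s x => σ * x i * (vv C V s x * tr3 (Ws C.H s x)) +
      (B + σ * Y C.H x s i) * (vd C V s x * tr3 (Ws C.H s x) + vv C V s x * 2)) h12 ?_ ?_ ?_ ?_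
  · exact cw.mul (cv.mul ct)
  · refine ContinuousOn.add (ContinuousOn.mul ?_ (cv.mul ct))
      (cw.mul ((cvd.mul ct).add (cv.mul continuousOn_const)))
    exact (continuous_const.mul ((cont_coord i).comp continuous_snd)).continuousOn
  · intro s hs x hx
    have k1 := hasDerivAt_vv (C := C) (hVs s (Ioo_subset_Icc_self hs) x hx)
    have k2 : HasDerivAt (fun s => tr3 (Ws C.H s x)) 2 s := by
      have e : (fun s => tr3 (Ws C.H s x)) = fun s => lap C.H x + 2 * s := by
        funext r; exact tr3_Ws C hx r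
      rw [e]
      have h3 := ((hasDerivAt_id s).const_mul 2).const_add (lap C.H x)
      rw [mul_one] at h3
      exact h3
    have k3 : HasDerivAt (fun s => B + σ * Y C.H x s i) (σ * x i) s := by
      have h3 : HasDerivAt (fun s : ℝ => pd i C.H x + s * x i) (x i) s := by
        have h4 := ((hasDerivAt_id s).mul_const (x i)).const_add (pd i C.H x)
        rw [one_mul] at h4
        exact h4
      exact (h3.const_mul σ).const_add B
    exact k3.mul (k1.mul k2)
  · intro s hs
    have hs' := Ioo_subset_Icc_self hs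
    have hVy := hVs s hs'
    -- slices of the continuous functions
    have c1 := H296.slice_cont (g := fun s x => B + σ * Y C.H x s i) cw hs'
    have c2 := H296.slice_cont (g := fun s x => vv C V s x) cv hs'
    have c3 := H296.slice_cont (g := fun s x => vd C V s x) cvd hs'
    have c4 := H296.slice_cont (g := fun s x => tr3 (Ws C.H s x)) ct hs'
    have cxi : ContinuousOn (fun x : E 3 => x i) (sphere 0 1) :=
      (cont_coord i).continuousOn
    have cYi := H296.slice_cont (g := fun s x => Y C.H x s i) cY hs'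
    -- the function on space
    set W : E 3 → ℝ := fun z => V (pt 0 z) with hW
    have hWg : ∀ x : E 3, ‖x‖ = 1 → ContDiffAt ℝ ∞ W (gr (Hp C.H s) x) := fun x hx => by
      rw [H296.gr_Hp C.smH hx, ← Y_gr]
      exact cd_slice (hVy x hx)
    have hWg' := H296.gr_smooth_all (H296.sm_Hp C.smH s) (H296.hom_Hp C.homH s) hWg
    have cLap : ContinuousOn (fun x => lap W (gr (Hp C.H s) x) -
        ∑ j, ∑ k, x j * x k * H353.hs W j k (gr (Hp C.H s) x)) (sphere (0 : E 3) 1) := by
      have sH : ∀ j k, Sm fun x => H353.hs W j k (gr (Hp C.H s) x) := fun j k =>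
        H296.sm_comp_gr (H296.sm_Hp C.smH s) fun x hx => H296.cd_pd (H296.cd_pd (hWg' x hx) k) j
      exact ((Sm.sum _ fun i => sH i i).sub (Sm.sum _ fun j => Sm.sum _ fun k =>
        ((Sm.coord j).mul (Sm.coord k)).mul (sH j k))).contOn
    have cdet : ContinuousOn (fun x => det2 (fun i j => H353.hs (Hp C.H s) i j x))
        (sphere (0 : E 3) 1) := by
      have sh := fun i j => (H296.sm_Hp C.smH s).hs i j
      have : Sm fun x => det2 (fun i j => H353.hs (Hp C.H s) i j x) := by
        unfold det2 tr3 ip3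
        exact (((Sm.sum _ fun i => sh i i).pow 2).sub (Sm.sum _ fun i => Sm.sum _ fun j =>
          (sh i j).mul (sh i j))).div (Sm.const 2) fun _ _ => two_ne_zero
      exact this.contOn
    have eW : ∀ x : E 3, ‖x‖ = 1 → (fun i j => H353.hs (Hp C.H s) i j x) = Ws C.H s x :=
      fun x hx => funext fun i => funext fun j => H296.hs_Hp C.smH hx i j
    have czA : ContinuousOn (fun x => det2 (fun i j => H353.hs (Hp C.H s) i j x) *
        (lap W (gr (Hp C.H s) x) -
        ∑ j, ∑ k, x j * x k * H353.hs W j k (gr (Hp C.H s) x))) (sphere (0 : E 3) 1) :=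
      cdet.mul cLap
    have ez : ∀ x : E 3, ‖x‖ = 1 → vz C V s x =
        det2 (fun i j => H353.hs (Hp C.H s) i j x) * (lap W (gr (Hp C.H s) x) -
        ∑ j, ∑ k, x j * x k * H353.hs W j k (gr (Hp C.H s) x)) -
        tr3 (Ws C.H s x) * vd C V s x := by
      intro x hx
      unfold vz
      rw [eW x hx, H296.gr_Hp C.smH hx, ← Y_gr]
    have cz : ContinuousOn (vz C V s) (sphere (0 : E 3) 1) :=
      (czA.sub (c4.mul c3)).congr fun x hx => ez x (by simpa using hx)
    -- the two identities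
    have id1 : S2 (vz C V s) = 0 := by
      have h := H296.piola_V (H296.sm_Hp C.smH s) (H296.hom_Hp C.homH s) hWg
      rw [S2_congr ez, S2_sub czA (cM c4 c3), h, sub_eq_zero]
      refine S2_congr fun x hx => ?_
      rw [H296.lap_Hp C.smH hx, H296.gr_Hp C.smH hx, ← Y_gr, ← tr3_Ws C hx]
      rfl
    have id2 : S2 (fun x => Y C.H x s i * vz C V s x) =
        - S2 (fun x => x i * (vv C V s x * tr3 (Ws C.H s x))) := by
      have h := H296.piola_w (H296.sm_Hp C.smH s) (H296.hom_Hp C.homH s) hWg i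
      have e1 : S2 (fun x => Y C.H x s i * vz C V s x) =
          S2 (fun x => gr (Hp C.H s) x i * (det2 (fun i j => H353.hs (Hp C.H s) i j x) *
            (lap W (gr (Hp C.H s) x) - ∑ j, ∑ k, x j * x k * H353.hs W j k (gr (Hp C.H s) x))) -
            Y C.H x s i * (tr3 (Ws C.H s x) * vd C V s x)) := by
        refine S2_congr fun x hx => ?_
        rw [ez x hx, H296.gr_Hp C.smH hx, ← Y_gr]
        ring
      have cgi : ContinuousOn (fun x => gr (Hp C.H s) x i) (sphere (0 : E 3) 1) :=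
        cYi.congr fun x hx => by
          rw [H296.gr_Hp C.smH (by simpa using hx), ← Y_gr]
      rw [e1, S2_sub (cM cgi czA) (cM cYi (cM c4 c3)), h]
      have e2 : S2 (fun x => lap (Hp C.H s) x * (gr (Hp C.H s) x i *
          (∑ j, x j * pd j W (gr (Hp C.H s) x)) - x i * W (gr (Hp C.H s) x))) =
          S2 (fun x => Y C.H x s i * (tr3 (Ws C.H s x) * vd C V s x) -
            x i * (vv C V s x * tr3 (Ws C.H s x))) := by
        refine S2_congr fun x hx => ?_
        rw [H296.lap_Hp C.smH hx, H296.gr_Hp C.smH hx, ← Y_gr, ← tr3_Ws C hx]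
        unfold vd vv
        ring
      rw [e2, S2_sub (cM cYi (cM c4 c3)) (cM cxi (cM c2 c4))]
      ring
    -- pointwise inequality
    have hpt : ∀ x : E 3, ‖x‖ = 1 → vz C V s x ≤ vd C V s x * tr3 (Ws C.H s x) +
        vv C V s x * 2 := by
      intro x hx
      obtain ⟨a1, a2⟩ := hfar s hs'.1 x hx
      have b1 := ineq_a hS hV hx a1 (t := 0) (by linarith only [h0, hs'.1]) (by rw [a2])
      have b2 := ineq_b hS hV hx a1 (t := 0) (by linarith only [h0, hs'.1]) (by rw [a2])
      unfold vz vd vv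
      linarith only [b1, b2]
    have hle : S2 (fun x => σ * (x i * (vv C V s x * tr3 (Ws C.H s x))) +
        (B * vz C V s x + σ * (Y C.H x s i * vz C V s x))) ≤
        S2 (fun x => σ * x i * (vv C V s x * tr3 (Ws C.H s x)) +
      (B + σ * Y C.H x s i) * (vd C V s x * tr3 (Ws C.H s x) + vv C V s x * 2)) := by
      refine S2_mono ?_ ?_ fun x hx => ?_
      · exact (continuousOn_const.mul (cxi.mul (c2.mul c4))).add
          ((continuousOn_const.mul cz).add (continuousOn_const.mul (cYi.mul cz)))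
      · exact ((continuousOn_const.mul cxi).mul (c2.mul c4)).add
          (c1.mul ((c3.mul c4).add (c2.mul continuousOn_const)))
      · have b3 := mul_le_mul_of_nonneg_left (hpt x hx) (hB s hs' x hx)
        linarith only [b3]
    have hzero : S2 (fun x => σ * (x i * (vv C V s x * tr3 (Ws C.H s x))) +
        (B * vz C V s x + σ * (Y C.H x s i * vz C V s x))) = 0 := by
      rw [S2_add (cK σ (cM cxi (cM c2 c4))) (cA (cK B cz) (cK σ (cM cYi cz))),
        S2_add (cK B cz) (cK σ (cM cYi cz)), S2_cmul, S2_cmul, S2_cmul, id1, id2]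
      ring
    rw [hzero] at hle
    exact hle

end Vale.Agent.P366.H296.KSx
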